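import Vale.Agent.P092.H100.Gr1

/-!
P092 (helper100), TEAM N, block [N-GR], part 2: the action of `SL`, `GL` on the Grassmannian;
transitivity of `SL`.
-/

set_option linter.all false

open TopologicalSpace Topology Module Set
open scoped Matrix

namespace Vale.Agent.P092.H100.Gr

section act

variable {k : Type*} [Field k] {ι : Type*} {i j : ℕ} {G : Type*} [Group G]
  [DistribMulAction G (ι → k)] [SMulCommClass G k (ι → k)]

/-- the linear automorphism -/
def lm (k : Type*) [Field k] (ι : Type*) {G : Type*} [Group G] [DistribMulAction G (ι → k)]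
    [SMulCommClass G k (ι → k)] (g : G) : (ι → k) ≃ₗ[k] (ι → k) :=
  DistribMulAction.toLinearEquiv k (ι → k) g

theorem lm_apply (g : G) (x : ι → k) : lm k ι g x = g • x := rfl

instance actGr : MulAction G (Gr k ι j) where
  smul g L := ⟨L.1.map (lm k ι g : (ι → k) →ₗ[k] (ι → k)),
    (LinearEquiv.finrank_map_eq (lm k ι g) L.1).trans L.2⟩
  one_smul L := by
    refine Subtype.ext ?_
    change L.1.map (lm k ι (1 : G) : (ι → k) →ₗ[k] (ι → k)) = L.1
    have e : (lm k ι (1 : G) : (ι → k) →ₗ[k] (ι → k)) = LinearMap.id :=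
      LinearMap.ext fun x => one_smul G x
    rw [e, Submodule.map_id]
  mul_smul g h L := by
    refine Subtype.ext ?_
    change L.1.map (lm k ι (g * h) : (ι → k) →ₗ[k] (ι → k)) =
      (L.1.map (lm k ι h : (ι → k) →ₗ[k] (ι → k))).map (lm k ι g : (ι → k) →ₗ[k] (ι → k))
    have e : (lm k ι (g * h) : (ι → k) →ₗ[k] (ι → k)) =
        (lm k ι g : (ι → k) →ₗ[k] (ι → k)) ∘ₗ (lm k ι h : (ι → k) →ₗ[k] (ι → k)) :=
      LinearMap.ext fun x => mul_smul g h x
    rw [e, Submodule.map_comp]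

theorem smul_val (g : G) (L : Gr k ι j) :
    (g • L).1 = L.1.map (lm k ι g : (ι → k) →ₗ[k] (ι → k)) := rfl

theorem mem_smul {g : G} {L : Gr k ι j} {x : ι → k} : x ∈ (g • L).1 ↔ g⁻¹ • x ∈ L.1 := by
  constructor
  · rintro ⟨y, hy, rfl⟩
    change g⁻¹ • g • y ∈ L.1
    rwa [inv_smul_smul]
  · intro h
    exact ⟨g⁻¹ • x, h, smul_inv_smul g x⟩

theorem smul_mem {g : G} {L : Gr k ι j} {x : ι → k} (h : x ∈ L.1) : g • x ∈ (g • L).1 :=
  ⟨x, h, rfl⟩

theorem smul_le {g : G} {L : Gr k ι i} {M : Gr k ι j} : (g • L).1 ≤ (g • M).1 ↔ L.1 ≤ M.1 := by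
  constructor
  · intro h x hx
    obtain ⟨y, hy, e⟩ := h (smul_mem (g := g) hx)
    have e' : g • y = g • x := e
    rw [← (MulAction.injective g) e']
    exact hy
  · intro h
    exact Submodule.map_mono h

/-- the action on the frames -/
def smF (g : G) (v : Fr k ι j) : Fr k ι j :=
  ⟨fun b => g • v.1 b, by
    have := v.2.map' (lm k ι g : (ι → k) →ₗ[k] (ι → k)) (LinearEquiv.ker _)
    exact this⟩

theorem sp_smF (g : G) (v : Fr k ι j) : sp (smF g v) = g • sp v := by
  refine Subtype.ext ?_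
  change Submodule.span k (range fun b => g • v.1 b) =
    (Submodule.span k (range v.1)).map (lm k ι g : (ι → k) →ₗ[k] (ι → k))
  rw [Submodule.map_span, ← range_comp]
  rfl

end act

section top

variable {k : Type*} [NontriviallyNormedField k] {ι : Type*} [Fintype ι] {i j : ℕ}
  {G : Type*} [TopologicalSpace G] [Group G] [DistribMulAction G (ι → k)]
  [SMulCommClass G k (ι → k)]

theorem smul_incG (g : G) (L : Gr k ι i) (M : Gr k ι j) :
    (g • L, g • M) ∈ incG k ι i j ↔ (L, M) ∈ incG k ι i j := smul_le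

instance csGr [ContinuousSMul G (ι → k)] : ContinuousSMul G (Gr k ι j) where
  continuous_smul := by
    have hq : IsOpenQuotientMap (Prod.map (id : G → G) (sp : Fr k ι j → Gr k ι j)) :=
      IsOpenQuotientMap.id.prodMap sp_oq
    rw [← hq.continuous_comp_iff]
    have : ((fun p : G × Gr k ι j => p.1 • p.2) ∘ Prod.map id sp) =
        sp ∘ fun p : G × Fr k ι j => smF p.1 p.2 := by
      funext p
      exact (sp_smF _ _).symm
    rw [this]
    refine sp_cont.comp (Continuous.subtype_mk ?_ _)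
    refine continuous_pi fun b => ?_
    exact continuous_fst.smul ((continuous_apply b).comp (fr_val_cont.comp continuous_snd))

end top

section trans

variable {k : Type*} [Field k] {ι : Type*} [Fintype ι] [DecidableEq ι] {i j : ℕ}

/-- rescaling off a proper subspace -/
theorem exists_rescale {L : Submodule k (ι → k)} (hL : L ≠ ⊤) {δ : k} (hδ : δ ≠ 0) :
    ∃ S : Matrix ι ι k, S.det = δ ∧ ∀ x ∈ L, S *ᵥ x = x := by
  obtain ⟨f, hf, hfL⟩ := Submodule.exists_le_ker_of_lt_top L (lt_top_iff_ne_top.2 hL)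
  obtain ⟨w, hw⟩ : ∃ w, f w ≠ 0 := by
    by_contra hc
    push Not at hc
    exact hf (LinearMap.ext hc)
  obtain ⟨r, hr⟩ : ∃ r : ι → k, ∀ x, f x = r ⬝ᵥ x := by
    refine ⟨fun i => f (Pi.single i 1), fun x => ?_⟩
    conv_lhs => rw [pi_eq_sum_univ' x]
    rw [map_sum, dotProduct]
    refine Finset.sum_congr rfl fun i _ => ?_
    rw [map_smul, smul_eq_mul, mul_comm]
  let u : ι → k := ((δ - 1) / f w) • w
  refine ⟨1 + Matrix.replicateCol Unit u * Matrix.replicateRow Unit r, ?_, fun x hx => ?_⟩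
  · rw [Matrix.det_one_add_replicateCol_mul_replicateRow, ← hr]
    change 1 + f (((δ - 1) / f w) • w) = δ
    rw [map_smul, smul_eq_mul, div_mul_cancel₀ _ hw]
    ring
  · have h0 : f x = 0 := hfL hx
    rw [hr] at h0
    rw [Matrix.add_mulVec, Matrix.one_mulVec]
    have e : (Matrix.replicateCol Unit u * Matrix.replicateRow Unit r) *ᵥ x = 0 := by
      rw [← Matrix.mulVec_mulVec]
      have e1 : Matrix.replicateRow Unit r *ᵥ x = 0 := by
        funext _
        exact h0
      rw [e1, Matrix.mulVec_zero]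
    rw [e, add_zero]

/-- a linear automorphism carrying one subspace to another one can be corrected to
determinant one. -/
theorem exists_sl {L : Submodule k (ι → k)} (hL : L ≠ ⊤) (e : (ι → k) ≃ₗ[k] (ι → k)) :
    ∃ g : Matrix.SpecialLinearGroup ι k, ∀ x, e x ∈ L → g • x = e x := by
  let M : Matrix ι ι k := LinearMap.toMatrix' (e : (ι → k) →ₗ[k] (ι → k))
  have hM : M.det ≠ 0 := by
    rw [LinearMap.det_toMatrix']
    exact (LinearEquiv.isUnit_det' e).ne_zero
  obtain ⟨S, hS, hSL⟩ := exists_rescale hL (inv_ne_zero hM)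
  refine ⟨⟨S * M, by rw [Matrix.det_mul, hS, inv_mul_cancel₀ hM]⟩, fun x hx => ?_⟩
  change (S * M) *ᵥ x = e x
  rw [← Matrix.mulVec_mulVec]
  have e1 : M *ᵥ x = e x := by
    change LinearMap.toMatrix' (e : (ι → k) →ₗ[k] (ι → k)) *ᵥ x = e x
    rw [LinearMap.toMatrix'_mulVec]
    rfl
  rw [e1]
  exact hSL _ hx

theorem exists_equiv {L L' : Submodule k (ι → k)} (h : finrank k L = finrank k L') :
    ∃ e : (ι → k) ≃ₗ[k] (ι → k), L.map (e : (ι → k) →ₗ[k] (ι → k)) = L' := by
  obtain ⟨C, hC⟩ := Submodule.exists_isCompl L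
  obtain ⟨C', hC'⟩ := Submodule.exists_isCompl L'
  have h1 := Submodule.finrank_add_eq_of_isCompl hC
  have h2 := Submodule.finrank_add_eq_of_isCompl hC'
  have h3 : finrank k C = finrank k C' := by omega
  let eL : L ≃ₗ[k] L' := LinearEquiv.ofFinrankEq L L' h
  let eC : C ≃ₗ[k] C' := LinearEquiv.ofFinrankEq C C' h3
  let e : (ι → k) ≃ₗ[k] (ι → k) := (Submodule.prodEquivOfIsCompl L C hC).symm ≪≫ₗ
    (eL.prodCongr eC) ≪≫ₗ Submodule.prodEquivOfIsCompl L' C' hC'
  have he : ∀ x : L, e x = eL x := by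
    intro x
    change Submodule.prodEquivOfIsCompl L' C' hC' ((eL.prodCongr eC)
      ((Submodule.prodEquivOfIsCompl L C hC).symm x)) = _
    rw [Submodule.prodEquivOfIsCompl_symm_apply_left]
    simp
  refine ⟨e, ?_⟩
  refine Submodule.eq_of_le_of_finrank_eq ?_ ?_
  · rintro _ ⟨x, hx, rfl⟩
    change e x ∈ L'
    rw [he ⟨x, hx⟩]
    exact (eL ⟨x, hx⟩).2
  · rw [← h]
    exact LinearEquiv.finrank_map_eq e L

theorem ne_top_of_lt {L : Submodule k (ι → k)} (h : finrank k L < Fintype.card ι) : L ≠ ⊤ := by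
  intro he
  rw [he, finrank_top, finrank_fintype_fun_eq_card] at h
  exact lt_irrefl _ h

/-- **`SL` is transitive on the Grassmannian.** -/
theorem exists_smul (hj : j < Fintype.card ι) (L L' : Gr k ι j) :
    ∃ g : Matrix.SpecialLinearGroup ι k, g • L = L' := by
  obtain ⟨e, he⟩ := exists_equiv (L.2.trans L'.2.symm)
  have hL' : L'.1 ≠ ⊤ := ne_top_of_lt (by rw [L'.2]; exact hj)
  obtain ⟨g, hg⟩ := exists_sl hL' e
  refine ⟨g, Subtype.ext ?_⟩
  rw [smul_val]
  refine Submodule.eq_of_le_of_finrank_eq ?_ ?_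
  · rintro _ ⟨x, hx, rfl⟩
    have h1 : e x ∈ L'.1 := by
      rw [← he]
      exact ⟨x, hx, rfl⟩
    change g • x ∈ L'.1
    rw [hg x h1]
    exact h1
  · have := LinearEquiv.finrank_map_eq (lm k ι g) L.1
    rw [L'.2]
    exact this.trans L.2

instance pretGr [Fact (j < Fintype.card ι)] :
    MulAction.IsPretransitive (Matrix.SpecialLinearGroup ι k) (Gr k ι j) :=
  ⟨fun L L' => exists_smul Fact.out L L'⟩

end trans

end Vale.Agent.P092.H100.Gr
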