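import Vale.Agent.P092.H264.Fix
import Vale.Agent.P092.H132.Jop
import Vale.Agent.P092.H103.CA1

/-!
P092 (helper100, text mainly by helper828), team C, block [C-ERG]: a measurable equivariant field of
operators over a group, which is invariant under the left translations of a set with the Moore
property (for example an escaping sequence in a Howe–Moore group), is a scalar.
-/

set_option linter.all false

open scoped InnerProductSpace Topology ENNReal
open Filter Topology ContinuousLinearMap MeasureTheory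

namespace Vale.Agent.P092.H100

open Vale.Agent.P092.H160 Vale.Agent.P092.H790 Vale.Agent.P092.H85 Vale.Agent.P092.H103
open Vale.Agent.P092.H132 (jop jop_one jop_mul jop_comm jop_omega adjoint_jop)
open Vale.Agent.P092.H933 (fixedSub mem_fixedSub HoweMoore)
open Vale.Agent.P092.H264 (HMSeq tendsto_proj continuous_of_one)

section vec

variable {E : Type} [Group E] [TopologicalSpace E] [IsTopologicalGroup E] [LocallyCompactSpace E]
  [SecondCountableTopology E] [T2Space E] [MeasurableSpace E] [BorelSpace E]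
  {Λ : Subgroup E} [DiscreteTopology Λ] [MeasurableSpace (E ⧸ Λ)] [BorelSpace (E ⧸ Λ)]
  {ν : Measure (E ⧸ Λ)} [IsProbabilityMeasure ν] (hν : ∀ g : E, ν.map (fun x => g • x) = ν)
  [Countable Λ]

theorem ae_left {p : E → Prop} (hp : ∀ᵐ h ∂(Measure.haar : Measure E), p h) (g : E) :
    ∀ᵐ h ∂(Measure.haar : Measure E), p (g * h) :=
  (measurePreserving_mul_left (Measure.haar : Measure E) g).quasiMeasurePreserving.ae hp

theorem ae_right {p : E → Prop} (hp : ∀ᵐ h ∂(Measure.haar : Measure E), p h) (g : E) :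
    ∀ᵐ h ∂(Measure.haar : Measure E), p (h * g) :=
  (quasiMeasurePreserving_mul_right (Measure.haar : Measure E) g).ae hp

theorem ae_inv {p : E → Prop} (hp : ∀ᵐ h ∂(Measure.haar : Measure E), p h) :
    ∀ᵐ h ∂(Measure.haar : Measure E), p h⁻¹ :=
  (quasiMeasurePreserving_inv (Measure.haar : Measure E)).ae hp

include hν in
/-- A property which holds almost everywhere on the group holds almost everywhere on the
fundamental domain. -/
theorem ae_sec {p : E → Prop} (hp : ∀ᵐ h ∂(Measure.haar : Measure E), p h) :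
    ∀ᵐ x ∂ν, ∀ v : Λ, p (sec Λ x * v) := by
  haveI hcl : IsClosed (Λ : Set E) := Subgroup.isClosed_of_discrete
  obtain ⟨m, hm⟩ : ∃ m : Measure E, m = Measure.haar := ⟨_, rfl⟩
  haveI : SFinite m := by rw [hm]; infer_instance
  obtain ⟨M, hM⟩ : ∃ M : Set E, M = toMeasurable (Measure.haar : Measure E) {h | ¬ p h} := ⟨_, rfl⟩
  have hMm : MeasurableSet M := by rw [hM]; exact measurableSet_toMeasurable _ _
  have hM0 : ∀ᵐ h ∂(Measure.haar : Measure E), h ∉ M := by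
    rw [← measure_eq_zero_iff_ae_notMem, hM, measure_toMeasurable]; exact hp
  obtain ⟨M', hM'⟩ : ∃ M' : Set E, M' = {h | ∃ v : Λ, h * (v : E) ∈ M} := ⟨_, rfl⟩
  have hM'm : MeasurableSet M' := by
    have e : M' = ⋃ v : Λ, (fun h => h * (v : E)) ⁻¹' M := by
      rw [hM']
      ext h
      simp only [Set.mem_setOf_eq, Set.mem_iUnion, Set.mem_preimage]
    rw [e]
    exact MeasurableSet.iUnion fun v => (measurable_mul_const (v : E)) hMm
  have hM'0 : ∀ k : E, ∀ᵐ g ∂(Measure.haar : Measure E), g * k ∉ M' := by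
    intro k
    have h1 : ∀ v : Λ, ∀ᵐ g ∂(Measure.haar : Measure E), g * k * v ∉ M := fun v =>
      ae_right (ae_right hM0 (v : E)) k
    filter_upwards [ae_all_iff.2 h1] with g hg
    rw [hM']
    rintro ⟨v, hv⟩
    exact hg v hv
  have h2 : ∀ᵐ g ∂(Measure.haar : Measure E), ∀ᵐ x ∂ν, g * sec Λ x ∉ M' := by
    refine (Measure.ae_ae_comm (μ := (Measure.haar : Measure E)) (ν := ν)
      (p := fun g x => g * sec Λ x ∉ M') ?_).2 (Eventually.of_forall fun x => hM'0 _)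
    exact ((measurable_fst.mul ((sec_meas Λ).comp measurable_snd)) hM'm).compl
  obtain ⟨g, hg⟩ := h2.exists
  have h3 : ∀ᵐ x ∂ν, sec Λ (g • x) ∉ M' := by
    filter_upwards [hg] with x hx hx'
    apply hx
    rw [hM'] at hx' ⊢
    obtain ⟨v, hv⟩ := hx'
    refine ⟨(coc Λ g x)⁻¹ * v, ?_⟩
    have e : g * sec Λ x * (((coc Λ g x)⁻¹ * v : Λ) : E) = sec Λ (g • x) * v := by
      rw [← sec_mul_coc, Subgroup.coe_mul, Subgroup.coe_inv]
      group
    rw [e]
    exact hv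
  have h4 := ae_comp (mpres hν g⁻¹) h3
  filter_upwards [h4] with x hx v
  rw [smul_inv_smul] at hx
  by_contra hv
  exact hx (by rw [hM']; exact ⟨v, by rw [hM]; exact subset_toMeasurable _ _ hv⟩)

theorem coc_inv' (g : E) (x : E ⧸ Λ) : coc Λ g (g⁻¹ • x) = (coc Λ g⁻¹ x)⁻¹ := by
  have h1 := coc_mul Λ g g⁻¹ x
  have h2 : coc Λ (1 : E) x = 1 := by
    have h3 := coc_mul Λ (1 : E) 1 x
    rw [mul_one, one_smul] at h3
    exact left_eq_mul.mp h3
  rw [mul_inv_cancel, h2] at h1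
  exact eq_inv_of_mul_eq_one_left h1.symm

variable {K : Type} [NormedAddCommGroup K] [InnerProductSpace ℂ K] [CompleteSpace K]
  {π : Λ →* (K →L[ℂ] K)} (hπ : ∀ g, adjoint (π g) = π g⁻¹)

include hν hπ in
/-- **Twisted ergodicity**, vector valued. -/
theorem erg_vec {R : Set E} (hM : MooreSet E R) {f : E → K} (hfm : StronglyMeasurable f) {C : ℝ}
    (hC : ∀ᵐ h ∂(Measure.haar : Measure E), ‖f h‖ ≤ C)
    (hfv : ∀ v : Λ, ∀ᵐ h ∂(Measure.haar : Measure E), f (h * v) = π v⁻¹ (f h))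
    (hfb : ∀ r ∈ R, ∀ᵐ h ∂(Measure.haar : Measure E), f (r * h) = f h) :
    ∃ u : K, (∀ᵐ h ∂(Measure.haar : Measure E), f h = u) ∧ ∀ v, π v u = u := by
  haveI hcl : IsClosed (Λ : Set E) := Subgroup.isClosed_of_discrete
  have hsm : StronglyMeasurable fun x => f (sec Λ x) := hfm.comp_measurable (sec_meas Λ)
  have hbd : ∀ᵐ x ∂ν, ‖f (sec Λ x)‖ ≤ C := by
    filter_upwards [ae_sec hν hC] with x hx
    have h1 := hx 1
    rwa [Subgroup.coe_one, mul_one] at h1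
  have hmem : MemLp (fun x => f (sec Λ x)) 2 ν := MemLp.of_bound hsm.aestronglyMeasurable C hbd
  obtain ⟨η, hη⟩ : ∃ η : Lp K 2 ν, η = hmem.toLp _ := ⟨_, rfl⟩
  have hηae : ∀ᵐ x ∂ν, η x = f (sec Λ x) := by rw [hη]; exact hmem.coeFn_toLp
  have hP : ∀ᵐ h ∂(Measure.haar : Measure E), ∀ v : Λ, f (h * v) = π v⁻¹ (f h) := ae_all_iff.2 hfv
  have key : ∀ g : E, ∀ᵐ x ∂ν, (iro hν π g η) x = f (g⁻¹ * sec Λ x) := by
    intro g
    filter_upwards [iro_ae hν hπ g η, ae_comp (mpres hν g⁻¹) hηae, ae_sec hν (ae_left hP g⁻¹)]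
      with x h1 h2 h3
    have h4 := h3 1 (coc Λ g⁻¹ x)⁻¹
    rw [Subgroup.coe_one, mul_one, inv_inv] at h4
    have e : g⁻¹ * sec Λ x * (((coc Λ g⁻¹ x)⁻¹ : Λ) : E) = sec Λ (g⁻¹ • x) := by
      rw [← sec_mul_coc, Subgroup.coe_inv]
      group
    rw [e] at h4
    rw [h1, h2, h4, coc_inv', ← mul_ap, ← map_mul, inv_mul_cancel, map_one]
    rfl
  obtain ⟨σ, hσ⟩ : ∃ σ : E →* (Lp K 2 ν →L[ℂ] Lp K 2 ν), σ = irep hν hπ := ⟨_, rfl⟩
  have hσ1 : ∀ g, σ g = iro hν π g := fun g => by rw [hσ]; rfl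
  have hcr := irep_crep hν hπ
  have hiso : ∀ g ξ, ‖σ g ξ‖ = ‖ξ‖ := fun g ξ => by
    rw [hσ]
    exact Vale.Agent.P092.H885.u_norm hcr.adj _ ξ
  have hct : ∀ ξ, Tendsto (fun g => σ g ξ) (𝓝 1) (𝓝 ξ) := by
    intro ξ
    rw [hσ]
    exact hcr.cont ξ
  have hfix : ∀ r ∈ R, σ r η = η := by
    intro r hr
    rw [hσ1]
    refine Lp.ext ?_
    filter_upwards [key r, hηae, ae_sec hν (ae_left (hfb r hr) r⁻¹)] with x h1 h2 h3
    have h4 := h3 1
    rw [Subgroup.coe_one, mul_one, mul_inv_cancel_left] at h4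
    rw [h1, h2, h4]
  have hfixE : ∀ g, σ g η = η := hM _ σ ⟨hiso, hct⟩ η hfix
  have hall : ∀ g : E, ∀ᵐ x ∂ν, f (g⁻¹ * sec Λ x) = f (sec Λ x) := by
    intro g
    have h1 := hfixE g
    rw [hσ1] at h1
    filter_upwards [key g, hηae] with x h2 h3
    rw [← h2, h1, h3]
  have hall2 : ∀ᵐ x ∂ν, ∀ᵐ g ∂(Measure.haar : Measure E), f (g⁻¹ * sec Λ x) = f (sec Λ x) := by
    refine (Measure.ae_ae_comm (μ := (Measure.haar : Measure E)) (ν := ν)
      (p := fun g x => f (g⁻¹ * sec Λ x) = f (sec Λ x)) ?_).1 (Eventually.of_forall hall)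
    refine StronglyMeasurable.measurableSet_eq_fun (hfm.comp_measurable ?_)
      (hsm.comp_measurable measurable_snd)
    exact measurable_fst.inv.mul ((sec_meas Λ).comp measurable_snd)
  obtain ⟨x, hx⟩ := hall2.exists
  obtain ⟨u, hu⟩ : ∃ u : K, u = f (sec Λ x) := ⟨_, rfl⟩
  have hu1 : ∀ᵐ h ∂(Measure.haar : Measure E), f h = u := by
    have h1 := ae_inv (ae_left hx (sec Λ x))
    filter_upwards [h1] with k hk
    have e : (sec Λ x * k⁻¹)⁻¹ * sec Λ x = k := by group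
    rw [e] at hk
    rw [hk, hu]
  refine ⟨u, hu1, fun v => ?_⟩
  obtain ⟨h, h1, h2, h3⟩ := ((hfv v⁻¹).and (hu1.and (ae_right hu1 ((v⁻¹ : Λ) : E)))).exists
  rw [h2, h3, inv_inv] at h1
  exact h1.symm

end vec

section op

variable {Γ Λ K : Type} [Group Γ] [Group Λ] [NormedAddCommGroup K] [InnerProductSpace ℂ K]
  [CompleteSpace K] {ρ : Γ →* (K →L[ℂ] K)} {V : Λ →* (K →L[ℂ] K)} {ω : K}

/-- The conjugation representation `a ω ↦ V v a V v⁻¹ ω`. -/
noncomputable def cnj (h : RegRep ρ ω) (hc : ∀ v, Cmm ρ (V v)) : Λ →* (K →L[ℂ] K) where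
  toFun v := V v * jop h (V v)
  map_one' := by rw [map_one, jop_one, one_mul]
  map_mul' v w := by
    rw [map_mul, jop_mul, mul_assoc, mul_assoc, ← mul_assoc (V w), ← jop_comm h (hc v) (hc w)]
    rfl

theorem cnj_eq (h : RegRep ρ ω) (hc : ∀ v, Cmm ρ (V v)) (v : Λ) :
    cnj h hc v = V v * jop h (V v) := rfl

theorem adjoint_cnj (h : RegRep ρ ω) (hc : ∀ v, Cmm ρ (V v)) (ha : ∀ v, adjoint (V v) = V v⁻¹)
    (v : Λ) : adjoint (cnj h hc v) = cnj h hc v⁻¹ := by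
  rw [cnj_eq, cnj_eq, ← star_eq_adjoint, star_mul, star_eq_adjoint, star_eq_adjoint, adjoint_jop,
    ha, jop_comm h (hc _) (hc _)]

theorem cnj_apply (h : RegRep ρ ω) (hc : ∀ v, Cmm ρ (V v)) (ha : ∀ v, adjoint (V v) = V v⁻¹)
    (v : Λ) {A : K →L[ℂ] K} (hA : Cmm ρ A) : cnj h hc v (A ω) = (V v * A * V v⁻¹) ω := by
  have h1 : jop h (V v) (A ω) = A (V v⁻¹ ω) := by
    rw [← mul_ap, jop_comm h (hc v) hA, mul_ap, jop_omega h (hc v), ha]
  rw [cnj_eq, mul_ap, h1]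
  rfl

end op

section seq

variable {E : Type} [Group E] [TopologicalSpace E] [IsTopologicalGroup E]

/-- An escaping sequence of a Howe–Moore group is a Moore set. -/
theorem mooreSet_seq {b : ℕ → E} (hM : HMSeq E b) : MooreSet E (Set.range b) := by
  intro 𝓗 _ _ _ σ hσ ξ hξ g
  have hct : ∀ ξ, Continuous fun g => σ g ξ := continuous_of_one hσ.iso hσ.cont
  have h1 : (fixedSub σ).starProjection ξ = ξ := by
    refine ext_inner_right ℂ fun z => ?_
    refine tendsto_nhds_unique (tendsto_proj hM hσ.iso hct ξ z) ?_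
    have h2 : ∀ N, σ (b N) ξ = ξ := fun N => hξ _ ⟨N, rfl⟩
    simp_rw [h2]
    exact tendsto_const_nhds
  have h2 : ξ ∈ fixedSub σ := by
    rw [← h1]
    exact Submodule.starProjection_apply_mem _ _
  exact mem_fixedSub.1 h2 g

end seq

section erg

variable {E : Type} [Group E] [TopologicalSpace E] [IsTopologicalGroup E] [LocallyCompactSpace E]
  [SecondCountableTopology E] [T2Space E] [MeasurableSpace E] [BorelSpace E]
  {Λ : Subgroup E} [DiscreteTopology Λ] [MeasurableSpace (E ⧸ Λ)] [BorelSpace (E ⧸ Λ)]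
  {ν : Measure (E ⧸ Λ)} [IsProbabilityMeasure ν] (hν : ∀ g : E, ν.map (fun x => g • x) = ν)
  [Countable Λ] {Γ K : Type} [Group Γ] [NormedAddCommGroup K] [InnerProductSpace ℂ K]
  [CompleteSpace K] {ρ : Γ →* (K →L[ℂ] K)} {V : Λ →* (K →L[ℂ] K)} {ω : K}

include hν in
/-- **[C-ERG]**: an equivariant field `q` in the commutant of `ρ` which is invariant under the left
translations of a Moore set is a constant, and the constant commutes with `V`. -/
theorem c_erg_const {R : Set E} (hM : MooreSet E R) (h : RegRep ρ ω) (hc : ∀ v, Cmm ρ (V v))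
    (ha : ∀ v, adjoint (V v) = V v⁻¹) {q : E → K →L[ℂ] K}
    (hqm : AEStronglyMeasurable (fun x => q x ω) (Measure.haar : Measure E)) {C : ℝ}
    (hC : ∀ᵐ x ∂(Measure.haar : Measure E), ‖q x ω‖ ≤ C)
    (hqρ : ∀ᵐ x ∂(Measure.haar : Measure E), Cmm ρ (q x))
    (hqv : ∀ v : Λ, ∀ᵐ x ∂(Measure.haar : Measure E), q (x * v) = V v⁻¹ * q x * V v)
    (hqb : ∀ r ∈ R, ∀ᵐ x ∂(Measure.haar : Measure E), q (r * x) = q x) :
    ∃ T : K →L[ℂ] K, Cmm ρ T ∧ Cmm V T ∧ ∀ᵐ x ∂(Measure.haar : Measure E), q x = T := by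
  obtain ⟨f, hf, hfq⟩ := hqm
  obtain ⟨u, hu, huv⟩ := erg_vec hν (adjoint_cnj h hc ha) hM (f := f) hf (C := C)
    (by
      filter_upwards [hC, hfq] with x h1 h2
      rwa [← h2])
    (fun v => by
      filter_upwards [hqv v, hqρ, hfq, ae_right hfq (v : E)] with x h1 h2 h3 h4
      rw [← h4, ← h3, h1, cnj_apply h hc ha v⁻¹ h2, inv_inv])
    (fun r hr => by
      filter_upwards [hqb r hr, hfq, ae_left hfq r] with x h1 h2 h3
      rw [← h3, ← h2, h1])
  have hu' : ∀ᵐ x ∂(Measure.haar : Measure E), q x ω = u := by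
    filter_upwards [hu, hfq] with x h1 h2
    rw [← h1]
    exact h2
  obtain ⟨x₀, h1, h2⟩ := (hu'.and hqρ).exists
  refine ⟨q x₀, h2, fun v => ?_, ?_⟩
  · have h3 := huv v
    rw [← h1, cnj_apply h hc ha v h2] at h3
    have h4 : Cmm ρ (V v * q x₀ * V v⁻¹) := fun g => by
      rw [mul_assoc, hc v⁻¹ g, ← mul_assoc, mul_assoc (V v), h2 g, ← mul_assoc, hc v g]
      simp only [mul_assoc]
    have h5 := h.ext_cmm h4 h2 h3
    have h6 : V v⁻¹ * V v = 1 := by rw [← map_mul, inv_mul_cancel, map_one]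
    rw [← h5, mul_assoc, h6, mul_one, h5]
  · filter_upwards [hu', hqρ] with x h3 h4
    exact h.ext_cmm h4 h2 (by rw [h3, h1])

include hν in
/-- **[C-ERG]**, scalar form. -/
theorem c_erg {R : Set E} (hM : MooreSet E R) (h : RegRep ρ ω) (hc : ∀ v, Cmm ρ (V v))
    (ha : ∀ v, adjoint (V v) = V v⁻¹)
    (hE : ∀ T : K →L[ℂ] K, Cmm ρ T → Cmm V T → ∃ c : ℂ, T = c • 1) {q : E → K →L[ℂ] K}
    (hqm : AEStronglyMeasurable (fun x => q x ω) (Measure.haar : Measure E)) {C : ℝ}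
    (hC : ∀ᵐ x ∂(Measure.haar : Measure E), ‖q x ω‖ ≤ C)
    (hqρ : ∀ᵐ x ∂(Measure.haar : Measure E), Cmm ρ (q x))
    (hqv : ∀ v : Λ, ∀ᵐ x ∂(Measure.haar : Measure E), q (x * v) = V v⁻¹ * q x * V v)
    (hqb : ∀ r ∈ R, ∀ᵐ x ∂(Measure.haar : Measure E), q (r * x) = q x) :
    ∃ c : ℂ, ∀ᵐ x ∂(Measure.haar : Measure E), q x = c • 1 := by
  obtain ⟨T, h1, h2, h3⟩ := c_erg_const hν hM h hc ha hqm hC hqρ hqv hqb
  obtain ⟨c, hc'⟩ := hE T h1 h2
  refine ⟨c, ?_⟩
  filter_upwards [h3] with x hx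
  rw [hx, hc']

include hν in
/-- **[C-ERG]**, in the frame of helper264: an escaping sequence in a Howe–Moore group. -/
theorem c_erg_seq (hE : HoweMoore E) {b : ℕ → E} (hb : Tendsto b atTop (cocompact E))
    (hF : H156.Sm.Frm ρ V ω)
    (hirr : ∀ T : K →L[ℂ] K, Cmm ρ T → Cmm V T → ∃ c : ℂ, T = c • 1) {q : E → K →L[ℂ] K}
    (hqm : AEStronglyMeasurable (fun x => q x ω) (Measure.haar : Measure E)) {C : ℝ}
    (hC : ∀ᵐ x ∂(Measure.haar : Measure E), ‖q x ω‖ ≤ C)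
    (hqρ : ∀ᵐ x ∂(Measure.haar : Measure E), Cmm ρ (q x))
    (hqv : ∀ v : Λ, ∀ᵐ x ∂(Measure.haar : Measure E), q (x * v) = V v⁻¹ * q x * V v)
    (hqb : ∀ j, ∀ᵐ x ∂(Measure.haar : Measure E), q (b j * x) = q x) :
    ∃ c : ℂ, ∀ᵐ x ∂(Measure.haar : Measure E), q x = c • 1 :=
  c_erg hν (mooreSet_seq (HMSeq.of hE hb)) hF.reg hF.comm hF.adj hirr hqm hC hqρ hqv
    (fun r hr => by
      obtain ⟨j, rfl⟩ := hr
      exact hqb j)

end erg

end Vale.Agent.P092.H100
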