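import Mathlib

/-!
# [OUT-ABS]: proper outerness, abstract form

`K` is a Hilbert space with two families `L a`, `R a` of bounded operators (left and right
multiplications of a Hilbert algebra), a unitary representation `r` of `G`, a unitary
representation `α` of `H`, commuting and both normalising the two families.
-/

open scoped InnerProductSpace

namespace Vale.Agent.P092.H100

set_option linter.unusedSectionVars false

variable {K : Type*} [NormedAddCommGroup K] [InnerProductSpace ℂ K] [CompleteSpace K]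

/-- The orthogonal projection on a closed subspace invariant under `X` and `star X`
commutes with `X`. -/
theorem proj_comm (W : Submodule ℂ K) (hWc : IsClosed (W : Set K)) :
    ∃ P : K →L[ℂ] K, (∀ x ∈ W, P x = x) ∧ (∀ x, P x ∈ W) ∧
      ∀ X : K →L[ℂ] K, (∀ x ∈ W, X x ∈ W) → (∀ x ∈ W, star X x ∈ W) → P * X = X * P := by
  have : CompleteSpace W := hWc.completeSpace_coe
  refine ⟨W.starProjection, ?_, ?_, ?_⟩
  · intro x hx
    exact Submodule.starProjection_eq_self_iff.2 hx
  · intro x
    exact Submodule.starProjection_apply_mem W x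
  · intro X hX hX'
    refine ContinuousLinearMap.ext fun x => ?_
    change W.starProjection (X x) = X (W.starProjection x)
    have h1 : X (W.starProjection x) ∈ W := hX _ (Submodule.starProjection_apply_mem W x)
    have h2 : X (x - W.starProjection x) ∈ Wᗮ := by
      rw [Submodule.mem_orthogonal]
      intro w hw
      have h3 : ⟪star X w, x - W.starProjection x⟫_ℂ = 0 := by
        have h4 := Submodule.sub_starProjection_mem_orthogonal (K := W) x
        exact (Submodule.mem_orthogonal _ _).1 h4 _ (hX' w hw)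
      rw [ContinuousLinearMap.star_eq_adjoint, ContinuousLinearMap.adjoint_inner_left] at h3
      exact h3
    have h5 : X x = X (W.starProjection x) + X (x - W.starProjection x) := by
      rw [← map_add]; simp
    rw [h5, map_add, Submodule.starProjection_eq_self_iff.2 h1,
      (Submodule.starProjection_apply_eq_zero_iff W).2 h2, add_zero]

/-- group representation helper: `u g * u g⁻¹ = 1`. -/
theorem rep_mul_inv {G : Type*} [Group G] (u : G →* (K →L[ℂ] K)) (g : G) :
    u g * u g⁻¹ = 1 := by rw [← map_mul, mul_inv_cancel, map_one]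

theorem rep_inv_mul {G : Type*} [Group G] (u : G →* (K →L[ℂ] K)) (g : G) :
    u g⁻¹ * u g = 1 := by rw [← map_mul, inv_mul_cancel, map_one]

/-- Data of [OUT-ABS]. -/
structure OutData (A G H : Type*) [Group G] [Group H] (L R : A → (K →L[ℂ] K))
    (r : G →* (K →L[ℂ] K)) (α : H →* (K →L[ℂ] K)) : Prop where
  hr : ∀ g, star (r g) = r g⁻¹
  hα : ∀ h, star (α h) = α h⁻¹
  comm : ∀ g h, r g * α h = α h * r g
  Ls : ∀ a, ∃ b, star (L a) = L b
  Rs : ∀ a, ∃ b, star (R a) = R b
  LR : ∀ a b, L a * R b = R b * L a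
  rL : ∀ g a, ∃ b, r g * L a * r g⁻¹ = L b
  rR : ∀ g a, ∃ b, r g * R a * r g⁻¹ = R b
  αL : ∀ h a, ∃ b, α h * L a * α h⁻¹ = L b
  αR : ∀ h a, ∃ b, α h * R a * α h⁻¹ = R b

variable {A G H : Type*} [Group G] [Group H] {L R : A → (K →L[ℂ] K)}
  {r : G →* (K →L[ℂ] K)} {α : H →* (K →L[ℂ] K)}

/-- `S` intertwines: it commutes with the left family and twists the right family by `α v`. -/
structure Itw (L R : A → (K →L[ℂ] K)) (α : H →* (K →L[ℂ] K)) (v : H) (S : K →L[ℂ] K) :
    Prop where
  left : ∀ a, S * L a = L a * S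
  right : ∀ a, S * R a = α v * R a * α v⁻¹ * S

/-- The centre: operators commuting with both families. -/
def Zc (L R : A → (K →L[ℂ] K)) (z : K →L[ℂ] K) : Prop :=
  (∀ a, z * L a = L a * z) ∧ (∀ a, z * R a = R a * z)

theorem Itw.conj (D : OutData A G H L R r α) {v : H} {S : K →L[ℂ] K} (hS : Itw L R α v S)
    (g : G) : Itw L R α v (r g * S * r g⁻¹) := by
  constructor
  · intro a
    obtain ⟨b, hb⟩ := D.rL g⁻¹ a
    rw [inv_inv] at hb
    have h1 : r g⁻¹ * L a = L b * r g⁻¹ := by
      rw [← hb, mul_assoc, rep_mul_inv, mul_one]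
    have h2 : r g * L b = L a * r g := by
      rw [← hb, mul_assoc (r g⁻¹), ← mul_assoc (r g), rep_mul_inv, one_mul]
    calc r g * S * r g⁻¹ * L a = r g * S * (r g⁻¹ * L a) := by rw [mul_assoc]
      _ = r g * (S * L b) * r g⁻¹ := by rw [h1]; simp only [mul_assoc]
      _ = r g * L b * S * r g⁻¹ := by rw [hS.left]; simp only [mul_assoc]
      _ = L a * (r g * S * r g⁻¹) := by rw [h2]; simp only [mul_assoc]
  · intro a
    obtain ⟨b, hb⟩ := D.rR g⁻¹ a
    rw [inv_inv] at hb
    have h1 : r g⁻¹ * R a = R b * r g⁻¹ := by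
      rw [← hb, mul_assoc, rep_mul_inv, mul_one]
    have h2 : r g * R b = R a * r g := by
      rw [← hb, mul_assoc (r g⁻¹), ← mul_assoc (r g), rep_mul_inv, one_mul]
    calc r g * S * r g⁻¹ * R a = r g * S * (r g⁻¹ * R a) := by rw [mul_assoc]
      _ = r g * (S * R b) * r g⁻¹ := by rw [h1]; simp only [mul_assoc]
      _ = (r g * α v) * R b * α v⁻¹ * S * r g⁻¹ := by rw [hS.right]; simp only [mul_assoc]
      _ = α v * (r g * R b) * α v⁻¹ * S * r g⁻¹ := by rw [D.comm]; simp only [mul_assoc]
      _ = α v * R a * (r g * α v⁻¹) * S * r g⁻¹ := by rw [h2]; simp only [mul_assoc]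
      _ = α v * R a * α v⁻¹ * (r g * S * r g⁻¹) := by rw [D.comm]; simp only [mul_assoc]

theorem Itw.star_left (D : OutData A G H L R r α) {v : H} {S : K →L[ℂ] K}
    (hS : Itw L R α v S) (a : A) : star S * L a = L a * star S := by
  obtain ⟨b, hb⟩ := D.Ls a
  have h := congrArg star (hS.left b)
  rw [star_mul, star_mul, ← hb, star_star] at h
  exact h.symm

theorem Itw.star_right (D : OutData A G H L R r α) {v : H} {S : K →L[ℂ] K}
    (hS : Itw L R α v S) (a : A) : star S * (α v * R a * α v⁻¹) = R a * star S := by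
  obtain ⟨b, hb⟩ := D.Rs a
  have h := congrArg star (hS.right b)
  rw [star_mul, star_mul, star_mul, star_mul, ← hb, star_star, D.hα, D.hα, inv_inv] at h
  rw [h]
  simp only [mul_assoc]

theorem Zc_star_mul (D : OutData A G H L R r α) {v : H} {S S' : K →L[ℂ] K}
    (hS : Itw L R α v S) (hS' : Itw L R α v S') : Zc L R (star S * S') := by
  constructor
  · intro a
    rw [mul_assoc, hS'.left, ← mul_assoc, hS.star_left D, mul_assoc]
  · intro a
    rw [mul_assoc, hS'.right, ← mul_assoc, hS.star_right D, mul_assoc]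

theorem conj_surj_R (D : OutData A G H L R r α) (v : H) (a : A) :
    ∃ b, α v * R b * α v⁻¹ = R a := by
  obtain ⟨b, hb⟩ := D.αR v⁻¹ a
  rw [inv_inv] at hb
  refine ⟨b, ?_⟩
  rw [← hb]
  calc α v * (α v⁻¹ * R a * α v) * α v⁻¹ = (α v * α v⁻¹) * R a * (α v * α v⁻¹) := by
        simp only [mul_assoc]
    _ = R a := by rw [rep_mul_inv, one_mul, mul_one]

theorem Zc_mul_star (D : OutData A G H L R r α) {v : H} {S : K →L[ℂ] K}
    (hS : Itw L R α v S) : Zc L R (S * star S) := by
  constructor
  · intro a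
    rw [mul_assoc, hS.star_left D, ← mul_assoc, hS.left, mul_assoc]
  · intro a
    obtain ⟨b, hb⟩ := conj_surj_R D v a
    rw [← hb, mul_assoc, hS.star_right D, ← mul_assoc, hS.right]
    simp only [mul_assoc]

/-- conjugation by `α h` preserves the centre. -/
theorem Zc.conj (D : OutData A G H L R r α) {z : K →L[ℂ] K} (hz : Zc L R z) (h : H) :
    Zc L R (α h * z * α h⁻¹) := by
  constructor
  · intro a
    obtain ⟨b, hb⟩ := D.αL h⁻¹ a
    rw [inv_inv] at hb
    have h1 : α h⁻¹ * L a = L b * α h⁻¹ := by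
      rw [← hb, mul_assoc, rep_mul_inv, mul_one]
    have h2 : α h * L b = L a * α h := by
      rw [← hb, mul_assoc (α h⁻¹), ← mul_assoc (α h), rep_mul_inv, one_mul]
    calc α h * z * α h⁻¹ * L a = α h * z * (α h⁻¹ * L a) := by rw [mul_assoc]
      _ = α h * (z * L b) * α h⁻¹ := by rw [h1]; simp only [mul_assoc]
      _ = α h * L b * z * α h⁻¹ := by rw [hz.1]; simp only [mul_assoc]
      _ = L a * (α h * z * α h⁻¹) := by rw [h2]; simp only [mul_assoc]
  · intro a
    obtain ⟨b, hb⟩ := D.αR h⁻¹ a
    rw [inv_inv] at hb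
    have h1 : α h⁻¹ * R a = R b * α h⁻¹ := by
      rw [← hb, mul_assoc, rep_mul_inv, mul_one]
    have h2 : α h * R b = R a * α h := by
      rw [← hb, mul_assoc (α h⁻¹), ← mul_assoc (α h), rep_mul_inv, one_mul]
    calc α h * z * α h⁻¹ * R a = α h * z * (α h⁻¹ * R a) := by rw [mul_assoc]
      _ = α h * (z * R b) * α h⁻¹ := by rw [h1]; simp only [mul_assoc]
      _ = α h * R b * z * α h⁻¹ := by rw [hz.2]; simp only [mul_assoc]
      _ = R a * (α h * z * α h⁻¹) := by rw [h2]; simp only [mul_assoc]

/-- [OUT-ABS]. -/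
theorem out_abs (D : OutData A G H L R r α)
    (hcL : ∀ X z : K →L[ℂ] K, (∀ a, X * L a = L a * X) → Zc L R z → X * z = z * X)
    (hcR : ∀ X z : K →L[ℂ] K, (∀ a, X * R a = R a * X) → Zc L R z → X * z = z * X)
    (hEr : ∀ X : K →L[ℂ] K, (∀ a, X * L a = L a * X) → (∀ g, X * r g = r g * X) →
      ∃ c : ℂ, X = c • 1)
    (hEα : ∀ X : K →L[ℂ] K, Zc L R X → (∀ h, X * α h = α h * X) → ∃ c : ℂ, X = c • 1)
    (v : H) (hv : ∀ N : Subgroup H, N.Normal → v ∈ N → N = ⊤)
    (hG : ∀ χ : G →* ℂ, ∀ g, χ g = 1)
    (hne : ∃ h a, α h * R a ≠ R a * α h)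
    (S : K →L[ℂ] K) (hS : Itw L R α v S) : S = 0 := by
  by_contra hS0
  -- the key identity
  have key : ∀ T : K →L[ℂ] K, Itw L R α v T → ∀ z, Zc L R z →
      (z - α v * z * α v⁻¹) * T = 0 := by
    intro T hT z hz
    have h1 : T * z = z * T := hcL T z hT.left hz
    have h2 : ∀ a, (α v⁻¹ * T) * R a = R a * (α v⁻¹ * T) := by
      intro a
      rw [mul_assoc, hT.right]
      calc α v⁻¹ * (α v * R a * α v⁻¹ * T) = (α v⁻¹ * α v) * R a * (α v⁻¹ * T) := by
            simp only [mul_assoc]
        _ = R a * (α v⁻¹ * T) := by rw [rep_inv_mul, one_mul]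
    have h3 : (α v⁻¹ * T) * z = z * (α v⁻¹ * T) := hcR _ z h2 hz
    have h4 : α v * z * α v⁻¹ * T = z * T := by
      calc α v * z * α v⁻¹ * T = α v * (z * (α v⁻¹ * T)) := by simp only [mul_assoc]
        _ = α v * (α v⁻¹ * T * z) := by rw [h3]
        _ = (α v * α v⁻¹) * (T * z) := by simp only [mul_assoc]
        _ = z * T := by rw [rep_mul_inv, one_mul, h1]
    rw [sub_mul, h4, sub_self]
  -- the closed span of the ranges of the conjugates of `S`
  have hfix : ∀ z, Zc L R z → z - α v * z * α v⁻¹ = 0 := by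
    intro z hz
    set W : Submodule ℂ K :=
      (⨆ g : G, LinearMap.range (r g * S * r g⁻¹ : K →L[ℂ] K).toLinearMap).topologicalClosure
      with hW
    have hWc : IsClosed (W : Set K) := Submodule.isClosed_topologicalClosure _
    obtain ⟨P, hP1, hP2, hP3⟩ := proj_comm W hWc
    have hmem : ∀ (g : G) (x : K), (r g * S * r g⁻¹ : K →L[ℂ] K) x ∈ W := by
      intro g x
      apply Submodule.le_topologicalClosure
      exact Submodule.mem_iSup_of_mem g ⟨x, rfl⟩
    have hinv : ∀ X : K →L[ℂ] K, (∀ (g : G) (x : K), X ((r g * S * r g⁻¹ : K →L[ℂ] K) x) ∈ W) →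
        ∀ x ∈ W, X x ∈ W := by
      intro X hX x hx
      have h1 : (⨆ g : G, LinearMap.range (r g * S * r g⁻¹ : K →L[ℂ] K).toLinearMap) ≤
          W.comap X.toLinearMap := by
        refine iSup_le fun g => ?_
        rintro _ ⟨y, rfl⟩
        exact hX g y
      have h2 : IsClosed ((W.comap X.toLinearMap : Submodule ℂ K) : Set K) :=
        hWc.preimage X.continuous
      exact Submodule.topologicalClosure_minimal _ h1 h2 hx
    have hL : ∀ a, ∀ x ∈ W, L a x ∈ W := by
      intro a
      apply hinv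
      intro g x
      have h := congrArg (fun T : K →L[ℂ] K => T x) ((hS.conj D g).left a)
      change (r g * S * r g⁻¹ : K →L[ℂ] K) (L a x) = L a ((r g * S * r g⁻¹ : K →L[ℂ] K) x) at h
      rw [← h]
      exact hmem g _
    have hR : ∀ g', ∀ x ∈ W, r g' x ∈ W := by
      intro g'
      apply hinv
      intro g x
      have h : r g' * (r g * S * r g⁻¹) = (r (g' * g) * S * r (g' * g)⁻¹) * r g' := by
        rw [mul_inv_rev, map_mul, map_mul]
        calc r g' * (r g * S * r g⁻¹) = r g' * r g * S * (r g⁻¹ * 1) := by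
              rw [mul_one]; simp only [mul_assoc]
          _ = r g' * r g * S * (r g⁻¹ * (r g'⁻¹ * r g')) := by rw [rep_inv_mul]
          _ = r g' * r g * S * (r g⁻¹ * r g'⁻¹) * r g' := by simp only [mul_assoc]
      have h' := congrArg (fun T : K →L[ℂ] K => T x) h
      change r g' ((r g * S * r g⁻¹ : K →L[ℂ] K) x) =
        (r (g' * g) * S * r (g' * g)⁻¹ : K →L[ℂ] K) (r g' x) at h'
      rw [h']
      exact hmem _ _
    have hPL : ∀ a, P * L a = L a * P := by
      intro a
      refine hP3 _ (hL a) ?_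
      obtain ⟨b, hb⟩ := D.Ls a
      rw [hb]
      exact hL b
    have hPr : ∀ g, P * r g = r g * P := by
      intro g
      refine hP3 _ (hR g) ?_
      rw [D.hr]
      exact hR _
    obtain ⟨c, hc⟩ := hEr P hPL hPr
    have hSW : ∀ x, S x ∈ W := by
      intro x
      have h := hmem 1 x
      rw [inv_one, map_one, one_mul, mul_one] at h
      exact h
    have hex : ∃ x, S x ≠ 0 := by
      by_contra hcon
      push Not at hcon
      exact hS0 (ContinuousLinearMap.ext hcon)
    obtain ⟨x, hx⟩ := hex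
    have hc1 : c = 1 := by
      have h := hP1 (S x) (hSW x)
      rw [hc] at h
      change c • S x = S x at h
      have h2 : (c - 1) • S x = 0 := by rw [sub_smul, h, one_smul, sub_self]
      rcases smul_eq_zero.1 h2 with h3 | h3
      · exact sub_eq_zero.1 h3
      · exact absurd h3 hx
    have hall : ∀ x, x ∈ W := by
      intro x
      have h := hP2 x
      rw [hc, hc1, one_smul] at h
      exact h
    -- the operator vanishes on `W`
    have hker : W ≤ LinearMap.ker (z - α v * z * α v⁻¹ : K →L[ℂ] K).toLinearMap := by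
      refine Submodule.topologicalClosure_minimal _ ?_ ?_
      · refine iSup_le fun g => ?_
        rintro _ ⟨y, rfl⟩
        have h := congrArg (fun T : K →L[ℂ] K => T y) (key _ (hS.conj D g) z hz)
        exact h
      · exact isClosed_singleton.preimage (z - α v * z * α v⁻¹ : K →L[ℂ] K).continuous
    exact ContinuousLinearMap.ext fun x => hker (hall x)
  -- the centre is trivial
  have hZ : ∀ z, Zc L R z → ∃ c : ℂ, z = c • 1 := by
    intro z hz
    let N : Subgroup H :=
      { carrier := {h | ∀ z, Zc L R z → z * α h = α h * z}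
        mul_mem' := by
          intro h k hh hk z hz
          rw [map_mul, ← mul_assoc, hh z hz, mul_assoc, hk z hz, mul_assoc]
        one_mem' := by intro z hz; rw [map_one, one_mul, mul_one]
        inv_mem' := by
          intro h hh z hz
          have h1 := hh z hz
          calc z * α h⁻¹ = (α h⁻¹ * α h) * z * α h⁻¹ := by rw [rep_inv_mul, one_mul]
            _ = α h⁻¹ * (α h * z) * α h⁻¹ := by simp only [mul_assoc]
            _ = α h⁻¹ * z * (α h * α h⁻¹) := by rw [← h1]; simp only [mul_assoc]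
            _ = α h⁻¹ * z := by rw [rep_mul_inv, mul_one] }
    have hN : N.Normal := by
      constructor
      intro h hh k z hz
      have h1 : Zc L R (α k⁻¹ * z * α k) := by
        have h2 := hz.conj D k⁻¹
        rwa [inv_inv] at h2
      have h2 := hh _ h1
      calc z * α (k * h * k⁻¹) = z * (α k * α h * α k⁻¹) := by rw [map_mul, map_mul]
        _ = (α k * α k⁻¹) * z * (α k * α h * α k⁻¹) := by rw [rep_mul_inv, one_mul]
        _ = α k * ((α k⁻¹ * z * α k) * α h) * α k⁻¹ := by simp only [mul_assoc]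
        _ = α k * (α h * (α k⁻¹ * z * α k)) * α k⁻¹ := by rw [h2]
        _ = (α k * α h * α k⁻¹) * z * (α k * α k⁻¹) := by simp only [mul_assoc]
        _ = α (k * h * k⁻¹) * z := by rw [rep_mul_inv, mul_one, map_mul, map_mul]
    have hvN : v ∈ N := by
      intro z hz
      have h1 := sub_eq_zero.1 (hfix z hz)
      calc z * α v = (α v * z * α v⁻¹) * α v := by rw [← h1]
        _ = α v * z * (α v⁻¹ * α v) := by simp only [mul_assoc]
        _ = α v * z := by rw [rep_inv_mul, mul_one]
    have hNt := hv N hN hvN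
    refine hEα z hz fun h => ?_
    have : h ∈ N := by rw [hNt]; exact Subgroup.mem_top h
    exact this z hz
  -- scalars
  obtain ⟨c', hc'⟩ := hZ _ (Zc_mul_star D hS)
  have hc'0 : c' ≠ 0 := by
    intro h0
    rw [h0, zero_smul] at hc'
    exact hS0 ((CStarRing.mul_star_self_eq_zero_iff S).1 hc')
  have hcg : ∀ g, ∃ c : ℂ, star S * (r g * S * r g⁻¹) = c • 1 := fun g =>
    hZ _ (Zc_star_mul D hS (hS.conj D g))
  have hprop : ∀ g, ∃ c : ℂ, r g * S * r g⁻¹ = c • S := by
    intro g
    obtain ⟨c, hc⟩ := hcg g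
    refine ⟨c'⁻¹ * c, ?_⟩
    have h1 : S * star S * (r g * S * r g⁻¹) = c • S := by
      rw [mul_assoc, hc, mul_smul_comm, mul_one]
    rw [hc', smul_mul_assoc, one_mul] at h1
    rw [mul_smul, ← h1, smul_smul, inv_mul_cancel₀ hc'0, one_smul]
  choose χ hχ using hprop
  have hinj : ∀ c d : ℂ, c • S = d • S → c = d := by
    intro c d h
    have h2 : (c - d) • S = 0 := by rw [sub_smul, h, sub_self]
    rcases smul_eq_zero.1 h2 with h3 | h3
    · exact sub_eq_zero.1 h3
    · exact absurd h3 hS0
  let χh : G →* ℂ :=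
    { toFun := χ
      map_one' := by
        apply hinj
        rw [← hχ, inv_one, map_one, one_mul, mul_one, one_smul]
      map_mul' := by
        intro g g'
        apply hinj
        rw [← hχ, mul_inv_rev, map_mul, map_mul]
        calc r g * r g' * S * (r g'⁻¹ * r g⁻¹) = r g * (r g' * S * r g'⁻¹) * r g⁻¹ := by
              simp only [mul_assoc]
          _ = χ g' • (r g * S * r g⁻¹) := by
              rw [hχ g', mul_smul_comm, smul_mul_assoc]
          _ = (χ g * χ g') • S := by rw [hχ g, smul_smul, mul_comm] }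
  have hSr : ∀ g, S * r g = r g * S := by
    intro g
    have h1 : χ g = 1 := hG χh g
    have h2 := hχ g
    rw [h1, one_smul] at h2
    calc S * r g = (r g * S * r g⁻¹) * r g := by rw [h2]
      _ = r g * S * (r g⁻¹ * r g) := by simp only [mul_assoc]
      _ = r g * S := by rw [rep_inv_mul, mul_one]
  obtain ⟨s, hs⟩ := hEr S hS.left hSr
  have hs0 : s ≠ 0 := by
    intro h0
    rw [h0, zero_smul] at hs
    exact hS0 hs
  have hvR : ∀ a, R a * α v = α v * R a := by
    intro a
    have h1 := hS.right a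
    rw [hs, smul_mul_assoc, one_mul, mul_smul_comm, mul_one] at h1
    have h2 : R a = α v * R a * α v⁻¹ := by
      have h3 := congrArg (fun T : K →L[ℂ] K => s⁻¹ • T) h1
      simpa only [smul_smul, inv_mul_cancel₀ hs0, one_smul] using h3
    calc R a * α v = (α v * R a * α v⁻¹) * α v := by rw [← h2]
      _ = α v * R a * (α v⁻¹ * α v) := by simp only [mul_assoc]
      _ = α v * R a := by rw [rep_inv_mul, mul_one]
  let N : Subgroup H :=
    { carrier := {h | ∀ a, R a * α h = α h * R a}
      mul_mem' := by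
        intro h k hh hk a
        rw [map_mul, ← mul_assoc, hh a, mul_assoc, hk a, mul_assoc]
      one_mem' := by intro a; rw [map_one, one_mul, mul_one]
      inv_mem' := by
        intro h hh a
        have h1 := hh a
        calc R a * α h⁻¹ = (α h⁻¹ * α h) * R a * α h⁻¹ := by rw [rep_inv_mul, one_mul]
          _ = α h⁻¹ * (α h * R a) * α h⁻¹ := by simp only [mul_assoc]
          _ = α h⁻¹ * R a * (α h * α h⁻¹) := by rw [← h1]; simp only [mul_assoc]
          _ = α h⁻¹ * R a := by rw [rep_mul_inv, mul_one] }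
  have hN : N.Normal := by
    constructor
    intro h hh k a
    obtain ⟨b, hb⟩ := conj_surj_R D k a
    have h2 := hh b
    calc R a * α (k * h * k⁻¹) = R a * (α k * α h * α k⁻¹) := by rw [map_mul, map_mul]
      _ = (α k * R b * α k⁻¹) * (α k * α h * α k⁻¹) := by rw [hb]
      _ = α k * R b * (α k⁻¹ * α k) * (α h * α k⁻¹) := by simp only [mul_assoc]
      _ = α k * (R b * α h) * α k⁻¹ := by
          rw [rep_inv_mul, mul_one]; simp only [mul_assoc]
      _ = α k * α h * (1 * (R b * α k⁻¹)) := by rw [h2, one_mul]; simp only [mul_assoc]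
      _ = α k * α h * ((α k⁻¹ * α k) * (R b * α k⁻¹)) := by rw [rep_inv_mul]
      _ = (α k * α h * α k⁻¹) * (α k * R b * α k⁻¹) := by simp only [mul_assoc]
      _ = α (k * h * k⁻¹) * R a := by rw [hb, map_mul, map_mul]
  have hNt := hv N hN hvR
  obtain ⟨h, a, hha⟩ := hne
  have : h ∈ N := by rw [hNt]; exact Subgroup.mem_top h
  exact hha (this a).symm

end Vale.Agent.P092.H100
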