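import Vale.Agent.P092.H100.HilbAlg
import Vale.Agent.P092.H100.OutAbs

/-!
# [ER]: ergodicity from integrability, and the packaged form of [OUT-ABS]
-/

open scoped InnerProductSpace ComplexConjugate
open MeasureTheory

namespace Vale.Agent.P092.H100

set_option linter.unusedSectionVars false

variable {K : Type*} [NormedAddCommGroup K] [InnerProductSpace ℂ K] [CompleteSpace K]
variable {A : Type*} {j : A → K} {L R : A → (K →L[ℂ] K)} {st : A → A}

theorem HAlg.inj_L (h : HAlg j L R st) {a b : A} (hab : L a = L b) : j a = j b := by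
  have h1 : ∀ c, R c (j a - j b) = 0 := by
    intro c
    rw [map_sub, ← h.Lj, ← h.Lj, hab, sub_self]
  exact sub_eq_zero.1 (h.nd' _ h1)

theorem HAlg.inj_R (h : HAlg j L R st) {a b : A} (hab : R a = R b) : j a = j b :=
  h.swap.inj_L hab

theorem HAlg.st_st (h : HAlg j L R st) (a : A) : j (st (st a)) = j a := by
  apply h.inj_L
  rw [← h.Ls, ← h.Ls, star_star]

theorem HAlg.norm_st (h : HAlg j L R st) (a : A) : ‖j (st a)‖ = ‖j a‖ := by
  have h1 := h.tr a a
  have h2 := congrArg Complex.re h1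
  rw [inner_self_eq_norm_sq_to_K, inner_self_eq_norm_sq_to_K] at h2
  have h3 : ‖j (st a)‖ ^ 2 = ‖j a‖ ^ 2 := by exact_mod_cast h2.symm
  exact (sq_eq_sq₀ (norm_nonneg _) (norm_nonneg _)).1 h3

theorem HAlg.dense_st (h : HAlg j L R st) : DenseRange fun a => j (st a) := by
  have : Set.range j ⊆ Set.range fun a => j (st a) := by
    rintro _ ⟨a, rfl⟩
    exact ⟨st a, h.st_st a⟩
  exact h.dense.mono this

theorem HAlg.J_inner (h : HAlg j L R st) {J : K → K} (hJc : Continuous J)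
    (hJ : ∀ a, J (j a) = j (st a)) (ξ η : K) : ⟪J ξ, J η⟫_ℂ = ⟪η, ξ⟫_ℂ := by
  have h0 : ∀ a b : A, ⟪J (j a), J (j b)⟫_ℂ = ⟪j b, j a⟫_ℂ := by
    intro a b
    rw [hJ, hJ]
    exact (h.tr b a).symm
  have h1 : ∀ (a : A) (η : K), ⟪J (j a), J η⟫_ℂ = ⟪η, j a⟫_ℂ := by
    intro a η
    refine h.dense.induction_on (p := fun η => ⟪J (j a), J η⟫_ℂ = ⟪η, j a⟫_ℂ) η ?_ (h0 a)
    exact isClosed_eq (continuous_const.inner hJc) (continuous_id.inner continuous_const)
  refine h.dense.induction_on (p := fun ξ => ⟪J ξ, J η⟫_ℂ = ⟪η, ξ⟫_ℂ) ξ ?_ (fun a => h1 a η)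
  exact isClosed_eq (hJc.inner continuous_const) (continuous_const.inner continuous_id)

theorem HAlg.J_J (h : HAlg j L R st) {J : K → K} (hJc : Continuous J)
    (hJ : ∀ a, J (j a) = j (st a)) (ξ : K) : J (J ξ) = ξ := by
  refine h.dense.induction_on (p := fun ξ => J (J ξ) = ξ) ξ ?_ ?_
  · exact isClosed_eq (hJc.comp hJc) continuous_id
  · intro a
    rw [hJ, hJ, h.st_st]

theorem HAlg.J_L (h : HAlg j L R st) {J : K → K} (hJc : Continuous J)
    (hJ : ∀ a, J (j a) = j (st a)) (a : A) (ξ : K) : J (L a ξ) = R (st a) (J ξ) := by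
  refine h.dense.induction_on (p := fun ξ => J (L a ξ) = R (st a) (J ξ)) ξ ?_ ?_
  · exact isClosed_eq (hJc.comp (L a).continuous) ((R (st a)).continuous.comp hJc)
  · intro b
    have e1 : ∀ c : A, ⟪J (L a (j b)) - R (st a) (J (j b)), j c⟫_ℂ = 0 := by
      intro c
      have e2 : ⟪J (L a (j b)), j c⟫_ℂ = ⟪j (st c), L a (j b)⟫_ℂ := by
        have e3 : j c = J (j (st c)) := by rw [hJ, h.st_st]
        rw [e3, h.J_inner hJc hJ]
      have e4 : ⟪j (st c), L a (j b)⟫_ℂ = ⟪R (st c) (j (st a)), j b⟫_ℂ := by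
        rw [← h.Lj, ← h.Ls a, ContinuousLinearMap.star_eq_adjoint,
          ContinuousLinearMap.adjoint_inner_left]
      have e5 : ⟪R (st c) (j (st a)), j b⟫_ℂ = ⟪j (st a), L b (j c)⟫_ℂ := by
        rw [h.Lj, ← h.Rs, ContinuousLinearMap.star_eq_adjoint,
          ContinuousLinearMap.adjoint_inner_left]
      have e6 : ⟪R (st a) (J (j b)), j c⟫_ℂ = ⟪j (st a), L b (j c)⟫_ℂ := by
        rw [hJ, ← h.Lj, ← h.Ls, ContinuousLinearMap.star_eq_adjoint,
          ContinuousLinearMap.adjoint_inner_left]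
      rw [inner_sub_left, e2, e4, e5, e6, sub_self]
    have e7 : ∀ y : K, ⟪J (L a (j b)) - R (st a) (J (j b)), y⟫_ℂ = 0 := by
      intro y
      refine h.dense.induction_on
        (p := fun y => ⟪J (L a (j b)) - R (st a) (J (j b)), y⟫_ℂ = 0) y ?_ e1
      exact isClosed_eq (continuous_const.inner continuous_id) continuous_const
    exact sub_eq_zero.1 (inner_self_eq_zero.1 (e7 _))

/-- A unitary representation acting by automorphisms of the Hilbert algebra. -/
structure HRep {G : Type*} [Group G] (j : A → K) (L R : A → (K →L[ℂ] K))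
    (r : G →* (K →L[ℂ] K)) : Prop where
  un : ∀ g, star (r g) = r g⁻¹
  rj : ∀ g a, ∃ b, r g (j a) = j b ∧ r g * L a * r g⁻¹ = L b ∧ r g * R a * r g⁻¹ = R b

variable {G : Type*} [Group G] {r : G →* (K →L[ℂ] K)}

theorem HRep.swap (hr : HRep j L R r) : HRep j R L r where
  un := hr.un
  rj g a := by
    obtain ⟨b, h1, h2, h3⟩ := hr.rj g a
    exact ⟨b, h1, h3, h2⟩

theorem apply_rep_inv (r : G →* (K →L[ℂ] K)) (g : G) (x : K) : r g (r g⁻¹ x) = x :=
  congrArg (fun T : K →L[ℂ] K => T x) (rep_mul_inv r g)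

theorem apply_inv_rep (r : G →* (K →L[ℂ] K)) (g : G) (x : K) : r g⁻¹ (r g x) = x :=
  congrArg (fun T : K →L[ℂ] K => T x) (rep_inv_mul r g)

theorem HRep.J_r (h : HAlg j L R st) (hr : HRep j L R r) {J : K → K} (hJc : Continuous J)
    (hJ : ∀ a, J (j a) = j (st a)) (g : G) (ξ : K) : J (r g ξ) = r g (J ξ) := by
  refine h.dense.induction_on (p := fun ξ => J (r g ξ) = r g (J ξ)) ξ ?_ ?_
  · exact isClosed_eq (hJc.comp (r g).continuous) ((r g).continuous.comp hJc)
  · intro a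
    obtain ⟨b, h1, h2, -⟩ := hr.rj g a
    obtain ⟨b', h1', h2', -⟩ := hr.rj g (st a)
    rw [h1, hJ, hJ, h1']
    apply h.inj_L
    rw [← h.Ls, ← h2, ← h2', ← h.Ls, star_mul, star_mul, hr.un, hr.un, inv_inv, mul_assoc]

theorem HAlg.LR_comm (h : HAlg j L R st) (a b : A) (hrange : ∀ a b, ∃ c, L a (j b) = j c ∧
    L a * L b = L c ∧ R b * R a = R c) : L a * R b = R b * L a := by
  refine ContinuousLinearMap.ext fun x => ?_
  refine h.dense.induction_on (p := fun x => (L a * R b) x = (R b * L a) x) x ?_ ?_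
  · exact isClosed_eq (L a * R b).continuous (R b * L a).continuous
  · intro c
    change L a (R b (j c)) = R b (L a (j c))
    obtain ⟨p, hp1, hp2, -⟩ := hrange a c
    rw [hp1, ← h.Lj c b, ← h.Lj p b, ← hp2]
    rfl

/-- integrability for the left family gives integrability for the right family. -/
theorem HAlg.int_right [MeasurableSpace G] {μ : Measure G} (h : HAlg j L R st)
    (hr : HRep j L R r)
    (hint : ∀ (b : A) (ξ η : K),
      ∫ y, ⟪ξ, r y (L b (star (L b) (r y⁻¹ η)))⟫_ℂ ∂μ = (‖j b‖ ^ 2 : ℂ) * ⟪ξ, η⟫_ℂ)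
    (b : A) (ξ η : K) :
    ∫ y, ⟪ξ, r y (star (R b) (R b (r y⁻¹ η)))⟫_ℂ ∂μ = (‖j b‖ ^ 2 : ℂ) * ⟪ξ, η⟫_ℂ := by
  obtain ⟨J, hJc, hJ⟩ := exists_J (st := st) h.dense h.tr
  have e0 : ∀ x, R b x = J (L (st b) (J x)) := by
    intro x
    rw [h.J_L hJc hJ, h.J_J hJc hJ, ← h.Rs, ← h.Rs, star_star]
  have e1 : ∀ y, ⟪ξ, r y (star (R b) (R b (r y⁻¹ η)))⟫_ℂ =
      ⟪J η, r y (L b (star (L b) (r y⁻¹ (J ξ))))⟫_ℂ := by
    intro y
    have a1 : ⟪ξ, r y (star (R b) (R b (r y⁻¹ η)))⟫_ℂ =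
        ⟪R b (r y⁻¹ ξ), R b (r y⁻¹ η)⟫_ℂ := by
      rw [show r y = star (r y⁻¹) by rw [hr.un, inv_inv],
        ContinuousLinearMap.star_eq_adjoint, ContinuousLinearMap.star_eq_adjoint,
        ContinuousLinearMap.adjoint_inner_right, ContinuousLinearMap.adjoint_inner_right]
    have a2 : ⟪J η, r y (L b (star (L b) (r y⁻¹ (J ξ))))⟫_ℂ =
        ⟪L (st b) (r y⁻¹ (J η)), L (st b) (r y⁻¹ (J ξ))⟫_ℂ := by
      rw [show r y = star (r y⁻¹) by rw [hr.un, inv_inv],
        ContinuousLinearMap.star_eq_adjoint (r y⁻¹), ContinuousLinearMap.adjoint_inner_right,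
        ← h.Ls, ContinuousLinearMap.star_eq_adjoint (L b),
        ContinuousLinearMap.adjoint_inner_left]
    rw [a1, a2, e0, e0, h.J_inner hJc hJ, hr.J_r h hJc hJ, hr.J_r h hJc hJ]
  rw [integral_congr_ae (Filter.Eventually.of_forall e1), hint b, h.J_inner hJc hJ]

/-- [ER]: an operator commuting with the left family and with `r` is scalar, if `r` is
integrable with the trace as weight. -/
theorem HAlg.erg [TopologicalSpace G] [IsTopologicalGroup G] [MeasurableSpace G]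
    [BorelSpace G] {μ : Measure G} [μ.IsInvInvariant] (h : HAlg j L R st) (hr : HRep j L R r)
    (hLR : ∀ a b, L a * R b = R b * L a)
    (hint : ∀ (b : A) (ξ η : K),
      ∫ y, ⟪ξ, r y (star (R b) (R b (r y⁻¹ η)))⟫_ℂ ∂μ = (‖j b‖ ^ 2 : ℂ) * ⟪ξ, η⟫_ℂ)
    (X : K →L[ℂ] K) (hXL : ∀ a, X * L a = L a * X) (hXr : ∀ g, X * r g = r g * X) :
    ∃ c : ℂ, X = c • 1 := by
  have hXs : ∀ g, star X * r g = r g * star X := by
    intro g
    have h1 := congrArg star (hXr g⁻¹)
    rw [star_mul, star_mul, hr.un, inv_inv] at h1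
    exact h1.symm
  have hXLs : ∀ a, star X * L a = L a * star X := by
    intro a
    have h1 := congrArg star (hXL (st a))
    rw [star_mul, star_mul, ← h.Ls, star_star] at h1
    exact h1.symm
  -- `L_{a*} r_y j(bb*) = r_y R_{b*} R_b r_y⁻¹ j(a*)`
  have hmove : ∀ (a b : A) (y : G), L (st a) (r y (L b (j (st b)))) =
      r y (star (R b) (R b (r y⁻¹ (j (st a))))) := by
    intro a b y
    obtain ⟨c, hc1, hc2, -⟩ := hr.rj y⁻¹ (st a)
    rw [inv_inv] at hc2
    have e1 : L (st a) (r y (L b (j (st b)))) = r y (L c (L b (j (st b)))) := by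
      rw [← hc2]
      change _ = r y (r y⁻¹ (L (st a) (r y (L b (j (st b))))))
      rw [apply_rep_inv]
    rw [e1, hc1, h.Lj b (st b), ← h.Rs]
    have e2 : L c (star (R b) (j b)) = star (R b) (L c (j b)) := by
      rw [h.Rs]
      exact congrArg (fun T : K →L[ℂ] K => T (j b)) (hLR c (st b))
    rw [e2, h.Lj c b]
  have hF1 : ∀ (a b : A) (y : G),
      ⟪X (L a (j (st a))), r y (L b (j (st b)))⟫_ℂ =
        ⟪X (j (st a)), r y (star (R b) (R b (r y⁻¹ (j (st a)))))⟫_ℂ := by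
    intro a b y
    have e1 : X (L a (j (st a))) = L a (X (j (st a))) :=
      congrArg (fun T : K →L[ℂ] K => T (j (st a))) (hXL a)
    rw [e1, ← hmove, ← h.Ls, ContinuousLinearMap.star_eq_adjoint,
      ContinuousLinearMap.adjoint_inner_right]
  have hF2 : ∀ (a b : A) (y : G),
      ⟪X (L a (j (st a))), r y (L b (j (st b)))⟫_ℂ =
        conj ⟪star X (j (st b)), r y⁻¹ (star (R a) (R a (r y⁻¹⁻¹ (j (st b)))))⟫_ℂ := by
    intro a b y
    have e1 : star X (L b (j (st b))) = L b (star X (j (st b))) :=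
      congrArg (fun T : K →L[ℂ] K => T (j (st b))) (hXLs b)
    have e2 : star X (r y (L b (j (st b)))) = r y (star X (L b (j (st b)))) :=
      congrArg (fun T : K →L[ℂ] K => T (L b (j (st b)))) (hXs y)
    have e3 : ⟪X (L a (j (st a))), r y (L b (j (st b)))⟫_ℂ =
        ⟪L a (j (st a)), star X (r y (L b (j (st b))))⟫_ℂ := by
      rw [ContinuousLinearMap.star_eq_adjoint, ContinuousLinearMap.adjoint_inner_right]
    rw [e3, e2, e1, inner_conj_symm]
    have e4 : ⟪L a (j (st a)), r y (L b (star X (j (st b))))⟫_ℂ =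
        ⟪L (st b) (r y⁻¹ (L a (j (st a)))), star X (j (st b))⟫_ℂ := by
      rw [show r y = star (r y⁻¹) by rw [hr.un, inv_inv],
        ContinuousLinearMap.star_eq_adjoint (r y⁻¹), ContinuousLinearMap.adjoint_inner_right,
        ← h.Ls b, ContinuousLinearMap.star_eq_adjoint (L b),
        ContinuousLinearMap.adjoint_inner_left]
    rw [e4, hmove b a y⁻¹]
  have hmain : ∀ a b : A, (‖j b‖ ^ 2 : ℂ) * ⟪X (j (st a)), j (st a)⟫_ℂ =
      (‖j a‖ ^ 2 : ℂ) * ⟪X (j (st b)), j (st b)⟫_ℂ := by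
    intro a b
    have e1 : ∫ y, ⟪X (L a (j (st a))), r y (L b (j (st b)))⟫_ℂ ∂μ =
        (‖j b‖ ^ 2 : ℂ) * ⟪X (j (st a)), j (st a)⟫_ℂ := by
      rw [integral_congr_ae (Filter.Eventually.of_forall (hF1 a b)), hint b]
    have e2 : ∫ y, ⟪X (L a (j (st a))), r y (L b (j (st b)))⟫_ℂ ∂μ =
        (‖j a‖ ^ 2 : ℂ) * ⟪X (j (st b)), j (st b)⟫_ℂ := by
      rw [integral_congr_ae (Filter.Eventually.of_forall (hF2 a b))]
      rw [integral_inv_eq_self (μ := μ) (f := fun y : G =>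
        conj ⟪star X (j (st b)), r y (star (R a) (R a (r y⁻¹ (j (st b)))))⟫_ℂ)]
      rw [integral_conj, hint a, map_mul, inner_conj_symm]
      rw [ContinuousLinearMap.star_eq_adjoint, ContinuousLinearMap.adjoint_inner_right]
      congr 1
      rw [map_pow, Complex.conj_ofReal]
    rw [← e1, e2]
  by_cases hall : ∀ a, j a = 0
  · have hzero : ∀ x : K, x = 0 := by
      intro x
      refine h.dense.induction_on (p := fun x => x = 0) x ?_ hall
      exact isClosed_eq continuous_id continuous_const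
    exact ⟨0, ContinuousLinearMap.ext fun x => by rw [hzero (X x)]; simp⟩
  · push Not at hall
    obtain ⟨b, hb⟩ := hall
    have hbn : (‖j b‖ ^ 2 : ℂ) ≠ 0 := by
      have : ‖j b‖ ≠ 0 := norm_ne_zero_iff.2 hb
      exact pow_ne_zero 2 (by exact_mod_cast this)
    set c : ℂ := ⟪X (j (st b)), j (st b)⟫_ℂ / (‖j b‖ ^ 2 : ℂ) with hc
    refine ⟨conj c, ?_⟩
    have h1 : ∀ a, ⟪X (j (st a)), j (st a)⟫_ℂ = c * ⟪j (st a), j (st a)⟫_ℂ := by
      intro a
      have h2 := hmain a b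
      rw [inner_self_eq_norm_sq_to_K, h.norm_st, hc, div_mul_eq_mul_div, eq_div_iff hbn,
        mul_comm, h2, mul_comm]
      rfl
    have h2 : ∀ x : K, ⟪X x, x⟫_ℂ = c * ⟪x, x⟫_ℂ := by
      intro x
      refine h.dense_st.induction_on (p := fun x => ⟪X x, x⟫_ℂ = c * ⟪x, x⟫_ℂ) x ?_ h1
      exact isClosed_eq (X.continuous.inner continuous_id)
        (continuous_const.mul (continuous_id.inner continuous_id))
    have h3 : X.toLinearMap = ((conj c • 1 : K →L[ℂ] K)).toLinearMap := by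
      rw [← ext_inner_map]
      intro x
      change ⟪X x, x⟫_ℂ = ⟪conj c • x, x⟫_ℂ
      rw [h2, inner_smul_left, Complex.conj_conj]
    exact ContinuousLinearMap.coe_injective h3

end Vale.Agent.P092.H100
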