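import Vale.Agent.P092.H156.Tr
import Vale.Agent.P092.H100.HilbErg

/-!
P092 (helper100), team A: the Hilbert algebra of the smooth fields.  The completion `LL` of the
smooth fields with left and right multiplication, the conjugations by `Λ` and the right
translations.
-/

set_option linter.all false

open scoped InnerProductSpace Topology ENNReal
open Filter ContinuousLinearMap MeasureTheory
open Vale.Agent.P092.H160 Vale.Agent.P092.H156.Sm

namespace Vale.Agent.P092.H100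

theorem eq_of_inner_dense {E A : Type*} [NormedAddCommGroup E] [InnerProductSpace ℂ E]
    {j : A → E} (hj : DenseRange j) {x y : E} (h : ∀ a, ⟪j a, x⟫_ℂ = ⟪j a, y⟫_ℂ) : x = y := by
  have h1 : ∀ z : E, ⟪z, x⟫_ℂ = ⟪z, y⟫_ℂ := by
    intro z
    refine hj.induction_on (p := fun z => ⟪z, x⟫_ℂ = ⟪z, y⟫_ℂ) z ?_ h
    exact isClosed_eq (continuous_id.inner continuous_const)
      (continuous_id.inner continuous_const)
  exact ext_inner_left ℂ h1

section defs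

variable {Γ Λ G H K : Type} [Group Γ] [Group Λ] [Group G] [Group H] [Countable Γ]
  [TopologicalSpace G] [TopologicalSpace H] [IsTopologicalGroup G] [IsTopologicalGroup H]
  [MeasurableSpace G] [BorelSpace G] [SecondCountableTopology G]
  [NormedAddCommGroup K] [InnerProductSpace ℂ K] [CompleteSpace K]
  (ι : Γ →* G) (κ : Λ →* H) (ρ : Γ →* (K →L[ℂ] K)) (V : Λ →* (K →L[ℂ] K)) (ω : K)
  (μ : Measure G)

/-- The module of smooth fields. -/
def SM : Submodule ℂ (G → K →L[ℂ] K) where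
  carrier := {b | Smo ι κ ρ V ω μ b}
  add_mem' := fun {a b} ha hb =>
    ⟨ha.toFd.add hb.toFd, ACont.add ha.acont hb.acont, L2.add ha.l2 hb.l2⟩
  zero_mem' := ⟨Fd.zero, ACont.zero, L2.zero⟩
  smul_mem' := fun c b hb => ⟨hb.toFd.smul c, ACont.smul c hb.acont, L2.smul c hb.l2⟩

/-- The vector of a smooth field. -/
noncomputable def vec : SM ι κ ρ V ω μ →ₗ[ℂ] Lp K 2 μ where
  toFun b := MemLp.toLp (fun x => b.1 x ω) b.2.l2
  map_add' a b := MemLp.toLp_add a.2.l2 b.2.l2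
  map_smul' c a := MemLp.toLp_const_smul c a.2.l2

/-- The completion of the smooth fields. -/
noncomputable def LL : Submodule ℂ (Lp K 2 μ) :=
  (LinearMap.range (vec ι κ ρ V ω μ)).topologicalClosure

theorem vec_mem (b : SM ι κ ρ V ω μ) : vec ι κ ρ V ω μ b ∈ LL ι κ ρ V ω μ :=
  Submodule.le_topologicalClosure _ ⟨b, rfl⟩

noncomputable instance : CompleteSpace (LL ι κ ρ V ω μ) :=
  (Submodule.isClosed_topologicalClosure _).completeSpace_coe

/-- The smooth fields in their completion. -/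
noncomputable def jj : SM ι κ ρ V ω μ →ₗ[ℂ] LL ι κ ρ V ω μ :=
  (vec ι κ ρ V ω μ).codRestrict _ (vec_mem ι κ ρ V ω μ)

theorem dense_jj : DenseRange (jj ι κ ρ V ω μ) := by
  intro x
  have h1 : (x : Lp K 2 μ) ∈ closure (Set.range (vec ι κ ρ V ω μ)) := by
    have h2 := x.2
    have h3 : (x : Lp K 2 μ) ∈
        ((LinearMap.range (vec ι κ ρ V ω μ)).topologicalClosure : Set (Lp K 2 μ)) := h2
    rw [Submodule.topologicalClosure_coe] at h3
    exact h3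
  rw [closure_subtype]
  refine closure_mono ?_ h1
  rintro _ ⟨b, rfl⟩
  exact ⟨jj ι κ ρ V ω μ b, ⟨b, rfl⟩, rfl⟩

variable {ι κ ρ V ω μ}

theorem inner_jj (a b : SM ι κ ρ V ω μ) :
    ⟪jj ι κ ρ V ω μ a, jj ι κ ρ V ω μ b⟫_ℂ = ip ω μ a.1 b.1 :=
  (integral_inner_toLp a.2.l2 b.2.l2).symm

theorem norm_jj_sq (a : SM ι κ ρ V ω μ) : ‖jj ι κ ρ V ω μ a‖ ^ 2 = (nsq ω μ a.1).toReal :=
  norm_toLp_sq a.2.l2

theorem norm_jj_le {a b : SM ι κ ρ V ω μ} {C : ℝ} (hC : 0 ≤ C)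
    (h : nsq ω μ a.1 ≤ ENNReal.ofReal C ^ 2 * nsq ω μ b.1) :
    ‖jj ι κ ρ V ω μ a‖ ≤ C * ‖jj ι κ ρ V ω μ b‖ := by
  have h1 : ‖jj ι κ ρ V ω μ a‖ ^ 2 ≤ (C * ‖jj ι κ ρ V ω μ b‖) ^ 2 := by
    rw [mul_pow, norm_jj_sq, norm_jj_sq]
    have h2 := ENNReal.toReal_mono (ENNReal.mul_ne_top (by simp) (nsq_lt_top b.2.l2).ne) h
    rw [ENNReal.toReal_mul, ENNReal.toReal_pow, ENNReal.toReal_ofReal hC] at h2
    exact h2
  exact (pow_le_pow_iff_left₀ (norm_nonneg _) (by positivity) two_ne_zero).1 h1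

/-- Two bounded operators which agree on the smooth fields are equal. -/
theorem ext_jj {E : Type} [NormedAddCommGroup E] [NormedSpace ℂ E]
    {S T : LL ι κ ρ V ω μ →L[ℂ] E}
    (h : ∀ a, S (jj ι κ ρ V ω μ a) = T (jj ι κ ρ V ω μ a)) : S = T := by
  refine ContinuousLinearMap.ext fun x => ?_
  refine (dense_jj ι κ ρ V ω μ).induction_on (p := fun x => S x = T x) x ?_ h
  exact isClosed_eq S.continuous T.continuous

theorem eq_of_inner_jj {x y : LL ι κ ρ V ω μ}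
    (h : ∀ a, ⟪jj ι κ ρ V ω μ a, x⟫_ℂ = ⟪jj ι κ ρ V ω μ a, y⟫_ℂ) : x = y :=
  eq_of_inner_dense (dense_jj ι κ ρ V ω μ) h

theorem star_eq_of_jj {S T : LL ι κ ρ V ω μ →L[ℂ] LL ι κ ρ V ω μ}
    (h : ∀ a b, ⟪S (jj ι κ ρ V ω μ a), jj ι κ ρ V ω μ b⟫_ℂ =
      ⟪jj ι κ ρ V ω μ a, T (jj ι κ ρ V ω μ b)⟫_ℂ) : star S = T := by
  refine ext_jj fun b => eq_of_inner_jj fun a => ?_
  rw [star_eq_adjoint, adjoint_inner_right, h]

/-- The operator of a linear map of the smooth fields. -/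
noncomputable def opF (F : SM ι κ ρ V ω μ →ₗ[ℂ] SM ι κ ρ V ω μ) :
    LL ι κ ρ V ω μ →L[ℂ] LL ι κ ρ V ω μ :=
  ((jj ι κ ρ V ω μ).comp F).extendOfNorm (jj ι κ ρ V ω μ)

theorem opF_jj {F : SM ι κ ρ V ω μ →ₗ[ℂ] SM ι κ ρ V ω μ}
    (hF : ∃ C : ℝ, 0 ≤ C ∧ ∀ b, nsq ω μ (F b).1 ≤ ENNReal.ofReal C ^ 2 * nsq ω μ b.1)
    (b : SM ι κ ρ V ω μ) : opF F (jj ι κ ρ V ω μ b) = jj ι κ ρ V ω μ (F b) := by
  obtain ⟨C, hC, h1⟩ := hF
  exact LinearMap.extendOfNorm_eq (dense_jj ι κ ρ V ω μ)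
    ⟨C, fun b => norm_jj_le (a := F b) (b := b) hC (h1 b)⟩ b

end defs

section ops

variable {Γ Λ G H K : Type} [Group Γ] [Group Λ] [Group G] [Group H] [Countable Γ]
  [TopologicalSpace G] [TopologicalSpace H] [IsTopologicalGroup G] [IsTopologicalGroup H]
  [MeasurableSpace G] [BorelSpace G] [SecondCountableTopology G]
  [NormedAddCommGroup K] [InnerProductSpace ℂ K] [CompleteSpace K]
  {ι : Γ →* G} {κ : Λ →* H} {ρ : Γ →* (K →L[ℂ] K)} {V : Λ →* (K →L[ℂ] K)} {ω : K}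
  {μ : Measure G} [μ.IsMulLeftInvariant]

/-- product of smooth fields -/
def mulS (h : Frm ρ V ω) (a b : SM ι κ ρ V ω μ) : SM ι κ ρ V ω μ :=
  ⟨fun x => a.1 x * b.1 x, ⟨a.2.toFd.mul b.2.toFd,
    ACont.mul h a.2.acont b.2.acont a.2.bdd b.2.bdd,
    L2.mul_left a.2.toFd.continuous b.2.toFd.continuous a.2.bdd b.2.l2⟩⟩

/-- adjoint of a smooth field -/
noncomputable def stS (h : Frm ρ V ω) (a : SM ι κ ρ V ω μ) : SM ι κ ρ V ω μ :=
  ⟨fun x => adjoint (a.1 x), ⟨a.2.toFd.adj h.reg, ACont.adj h a.2.acont,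
    L2.adj h.reg a.2.toFd a.2.l2⟩⟩

/-- left multiplication as a linear map -/
def mulL (h : Frm ρ V ω) (a : SM ι κ ρ V ω μ) : SM ι κ ρ V ω μ →ₗ[ℂ] SM ι κ ρ V ω μ where
  toFun b := mulS h a b
  map_add' b c := Subtype.ext (funext fun x => mul_add _ _ _)
  map_smul' z b := Subtype.ext (funext fun x => by
    change a.1 x * (z • b.1 x) = z • (a.1 x * b.1 x)
    exact mul_smul_comm _ _ _)

/-- right multiplication as a linear map -/
def mulR (h : Frm ρ V ω) (a : SM ι κ ρ V ω μ) : SM ι κ ρ V ω μ →ₗ[ℂ] SM ι κ ρ V ω μ where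
  toFun b := mulS h b a
  map_add' b c := Subtype.ext (funext fun x => add_mul _ _ _)
  map_smul' z b := Subtype.ext (funext fun x => by
    change (z • b.1 x) * a.1 x = z • (b.1 x * a.1 x)
    exact smul_mul_assoc _ _ _)

/-- left multiplication on the completion -/
noncomputable def Lo (h : Frm ρ V ω) (a : SM ι κ ρ V ω μ) :
    LL ι κ ρ V ω μ →L[ℂ] LL ι κ ρ V ω μ := opF (mulL h a)

/-- right multiplication on the completion -/
noncomputable def Ro (h : Frm ρ V ω) (a : SM ι κ ρ V ω μ) :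
    LL ι κ ρ V ω μ →L[ℂ] LL ι κ ρ V ω μ := opF (mulR h a)

theorem Lo_jj (h : Frm ρ V ω) (a b : SM ι κ ρ V ω μ) :
    Lo h a (jj ι κ ρ V ω μ b) = jj ι κ ρ V ω μ (mulS h a b) := by
  obtain ⟨C, hC0, hC⟩ := a.2.toFd.exists_bdd
  have h1 : ∀ b : SM ι κ ρ V ω μ, nsq ω μ (mulL h a b).1 ≤
      ENNReal.ofReal C ^ 2 * nsq ω μ b.1 := fun b => nsq_mul_left (a := a.1) (b := b.1) hC
  exact opF_jj (F := mulL h a) ⟨C, hC0.le, h1⟩ b

theorem Ro_jj (h : Frm ρ V ω) (a b : SM ι κ ρ V ω μ) :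
    Ro h a (jj ι κ ρ V ω μ b) = jj ι κ ρ V ω μ (mulS h b a) := by
  obtain ⟨C, hC0, hC⟩ := a.2.toFd.exists_bdd
  have h1 : ∀ b : SM ι κ ρ V ω μ, nsq ω μ (mulR h a b).1 ≤
      ENNReal.ofReal C ^ 2 * nsq ω μ b.1 := fun b =>
    nsq_mul_right (a := b.1) (b := a.1) h.reg b.2.toFd a.2.toFd hC
  exact opF_jj (F := mulR h a) ⟨C, hC0.le, h1⟩ b

theorem ip_mul_left (a b c : G → K →L[ℂ] K) :
    ip ω μ (fun x => a x * b x) c = ip ω μ b (fun x => adjoint (a x) * c x) := by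
  unfold ip
  refine integral_congr_ae (Eventually.of_forall fun x => ?_)
  simp only [mul_ap, adjoint_inner_right]

theorem ip_mul_right (h : RegRep ρ ω) {a b c : G → K →L[ℂ] K} (ha : Fd ι ρ a) (hb : Fd ι ρ b)
    (hc : Fd ι ρ c) (ha2 : L2 ω μ a) (hc2 : L2 ω μ c) :
    ip ω μ (fun x => a x * b x) c = ip ω μ a (fun x => c x * adjoint (b x)) := by
  have e1 := ip_adj (μ := μ) h (ha.mul hb) hc (L2.mul_right h ha hb ha2) hc2
  have e2 := ip_adj (μ := μ) h ha (hc.mul (hb.adj h)) ha2 (L2.mul_right h hc (hb.adj h) hc2)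
  rw [← e1, ← e2]
  unfold ip
  refine integral_congr_ae (Eventually.of_forall fun x => ?_)
  have f1 : adjoint (a x * b x) = adjoint (b x) * adjoint (a x) := by
    change star (a x * b x) = _
    rw [star_mul]; rfl
  have f2 : adjoint (c x * adjoint (b x)) = b x * adjoint (c x) := by
    change star (c x * adjoint (b x)) = _
    rw [star_mul, star_eq_adjoint (adjoint (b x)), adjoint_adjoint]; rfl
  simp only [f1, f2, mul_ap, adjoint_inner_right]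

theorem Lo_star (h : Frm ρ V ω) (a : SM ι κ ρ V ω μ) : star (Lo h a) = Lo h (stS h a) := by
  refine star_eq_of_jj fun b c => ?_
  rw [Lo_jj, Lo_jj, inner_jj, inner_jj]
  exact ip_mul_left a.1 b.1 c.1

theorem Ro_star (h : Frm ρ V ω) (a : SM ι κ ρ V ω μ) : star (Ro h a) = Ro h (stS h a) := by
  refine star_eq_of_jj fun b c => ?_
  rw [Ro_jj, Ro_jj, inner_jj, inner_jj]
  exact ip_mul_right h.reg b.2.toFd a.2.toFd c.2.toFd b.2.l2 c.2.l2

theorem tr_jj (h : Frm ρ V ω) (a b : SM ι κ ρ V ω μ) :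
    ⟪jj ι κ ρ V ω μ a, jj ι κ ρ V ω μ b⟫_ℂ =
      ⟪jj ι κ ρ V ω μ (stS h b), jj ι κ ρ V ω μ (stS h a)⟫_ℂ := by
  rw [inner_jj, inner_jj]
  exact (ip_adj h.reg a.2.toFd b.2.toFd a.2.l2 b.2.l2).symm

theorem LR_comm (h : Frm ρ V ω) (a b : SM ι κ ρ V ω μ) : Lo h a * Ro h b = Ro h b * Lo h a := by
  refine ext_jj fun c => ?_
  change Lo h a (Ro h b _) = Ro h b (Lo h a _)
  rw [Ro_jj, Lo_jj, Lo_jj, Ro_jj]
  refine congrArg _ (Subtype.ext (funext fun x => ?_))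
  exact (mul_assoc _ _ _).symm

/-- conjugation of a smooth field -/
def cjS (h : Frm ρ V ω) (v : Λ) (b : SM ι κ ρ V ω μ) : SM ι κ ρ V ω μ :=
  ⟨fun x => V v * b.1 x * V v⁻¹, ⟨b.2.toFd.conj h v, ACont.conj h b.2.acont v,
    L2.conj h b.2.toFd b.2.l2 v⟩⟩

/-- conjugation as a linear map -/
def cjL (h : Frm ρ V ω) (v : Λ) : SM ι κ ρ V ω μ →ₗ[ℂ] SM ι κ ρ V ω μ where
  toFun b := cjS h v b
  map_add' b c := Subtype.ext (funext fun x => by
    change V v * (b.1 x + c.1 x) * V v⁻¹ = V v * b.1 x * V v⁻¹ + V v * c.1 x * V v⁻¹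
    rw [mul_add, add_mul])
  map_smul' z b := Subtype.ext (funext fun x => by
    change V v * (z • b.1 x) * V v⁻¹ = z • (V v * b.1 x * V v⁻¹)
    rw [mul_smul_comm, smul_mul_assoc])

/-- conjugation on the completion -/
noncomputable def Co (h : Frm ρ V ω) (v : Λ) : LL ι κ ρ V ω μ →L[ℂ] LL ι κ ρ V ω μ :=
  opF (cjL h v)

theorem Co_jj (h : Frm ρ V ω) (v : Λ) (b : SM ι κ ρ V ω μ) :
    Co h v (jj ι κ ρ V ω μ b) = jj ι κ ρ V ω μ (cjS h v b) := by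
  have h1 : ∀ b : SM ι κ ρ V ω μ, nsq ω μ (cjL h v b).1 ≤
      ENNReal.ofReal 1 ^ 2 * nsq ω μ b.1 := fun b => by
    rw [ENNReal.ofReal_one, one_pow, one_mul]
    exact (nsq_conj h b.2.toFd v).le
  exact opF_jj (F := cjL h v) ⟨1, zero_le_one, h1⟩ b

/-- the representation of `Λ` on the completion -/
noncomputable def CoR (h : Frm ρ V ω) : Λ →* (LL ι κ ρ V ω μ →L[ℂ] LL ι κ ρ V ω μ) where
  toFun v := Co h v
  map_one' := by
    refine ext_jj fun b => ?_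
    rw [Co_jj]
    refine congrArg _ (Subtype.ext (funext fun x => ?_))
    change V 1 * b.1 x * V 1⁻¹ = b.1 x
    rw [inv_one, map_one, one_mul, mul_one]
  map_mul' v w := by
    refine ext_jj fun b => ?_
    change Co h (v * w) _ = Co h v (Co h w _)
    rw [Co_jj, Co_jj, Co_jj]
    refine congrArg _ (Subtype.ext (funext fun x => ?_))
    change V (v * w) * b.1 x * V (v * w)⁻¹ = V v * (V w * b.1 x * V w⁻¹) * V v⁻¹
    rw [mul_inv_rev, map_mul, map_mul]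
    simp only [mul_assoc]

theorem Co_star (h : Frm ρ V ω) (v : Λ) :
    star (Co h v : LL ι κ ρ V ω μ →L[ℂ] LL ι κ ρ V ω μ) = Co h v⁻¹ := by
  refine star_eq_of_jj fun b c => ?_
  rw [Co_jj, Co_jj, inner_jj, inner_jj]
  have e1 : ip ω μ (fun x => (V v * b.1 x) * V v⁻¹) c.1 =
      ip ω μ (fun x => V v * b.1 x) (fun x => c.1 x * adjoint (V v⁻¹)) :=
    ip_mul_right h.reg (b.2.toFd.lm h.reg (h.comm v)) (Fd.const h.reg (h.comm v⁻¹)) c.2.toFd
      (L2.lm b.2.toFd b.2.l2 _) c.2.l2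
  have e2 : ip ω μ (fun x => V v * b.1 x) (fun x => c.1 x * adjoint (V v⁻¹)) =
      ip ω μ b.1 (fun x => adjoint (V v) * (c.1 x * adjoint (V v⁻¹))) :=
    ip_mul_left (fun _ => V v) b.1 _
  have e3 : (fun x => adjoint (V v) * (c.1 x * adjoint (V v⁻¹))) =
      fun x => V v⁻¹ * c.1 x * V v⁻¹⁻¹ := by
    funext x
    rw [h.adj, h.adj, mul_assoc]
  rw [e3] at e2
  exact e1.trans e2

variable [μ.IsMulRightInvariant]

/-- right translation of a smooth field -/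
def rtS (y : G) (b : SM ι κ ρ V ω μ) : SM ι κ ρ V ω μ :=
  ⟨fun x => b.1 (x * y), ⟨b.2.toFd.rt y, ACont.rt b.2.acont y, L2.rt b.2.toFd b.2.l2 y⟩⟩

/-- right translation as a linear map -/
def rtL (y : G) : SM ι κ ρ V ω μ →ₗ[ℂ] SM ι κ ρ V ω μ where
  toFun b := rtS y b
  map_add' b c := rfl
  map_smul' z b := rfl

/-- right translation on the completion -/
noncomputable def Rt (y : G) : LL ι κ ρ V ω μ →L[ℂ] LL ι κ ρ V ω μ := opF (rtL y)

theorem Rt_jj (y : G) (b : SM ι κ ρ V ω μ) :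
    Rt y (jj ι κ ρ V ω μ b) = jj ι κ ρ V ω μ (rtS y b) := by
  have h1 : ∀ b : SM ι κ ρ V ω μ, nsq ω μ (rtL y b).1 ≤
      ENNReal.ofReal 1 ^ 2 * nsq ω μ b.1 := fun b => by
    rw [ENNReal.ofReal_one, one_pow, one_mul]
    exact (nsq_rt b.1 y).le
  exact opF_jj (F := rtL y) ⟨1, zero_le_one, h1⟩ b

/-- the representation of `G` on the completion -/
noncomputable def RtR : G →* (LL ι κ ρ V ω μ →L[ℂ] LL ι κ ρ V ω μ) where
  toFun y := Rt y
  map_one' := by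
    refine ext_jj fun b => ?_
    rw [Rt_jj]
    refine congrArg _ (Subtype.ext (funext fun x => ?_))
    change b.1 (x * 1) = b.1 x
    rw [mul_one]
  map_mul' y z := by
    refine ext_jj fun b => ?_
    change Rt (y * z) _ = Rt y (Rt z _)
    rw [Rt_jj, Rt_jj, Rt_jj]
    refine congrArg _ (Subtype.ext (funext fun x => ?_))
    change b.1 (x * (y * z)) = b.1 (x * y * z)
    rw [mul_assoc]

theorem Rt_star (y : G) :
    star (Rt y : LL ι κ ρ V ω μ →L[ℂ] LL ι κ ρ V ω μ) = Rt y⁻¹ := by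
  refine star_eq_of_jj fun b c => ?_
  rw [Rt_jj, Rt_jj, inner_jj, inner_jj]
  unfold ip
  have h1 := integral_mul_right_eq_self (μ := μ)
    (fun x => ⟪b.1 x ω, c.1 (x * y⁻¹) ω⟫_ℂ) y
  refine Eq.trans ?_ h1
  refine integral_congr_ae (Eventually.of_forall fun x => ?_)
  change ⟪b.1 (x * y) ω, c.1 x ω⟫_ℂ = ⟪b.1 (x * y) ω, c.1 (x * y * y⁻¹) ω⟫_ℂ
  rw [mul_inv_cancel_right]

theorem Rt_Co (h : Frm ρ V ω) (y : G) (v : Λ) :
    (Rt y : LL ι κ ρ V ω μ →L[ℂ] LL ι κ ρ V ω μ) * Co h v = Co h v * Rt y := by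
  refine ext_jj fun b => ?_
  change Rt y (Co h v _) = Co h v (Rt y _)
  rw [Co_jj, Rt_jj, Rt_jj, Co_jj]
  rfl

theorem Rt_L (h : Frm ρ V ω) (y : G) (a : SM ι κ ρ V ω μ) :
    Rt y * Lo h a * Rt y⁻¹ = Lo h (rtS y a) := by
  refine ext_jj fun b => ?_
  change Rt y (Lo h a (Rt y⁻¹ _)) = Lo h (rtS y a) _
  rw [Rt_jj, Lo_jj, Rt_jj, Lo_jj]
  refine congrArg _ (Subtype.ext (funext fun x => ?_))
  change a.1 (x * y) * b.1 (x * y * y⁻¹) = a.1 (x * y) * b.1 x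
  rw [mul_inv_cancel_right]

theorem Rt_R (h : Frm ρ V ω) (y : G) (a : SM ι κ ρ V ω μ) :
    Rt y * Ro h a * Rt y⁻¹ = Ro h (rtS y a) := by
  refine ext_jj fun b => ?_
  change Rt y (Ro h a (Rt y⁻¹ _)) = Ro h (rtS y a) _
  rw [Rt_jj, Ro_jj, Rt_jj, Ro_jj]
  refine congrArg _ (Subtype.ext (funext fun x => ?_))
  change b.1 (x * y * y⁻¹) * a.1 (x * y) = b.1 x * a.1 (x * y)
  rw [mul_inv_cancel_right]

omit [μ.IsMulRightInvariant] in
theorem Co_L (h : Frm ρ V ω) (v : Λ) (a : SM ι κ ρ V ω μ) :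
    Co h v * Lo h a * Co h v⁻¹ = Lo h (cjS h v a) := by
  refine ext_jj fun b => ?_
  change Co h v (Lo h a (Co h v⁻¹ _)) = Lo h (cjS h v a) _
  rw [Co_jj, Lo_jj, Co_jj, Lo_jj]
  refine congrArg _ (Subtype.ext (funext fun x => ?_))
  change V v * (a.1 x * (V v⁻¹ * b.1 x * V v⁻¹⁻¹)) * V v⁻¹ = V v * a.1 x * V v⁻¹ * b.1 x
  rw [inv_inv]
  calc V v * (a.1 x * (V v⁻¹ * b.1 x * V v)) * V v⁻¹ =
        V v * a.1 x * V v⁻¹ * b.1 x * (V v * V v⁻¹) := by simp only [mul_assoc]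
    _ = _ := by rw [h.mul_inv, mul_one]

omit [μ.IsMulRightInvariant] in
theorem Co_R (h : Frm ρ V ω) (v : Λ) (a : SM ι κ ρ V ω μ) :
    Co h v * Ro h a * Co h v⁻¹ = Ro h (cjS h v a) := by
  refine ext_jj fun b => ?_
  change Co h v (Ro h a (Co h v⁻¹ _)) = Ro h (cjS h v a) _
  rw [Co_jj, Ro_jj, Co_jj, Ro_jj]
  refine congrArg _ (Subtype.ext (funext fun x => ?_))
  change V v * ((V v⁻¹ * b.1 x * V v⁻¹⁻¹) * a.1 x) * V v⁻¹ = b.1 x * (V v * a.1 x * V v⁻¹)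
  rw [inv_inv]
  calc V v * ((V v⁻¹ * b.1 x * V v) * a.1 x) * V v⁻¹ =
        (V v * V v⁻¹) * b.1 x * (V v * a.1 x * V v⁻¹) := by simp only [mul_assoc]
    _ = _ := by rw [h.mul_inv, one_mul]

end ops

end Vale.Agent.P092.H100
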