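import Vale.Agent.P092.H820.Pn

/-!
P092 (helper100), TEAM N, block [N-GR], part 1: the Grassmannian `Gr k ι j` of the `j`-dimensional
subspaces of `ι → k`: compact, Hausdorff, second countable, with a continuous action of `SL`;
closed incidence.
-/

set_option linter.all false

open TopologicalSpace Topology Module Set
open scoped Matrix

namespace Vale.Agent.P092.H100.Gr

section minors

variable {k : Type*} [Field k] {ι : Type*} {j : ℕ}

/-- the minors of a frame -/
def mn (I : Fin j → ι) (v : Fin j → ι → k) : k := (Matrix.of fun b a => v b (I a)).det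

theorem exists_mn [Fintype ι] {v : Fin j → ι → k} (hv : LinearIndependent k v) :
    ∃ I : Fin j → ι, mn I v ≠ 0 := by
  have h1 : (Matrix.of v).rank = j := by
    rw [← Matrix.rank_transpose, Matrix.rank_eq_finrank_span_cols]
    have e : (Matrix.of v)ᵀ.col = v := rfl
    rw [e, finrank_span_eq_card hv, Fintype.card_fin]
  rw [Matrix.rank_eq_finrank_span_cols] at h1
  obtain ⟨f, hf1, hf2, hf3⟩ := Submodule.exists_fun_fin_finrank_span_eq k
    (Set.range (Matrix.of v).col)
  have h2 : ∀ a : Fin j, ∃ i : ι, (Matrix.of v).col i = f (Fin.cast h1.symm a) := fun a => hf1 _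
  choose I hI using h2
  refine ⟨I, ?_⟩
  have h3 : LinearIndependent k fun a : Fin j => (Matrix.of v).col (I a) := by
    have e : (fun a : Fin j => (Matrix.of v).col (I a)) = f ∘ Fin.cast h1.symm := funext hI
    rw [e]
    exact hf3.comp _ (Fin.cast_injective _)
  have h4 : IsUnit (Matrix.of fun b a => v b (I a)) := by
    rw [← Matrix.linearIndependent_cols_iff_isUnit]
    exact h3
  exact isUnit_iff_ne_zero.1 ((Matrix.isUnit_iff_isUnit_det _).1 h4)

theorem li_of_mn {v : Fin j → ι → k} {I : Fin j → ι} (h : mn I v ≠ 0) :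
    LinearIndependent k v := by
  have h1 : LinearIndependent k fun b => fun a => v b (I a) :=
    Matrix.linearIndependent_rows_of_det_ne_zero h
  exact LinearIndependent.of_comp (LinearMap.funLeft k k I) h1

theorem li_iff [Fintype ι] {v : Fin j → ι → k} :
    LinearIndependent k v ↔ ∃ I : Fin j → ι, mn I v ≠ 0 :=
  ⟨exists_mn, fun ⟨_, h⟩ => li_of_mn h⟩

/-- the action of `GL_j` on the frames -/
def cb (A : Matrix (Fin j) (Fin j) k) (v : Fin j → ι → k) : Fin j → ι → k :=
  fun b => ∑ c, A b c • v c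

theorem cb_mn (A : Matrix (Fin j) (Fin j) k) (v : Fin j → ι → k) (I : Fin j → ι) :
    mn I (cb A v) = A.det * mn I v := by
  unfold mn
  rw [← Matrix.det_mul]
  congr 1
  ext b a
  simp [cb, Matrix.mul_apply, Finset.sum_apply]

theorem cb_cb (A B : Matrix (Fin j) (Fin j) k) (v : Fin j → ι → k) :
    cb A (cb B v) = cb (A * B) v := by
  funext b i
  simp only [cb, Finset.sum_apply, Pi.smul_apply, smul_eq_mul, Matrix.mul_apply, Finset.mul_sum,
    Finset.sum_mul]
  rw [Finset.sum_comm]
  refine Finset.sum_congr rfl fun c _ => Finset.sum_congr rfl fun d _ => ?_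
  ring

theorem cb_one (v : Fin j → ι → k) : cb 1 v = v := by
  funext b
  simp [cb, Matrix.one_apply]

theorem cb_le (A : Matrix (Fin j) (Fin j) k) (v : Fin j → ι → k) :
    Submodule.span k (range (cb A v)) ≤ Submodule.span k (range v) := by
  rw [Submodule.span_le]
  rintro _ ⟨b, rfl⟩
  exact Submodule.sum_mem _ fun c _ => Submodule.smul_mem _ _ (Submodule.subset_span ⟨c, rfl⟩)

theorem cb_span {A : Matrix (Fin j) (Fin j) k} (hA : IsUnit A.det) (v : Fin j → ι → k) :
    Submodule.span k (range (cb A v)) = Submodule.span k (range v) := by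
  refine le_antisymm (cb_le A v) ?_
  have h := cb_le A⁻¹ (cb A v)
  rw [cb_cb, Matrix.nonsing_inv_mul _ hA, cb_one] at h
  exact h

theorem exists_cb [Fintype ι] {v w : Fin j → ι → k} (hw : LinearIndependent k w)
    (h : ∀ b, w b ∈ Submodule.span k (range v)) : ∃ A : Matrix (Fin j) (Fin j) k,
      A.det ≠ 0 ∧ w = cb A v := by
  have h1 : ∀ b, ∃ c : Fin j → k, ∑ i, c i • v i = w b := fun b =>
    (Submodule.mem_span_range_iff_exists_fun k).1 (h b)
  choose A hA using h1
  have e : w = cb (Matrix.of A) v := funext fun b => (hA b).symm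
  refine ⟨Matrix.of A, fun h0 => ?_, e⟩
  obtain ⟨I, hI⟩ := exists_mn hw
  apply hI
  rw [e, cb_mn, h0, zero_mul]

theorem cb_li {A : Matrix (Fin j) (Fin j) k} (hA : A.det ≠ 0) [Fintype ι] {v : Fin j → ι → k}
    (hv : LinearIndependent k v) : LinearIndependent k (cb A v) := by
  obtain ⟨I, hI⟩ := exists_mn hv
  refine li_of_mn (I := I) ?_
  rw [cb_mn]
  exact mul_ne_zero hA hI

end minors

section defs

variable (k : Type*) [Field k] (ι : Type*) (j : ℕ)

/-- the Grassmannian -/
def Gr : Type _ := {L : Submodule k (ι → k) // finrank k L = j}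

/-- the frames -/
def Fr : Type _ := {v : Fin j → ι → k // LinearIndependent k v}

variable {k ι j}

/-- the span of a frame -/
def sp (v : Fr k ι j) : Gr k ι j :=
  ⟨Submodule.span k (range v.1), (finrank_span_eq_card v.2).trans (Fintype.card_fin j)⟩

theorem sp_surj [Fintype ι] : Function.Surjective (sp : Fr k ι j → Gr k ι j) := by
  rintro ⟨L, hL⟩
  let b := finBasisOfFinrankEq k L hL
  refine ⟨⟨fun i => (b i : ι → k), ?_⟩, ?_⟩
  · have := b.linearIndependent
    exact this.map' L.subtype (Submodule.ker_subtype L)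
  · refine Subtype.ext ?_
    change Submodule.span k (range fun i => (b i : ι → k)) = L
    have h1 : (range fun i => (b i : ι → k)) = L.subtype '' range b := by
      rw [← range_comp]
      rfl
    rw [h1, ← Submodule.map_span, b.span_eq, Submodule.map_top, Submodule.range_subtype]

instance [TopologicalSpace k] : TopologicalSpace (Fr k ι j) :=
  inferInstanceAs (TopologicalSpace {v : Fin j → ι → k // LinearIndependent k v})

instance [TopologicalSpace k] : TopologicalSpace (Gr k ι j) :=
  TopologicalSpace.coinduced sp inferInstance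

theorem fr_val_cont [TopologicalSpace k] : Continuous fun v : Fr k ι j => v.1 :=
  continuous_subtype_val

theorem sp_cont [TopologicalSpace k] : Continuous (sp : Fr k ι j → Gr k ι j) :=
  continuous_coinduced_rng

theorem sp_quot [TopologicalSpace k] [Fintype ι] : IsQuotientMap (sp : Fr k ι j → Gr k ι j) :=
  ⟨⟨rfl⟩, sp_surj⟩

theorem sp_eq [Fintype ι] (v w : Fr k ι j) : sp v = sp w ↔ ∃ A : Matrix (Fin j) (Fin j) k,
    A.det ≠ 0 ∧ w.1 = cb A v.1 := by
  constructor
  · intro h
    refine exists_cb w.2 fun b => ?_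
    have h1 : Submodule.span k (range v.1) = Submodule.span k (range w.1) := congrArg Subtype.val h
    rw [h1]
    exact Submodule.subset_span ⟨b, rfl⟩
  · rintro ⟨A, hA, h⟩
    refine Subtype.ext ?_
    change Submodule.span k (range v.1) = Submodule.span k (range w.1)
    rw [h, cb_span (isUnit_iff_ne_zero.2 hA)]

end defs

section top

variable {k : Type*} [NontriviallyNormedField k] {ι : Type*} [Fintype ι] {i j : ℕ}

theorem mn_cont (I : Fin j → ι) : Continuous fun v : Fin j → ι → k => mn I v := by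
  unfold mn
  refine Continuous.matrix_det ?_
  refine continuous_matrix fun b a => ?_
  exact (continuous_apply (I a)).comp (continuous_apply b)

theorem cb_cont (A : Matrix (Fin j) (Fin j) k) :
    Continuous fun v : Fin j → ι → k => cb A v := by
  unfold cb
  fun_prop

/-- the action of `GL_j` on the frames -/
def cbF (A : {A : Matrix (Fin j) (Fin j) k // A.det ≠ 0}) (v : Fr k ι j) : Fr k ι j :=
  ⟨cb A.1 v.1, cb_li A.2 v.2⟩

theorem sp_open : IsOpenMap (sp : Fr k ι j → Gr k ι j) := by
  intro U hU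
  rw [← sp_quot.isOpen_preimage]
  have : sp ⁻¹' (sp '' U) = ⋃ A : {A : Matrix (Fin j) (Fin j) k // A.det ≠ 0},
      (fun v : Fr k ι j => cbF A v) ⁻¹' U := by
    ext v
    simp only [mem_preimage, mem_image, mem_iUnion]
    constructor
    · rintro ⟨u, hu, he⟩
      obtain ⟨A, hA, h⟩ := (sp_eq v u).1 he.symm
      refine ⟨⟨A, hA⟩, ?_⟩
      have e : cbF ⟨A, hA⟩ v = u := Subtype.ext h.symm
      rw [e]
      exact hu
    · rintro ⟨A, hA⟩
      exact ⟨_, hA, ((sp_eq _ _).2 ⟨A.1, A.2, rfl⟩).symm⟩
  rw [this]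
  refine isOpen_iUnion fun A => hU.preimage ?_
  exact Continuous.subtype_mk ((cb_cont A.1).comp fr_val_cont) _

theorem sp_oq : IsOpenQuotientMap (sp : Fr k ι j → Gr k ι j) := ⟨sp_surj, sp_cont, sp_open⟩

theorem mem_span_iff {w : Fin j → ι → k} (hw : LinearIndependent k w) (x : ι → k) :
    x ∈ Submodule.span k (range w) ↔ ∀ I : Fin (j + 1) → ι, mn I (Fin.cons x w) = 0 := by
  have h1 : LinearIndependent k (Fin.cons x w : Fin (j + 1) → ι → k) ↔
      LinearIndependent k w ∧ x ∉ Submodule.span k (range w) := linearIndependent_finCons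
  rw [li_iff] at h1
  constructor
  · intro hx I
    by_contra hI
    exact (h1.1 ⟨I, hI⟩).2 hx
  · intro h
    by_contra hx
    obtain ⟨I, hI⟩ := h1.2 ⟨hw, hx⟩
    exact hI (h I)

theorem frinc_closed : IsClosed {p : Fr k ι i × Fr k ι j | (sp p.1).1 ≤ (sp p.2).1} := by
  have e : {p : Fr k ι i × Fr k ι j | (sp p.1).1 ≤ (sp p.2).1} = ⋂ (b : Fin i),
      ⋂ (I : Fin (j + 1) → ι), {p : Fr k ι i × Fr k ι j | mn I (Fin.cons (p.1.1 b) p.2.1) = 0} := by
    ext p
    simp only [mem_iInter]
    constructor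
    · intro h b
      refine (mem_span_iff p.2.2 _).1 ?_
      exact h (Submodule.subset_span ⟨b, rfl⟩)
    · intro h
      change Submodule.span k (range p.1.1) ≤ Submodule.span k (range p.2.1)
      rw [Submodule.span_le]
      rintro _ ⟨b, rfl⟩
      exact (mem_span_iff p.2.2 _).2 (h b)
  rw [e]
  refine isClosed_iInter fun b => isClosed_iInter fun I => ?_
  refine isClosed_eq ?_ continuous_const
  refine (mn_cont I).comp ?_
  refine continuous_pi fun c => ?_
  refine Fin.cases ?_ (fun c => ?_) c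
  · simp only [Fin.cons_zero]
    exact (continuous_apply b).comp (fr_val_cont.comp continuous_fst)
  · simp only [Fin.cons_succ]
    exact (continuous_apply c).comp (fr_val_cont.comp continuous_snd)

/-- incidence -/
def incG (k : Type*) [NontriviallyNormedField k] (ι : Type*) [Fintype ι] (i j : ℕ) :
    Set (Gr k ι i × Gr k ι j) := {p | p.1.1 ≤ p.2.1}

theorem incG_closed : IsClosed (incG k ι i j) := by
  have h := (sp_oq (k := k) (ι := ι) (j := i)).prodMap (sp_oq (k := k) (ι := ι) (j := j))
  rw [← h.isQuotientMap.isClosed_preimage]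
  exact frinc_closed

theorem eq_of_le {L L' : Gr k ι j} (h : L.1 ≤ L'.1) : L = L' :=
  Subtype.ext (Submodule.eq_of_le_of_finrank_eq h (L.2.trans L'.2.symm))

instance t2Gr : T2Space (Gr k ι j) := by
  rw [t2Space_iff_of_isOpenQuotientMap sp_oq]
  have e : {q : Fr k ι j × Fr k ι j | sp q.1 = sp q.2} =
      {p : Fr k ι j × Fr k ι j | (sp p.1).1 ≤ (sp p.2).1} := by
    ext q
    exact ⟨fun h => le_of_eq (congrArg Subtype.val h), fun h => eq_of_le h⟩
  rw [e]
  exact frinc_closed

/-- two different subspaces span more -/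
theorem lt_sup {L L' : Gr k ι j} (h : L ≠ L') : j + 1 ≤ finrank k ↥(L.1 ⊔ L'.1) := by
  have h1 : L.1 < L.1 ⊔ L'.1 := by
    refine lt_of_le_of_ne le_sup_left fun he => h ?_
    refine (eq_of_le ?_).symm
    rw [he]
    exact le_sup_right
  have h2 := Submodule.finrank_lt_finrank_of_lt h1
  rw [L.2] at h2
  exact h2

/-- two different subspaces are not contained in a subspace of the same dimension -/
theorem not_both {L L' M : Gr k ι j} (h : L ≠ L') (h1 : L.1 ≤ M.1) : ¬ L'.1 ≤ M.1 :=
  fun h2 => h ((eq_of_le h1).trans (eq_of_le h2).symm)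

theorem le_of_incG {L : Gr k ι i} {M : Gr k ι j} (h : (L, M) ∈ incG k ι i j) : i ≤ j := by
  have := Submodule.finrank_mono (h : L.1 ≤ M.1)
  rwa [L.2, M.2] at this

variable [ProperSpace k]

/-- the normalised frames -/
def ch (I : Fin j → ι) : Set (Fin j → ι → k) :=
  {v | (∀ b a, v b (I a) = (1 : Matrix (Fin j) (Fin j) k) b a) ∧ ∀ b i, ‖v b i‖ ≤ 1}

omit [ProperSpace k] in
theorem ch_mn {I : Fin j → ι} {v : Fin j → ι → k} (h : v ∈ ch I) : mn I v = 1 := by
  unfold mn
  have e : (Matrix.of fun b a => v b (I a)) = 1 := by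
    ext b a
    exact h.1 b a
  rw [e, Matrix.det_one]

theorem ch_compact (I : Fin j → ι) : IsCompact (ch I : Set (Fin j → ι → k)) := by
  have hK : IsCompact (Set.pi Set.univ fun _ : Fin j => Set.pi Set.univ
      fun _ : ι => Metric.closedBall (0 : k) 1) :=
    isCompact_univ_pi fun _ => isCompact_univ_pi fun _ => isCompact_closedBall _ _
  refine hK.of_isClosed_subset ?_ fun v hv b _ i _ => ?_
  · have e : (ch I : Set (Fin j → ι → k)) =
        (⋂ b, ⋂ a, {v | v b (I a) = (1 : Matrix (Fin j) (Fin j) k) b a}) ∩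
        ⋂ b, ⋂ i, {v | ‖v b i‖ ≤ 1} := by
      ext v
      simp [ch]
    rw [e]
    refine IsClosed.inter ?_ ?_
    · exact isClosed_iInter fun b => isClosed_iInter fun a =>
        isClosed_eq ((continuous_apply (I a)).comp (continuous_apply b)) continuous_const
    · exact isClosed_iInter fun b => isClosed_iInter fun i =>
        isClosed_le ((continuous_apply i).comp (continuous_apply b)).norm continuous_const
  · rw [mem_closedBall_zero_iff]
    exact hv.2 b i

omit [ProperSpace k] in
/-- every subspace has a normalised frame -/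
theorem exists_ch (L : Gr k ι j) : ∃ (I : Fin j → ι) (v : Fr k ι j), v.1 ∈ ch (k := k) I ∧
    sp v = L := by
  classical
  obtain ⟨v, rfl⟩ := sp_surj L
  obtain ⟨I₀, hI₀⟩ := exists_mn v.2
  haveI : Nonempty (Fin j → ι) := ⟨I₀⟩
  obtain ⟨I, hI⟩ := Finite.exists_max fun I : Fin j → ι => ‖mn I v.1‖
  have hI0 : mn I v.1 ≠ 0 := by
    intro h
    have := hI I₀
    rw [h, norm_zero] at this
    exact hI₀ (norm_le_zero_iff.1 this)
  obtain ⟨B, hB⟩ : ∃ B : Matrix (Fin j) (Fin j) k, B = Matrix.of fun b a => v.1 b (I a) := ⟨_, rfl⟩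
  have hBd : B.det = mn I v.1 := by rw [hB]; rfl
  have hBu : IsUnit B.det := isUnit_iff_ne_zero.2 (by rw [hBd]; exact hI0)
  have hAd : (B⁻¹).det ≠ 0 := by
    have := Matrix.isUnit_nonsing_inv_det B hBu
    exact this.ne_zero
  have h1 : ∀ b a, cb B⁻¹ v.1 b (I a) = (1 : Matrix (Fin j) (Fin j) k) b a := by
    intro b a
    rw [← Matrix.nonsing_inv_mul B hBu, Matrix.mul_apply]
    simp only [cb, Finset.sum_apply, Pi.smul_apply, smul_eq_mul]
    refine Finset.sum_congr rfl fun c _ => ?_
    rw [hB]
    rfl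
  refine ⟨I, ⟨cb B⁻¹ v.1, cb_li hAd v.2⟩, ⟨h1, fun b i => ?_⟩, ?_⟩
  · have e1 : cb B⁻¹ v.1 b i = mn (Function.update I b i) (cb B⁻¹ v.1) := by
      unfold mn
      have e2 : (Matrix.of fun c a => cb B⁻¹ v.1 c (Function.update I b i a)) =
          (1 : Matrix (Fin j) (Fin j) k).updateCol b fun c => cb B⁻¹ v.1 c i := by
        ext c a
        rw [Matrix.updateCol_apply, Matrix.of_apply]
        by_cases h : a = b
        · rw [if_pos h, h, Function.update_self]
        · rw [if_neg h, Function.update_of_ne h, h1]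
      rw [e2, ← Matrix.cramer_apply, Matrix.cramer_one]
      rfl
    change ‖cb B⁻¹ v.1 b i‖ ≤ 1
    rw [e1, cb_mn, norm_mul]
    have h2 : (B⁻¹).det * mn I v.1 = 1 := by
      rw [← hBd]
      exact Matrix.det_nonsing_inv_mul_det B hBu
    calc ‖(B⁻¹).det‖ * ‖mn (Function.update I b i) v.1‖ ≤ ‖(B⁻¹).det‖ * ‖mn I v.1‖ := by
          gcongr
          exact hI _
      _ = 1 := by rw [← norm_mul, h2, norm_one]
  · exact ((sp_eq _ _).2 ⟨B⁻¹, hAd, rfl⟩).symm

instance cptGr : CompactSpace (Gr k ι j) := by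
  classical
  have hc : ∀ I : Fin j → ι, IsCompact (sp '' {v : Fr k ι j | v.1 ∈ ch (k := k) I}) := by
    intro I
    refine IsCompact.image ?_ sp_cont
    have h1 : IsEmbedding (fun v : Fr k ι j => v.1) := IsEmbedding.subtypeVal
    rw [h1.isCompact_iff]
    have e : (fun v : Fr k ι j => v.1) '' {v : Fr k ι j | v.1 ∈ ch (k := k) I} = ch (k := k) I := by
      ext v
      constructor
      · rintro ⟨w, hw, rfl⟩
        exact hw
      · intro hv
        exact ⟨⟨v, li_of_mn (I := I) (by rw [ch_mn hv]; exact one_ne_zero)⟩, hv, rfl⟩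
    rw [e]
    exact ch_compact I
  refine ⟨?_⟩
  have e : (Set.univ : Set (Gr k ι j)) = ⋃ I : Fin j → ι,
      sp '' {v : Fr k ι j | v.1 ∈ ch (k := k) I} := by
    ext L
    simp only [mem_univ, mem_iUnion, true_iff]
    obtain ⟨I, v, h1, h2⟩ := exists_ch L
    exact ⟨I, v, h1, h2⟩
  rw [e]
  exact isCompact_iUnion hc

instance scFr : SecondCountableTopology (Fr k ι j) :=
  inferInstanceAs (SecondCountableTopology {v : Fin j → ι → k // LinearIndependent k v})

instance scGr : SecondCountableTopology (Gr k ι j) :=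
  sp_quot.secondCountableTopology sp_open

instance metGr : MetrizableSpace (Gr k ι j) := metrizableSpace_of_t3_secondCountable _

end top

end Vale.Agent.P092.H100.Gr
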