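import Vale.Agent.P092.H100.Gr2
import Vale.Agent.P092.H514.NoInvRP

/-!
P092 (helper100), TEAM N, block [N-GR], part 3: no mean on the Grassmannian is invariant under a
subgroup of finite covolume.
-/

set_option linter.all false

open TopologicalSpace Topology Module Set MeasureTheory
open scoped Matrix

namespace Vale.Agent.P092.H100.Gr

open Vale.Agent.P092.H514.NI (tv tv_smul)

section minors

variable {k : Type*} [Field k] {ι : Type*} [Fintype ι] [DecidableEq ι] {d : ℕ}

/-- minors under a diagonal matrix -/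
theorem mn_diag (t : ι → k) (I : Fin d → ι) (v w : Fin d → ι → k)
    (h : ∀ b i, w b i = t i * v b i) : mn I w = (∏ a, t (I a)) * mn I v := by
  unfold mn
  rw [← Matrix.det_mul_row]
  congr 1
  ext b a
  exact h b (I a)

theorem mn_of_not_inj {I : Fin d → ι} (hI : ¬ Function.Injective I) (v : Fin d → ι → k) :
    mn I v = 0 := by
  simp only [Function.Injective, not_forall] at hI
  obtain ⟨a, b, hab, hne⟩ := hI
  refine Matrix.det_zero_of_column_eq hne fun c => ?_
  change v c (I a) = v c (I b)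
  rw [hab]

/-- minors under a transvection, the row avoided -/
theorem mn_tv_of_notMem {p q : ι} {c : k} {I : Fin d → ι} (hI : ∀ a, I a ≠ p)
    {v w : Fin d → ι → k} (h : ∀ b i, w b i = if i = p then v b p + c * v b q else v b i) :
    mn I w = mn I v := by
  unfold mn
  congr 1
  ext b a
  change w b (I a) = v b (I a)
  rw [h, if_neg (hI a)]

/-- minors under a transvection -/
theorem mn_tv {p q : ι} {c : k} {I : Fin d → ι} (hI : Function.Injective I) {a₀ : Fin d}
    (ha : I a₀ = p) {v w : Fin d → ι → k}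
    (h : ∀ b i, w b i = if i = p then v b p + c * v b q else v b i) :
    mn I w = mn I v + c * mn (Function.update I a₀ q) v := by
  have e1 : (Matrix.of fun b a => w b (I a)) =
      (Matrix.of fun b a => v b (I a)).updateCol a₀ ((fun b => v b p) + c • fun b => v b q) := by
    ext b a
    rw [Matrix.updateCol_apply, Matrix.of_apply, h]
    by_cases haa : a = a₀
    · rw [if_pos haa, haa, if_pos ha]
      rfl
    · rw [if_neg haa, if_neg fun hp => haa (hI (hp.trans ha.symm))]
      rfl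
  have e2 : (Matrix.of fun b a => v b (I a)).updateCol a₀ (fun b => v b p) =
      Matrix.of fun b a => v b (I a) := by
    ext b a
    rw [Matrix.updateCol_apply, Matrix.of_apply]
    by_cases haa : a = a₀
    · rw [if_pos haa, haa, ha]
    · rw [if_neg haa]
  have e3 : (Matrix.of fun b a => v b (I a)).updateCol a₀ (fun b => v b q) =
      Matrix.of fun b a => v b (Function.update I a₀ q a) := by
    ext b a
    rw [Matrix.updateCol_apply, Matrix.of_apply, Matrix.of_apply]
    by_cases haa : a = a₀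
    · rw [if_pos haa, haa, Function.update_self]
    · rw [if_neg haa, Function.update_of_ne haa]
  unfold mn
  rw [e1, Matrix.det_updateCol_add, Matrix.det_updateCol_smul, e2, e3]

/-- minors with the same set of rows -/
theorem mn_perm {I J : Fin d → ι} (hI : Function.Injective I) (h : range J = range I)
    (v : Fin d → ι → k) : mn J v = mn I v ∨ mn J v = - mn I v := by
  have hJ : ∀ a, ∃ b, I b = J a := fun a => by
    have : J a ∈ range I := by rw [← h]; exact ⟨a, rfl⟩
    exact this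
  choose σ hσ using hJ
  have hs : Function.Surjective σ := by
    intro b
    have : I b ∈ range J := by rw [h]; exact ⟨b, rfl⟩
    obtain ⟨a, ha⟩ := this
    exact ⟨a, hI ((hσ a).trans ha)⟩
  have hb : Function.Bijective σ := Function.Surjective.bijective_of_finite hs
  let τ : Equiv.Perm (Fin d) := Equiv.ofBijective σ hb
  have e : (Matrix.of fun b a => v b (J a)) = (Matrix.of fun b a => v b (I a)).submatrix id τ := by
    ext b a
    change v b (J a) = v b (I (σ a))
    rw [hσ]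
  have e2 : mn J v = Equiv.Perm.sign τ * mn I v := by
    unfold mn
    rw [e, Matrix.det_permute']
  rcases Int.units_eq_one_or (Equiv.Perm.sign τ) with h1 | h1
  · left
    rw [e2, h1]
    simp
  · right
    rw [e2, h1]
    simp

end minors

section bump

variable {k : Type*} [NontriviallyNormedField k] {ι : Type*} [Fintype ι] [DecidableEq ι] {d : ℕ}

/-- the vector of all minors -/
def P (v : Fin d → ι → k) : (Fin d → ι) → k := fun J => mn J v

open Classical in
/-- the vector of the minors with rows different from those of `I` -/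
noncomputable def Po (I : Fin d → ι) (v : Fin d → ι → k) : (Fin d → ι) → k :=
  fun J => if range J = range I then 0 else mn J v

theorem P_cb (A : Matrix (Fin d) (Fin d) k) (v : Fin d → ι → k) : P (cb A v) = A.det • P v :=
  funext fun J => cb_mn A v J

theorem Po_cb (I : Fin d → ι) (A : Matrix (Fin d) (Fin d) k) (v : Fin d → ι → k) :
    Po I (cb A v) = A.det • Po I v := by
  funext J
  unfold Po
  rw [Pi.smul_apply]
  split_ifs
  · rw [smul_zero]
  · exact cb_mn A v J

theorem P_cont : Continuous (P : (Fin d → ι → k) → _) := continuous_pi fun J => mn_cont J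

theorem Po_cont (I : Fin d → ι) : Continuous (Po I : (Fin d → ι → k) → _) := by
  refine continuous_pi fun J => ?_
  unfold Po
  split_ifs
  · exact continuous_const
  · exact mn_cont J

theorem P_ne (v : Fr k ι d) : P v.1 ≠ 0 := by
  intro h
  obtain ⟨J, hJ⟩ := exists_mn v.2
  exact hJ (congrFun h J)

theorem norm_mn_perm {I J : Fin d → ι} (hI : Function.Injective I) (h : range J = range I)
    (v : Fin d → ι → k) : ‖mn J v‖ = ‖mn I v‖ := by
  rcases mn_perm hI h v with h1 | h1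
  · rw [h1]
  · rw [h1, norm_neg]

/-- the bump on the frames -/
noncomputable def bu (I : Fin d → ι) (v : Fin d → ι → k) : ℝ :=
  min 1 (max 0 ((2 * ‖mn I v‖ - ‖Po I v‖) / ‖P v‖))

theorem bu_cb (I : Fin d → ι) {A : Matrix (Fin d) (Fin d) k} (hA : A.det ≠ 0)
    (v : Fin d → ι → k) : bu I (cb A v) = bu I v := by
  have hA' : 0 < ‖A.det‖ := norm_pos_iff.2 hA
  unfold bu
  rw [P_cb, Po_cb, cb_mn, norm_smul, norm_smul, norm_mul]
  congr 2
  rw [show 2 * (‖A.det‖ * ‖mn I v‖) - ‖A.det‖ * ‖Po I v‖ =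
    ‖A.det‖ * (2 * ‖mn I v‖ - ‖Po I v‖) by ring]
  exact mul_div_mul_left _ _ hA'.ne'

theorem bu_nonneg (I : Fin d → ι) (v : Fin d → ι → k) : 0 ≤ bu I v :=
  le_min zero_le_one (le_max_left _ _)

theorem bu_le (I : Fin d → ι) (v : Fin d → ι → k) : bu I v ≤ 1 := min_le_left _ _

theorem norm_P_le {I : Fin d → ι} (hI : Function.Injective I) {v : Fin d → ι → k}
    (h : ∀ J : Fin d → ι, range J ≠ range I → ‖mn J v‖ ≤ ‖mn I v‖) : ‖P v‖ ≤ ‖mn I v‖ := by
  refine (pi_norm_le_iff_of_nonneg (norm_nonneg _)).2 fun J => ?_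
  by_cases hJ : range J = range I
  · exact (norm_mn_perm hI hJ v).le
  · exact h J hJ

theorem bu_one {I : Fin d → ι} (hI : Function.Injective I) {v : Fin d → ι → k} (hv : P v ≠ 0)
    (h : ∀ J : Fin d → ι, range J ≠ range I → ‖mn J v‖ ≤ ‖mn I v‖) : bu I v = 1 := by
  have h0 : 0 < ‖P v‖ := norm_pos_iff.2 hv
  have h1 := norm_P_le hI h
  have h2 : ‖Po I v‖ ≤ ‖mn I v‖ := by
    refine (pi_norm_le_iff_of_nonneg (norm_nonneg _)).2 fun J => ?_
    unfold Po
    split_ifs with hJ
    · rw [norm_zero]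
      exact norm_nonneg _
    · exact h J hJ
  have h3 : 1 ≤ (2 * ‖mn I v‖ - ‖Po I v‖) / ‖P v‖ := by
    rw [le_div_iff₀ h0]
    linarith
  unfold bu
  exact min_eq_left (h3.trans (le_max_right _ _))

theorem bu_ne {I : Fin d → ι} {v : Fin d → ι → k} (h : bu I v ≠ 0) {J : Fin d → ι}
    (hJ : range J ≠ range I) : ‖mn J v‖ < 2 * ‖mn I v‖ := by
  by_contra hn
  push Not at hn
  apply h
  have h1 : ‖mn J v‖ ≤ ‖Po I v‖ := by
    have := norm_le_pi_norm (Po I v) J
    unfold Po at this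
    rwa [if_neg hJ] at this
  have h2 : (2 * ‖mn I v‖ - ‖Po I v‖) / ‖P v‖ ≤ 0 :=
    div_nonpos_of_nonpos_of_nonneg (by linarith) (norm_nonneg _)
  unfold bu
  rw [max_eq_left h2]
  simp

theorem bu_ne' {I : Fin d → ι} {v : Fin d → ι → k} (h : bu I v ≠ 0) : mn I v ≠ 0 := by
  intro h0
  apply h
  have h2 : (2 * ‖mn I v‖ - ‖Po I v‖) / ‖P v‖ ≤ 0 := by
    rw [h0, norm_zero]
    exact div_nonpos_of_nonpos_of_nonneg (by linarith [norm_nonneg (Po I v)]) (norm_nonneg _)
  unfold bu
  rw [max_eq_left h2]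
  simp

/-- the bump on the Grassmannian -/
noncomputable def BU (I : Fin d → ι) : C(Gr k ι d, ℝ) where
  toFun L := bu I (sp_surj L).choose.1
  continuous_toFun := by
    rw [(sp_quot (k := k) (ι := ι) (j := d)).continuous_iff]
    have e : ((fun L : Gr k ι d => bu I (sp_surj L).choose.1) ∘ sp) = fun v => bu I v.1 := by
      funext v
      obtain ⟨A, hA, h⟩ := (sp_eq v (sp_surj (sp v)).choose).1 (sp_surj (sp v)).choose_spec.symm
      change bu I (sp_surj (sp v)).choose.1 = bu I v.1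
      rw [h, bu_cb I hA]
    rw [e]
    unfold bu
    refine continuous_const.min (continuous_const.max ?_)
    refine Continuous.div ?_ (P_cont.comp fr_val_cont).norm fun v => (norm_pos_iff.2 (P_ne v)).ne'
    exact (continuous_const.mul ((mn_cont I).comp fr_val_cont).norm).sub
      ((Po_cont I).comp fr_val_cont).norm

theorem BU_sp (I : Fin d → ι) (v : Fr k ι d) : BU I (sp v) = bu I v.1 := by
  obtain ⟨A, hA, h⟩ := (sp_eq v (sp_surj (sp v)).choose).1 (sp_surj (sp v)).choose_spec.symm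
  change bu I (sp_surj (sp v)).choose.1 = bu I v.1
  rw [h, bu_cb I hA]

/-- the standard frame -/
theorem exists_one {I : Fin d → ι} (hI : Function.Injective I) :
    ∃ L : Gr k ι d, BU I L = 1 := by
  let v : Fin d → ι → k := fun b => Pi.single (I b) 1
  have h1 : mn I v = 1 := by
    unfold mn
    have e : (Matrix.of fun b a => v b (I a)) = 1 := by
      ext b a
      change (Pi.single (I b) (1 : k) : ι → k) (I a) = (1 : Matrix (Fin d) (Fin d) k) b a
      rw [Matrix.one_apply, Pi.single_apply]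
      by_cases h : b = a
      · rw [if_pos h, h, if_pos rfl]
      · rw [if_neg h, if_neg fun h' => h (hI h').symm]
    rw [e, Matrix.det_one]
  have hv : LinearIndependent k v := li_of_mn (I := I) (by rw [h1]; exact one_ne_zero)
  obtain ⟨V, hV⟩ : ∃ V : Fr k ι d, V.1 = v := ⟨⟨v, hv⟩, rfl⟩
  refine ⟨sp V, ?_⟩
  rw [BU_sp]
  refine bu_one hI (P_ne V) fun J hJ => ?_
  rw [hV]
  by_cases hJi : Function.Injective J
  · -- a row outside of the range of `I`
    have h2 : ∃ a, J a ∉ range I := by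
      by_contra hc
      push Not at hc
      refine hJ ?_
      have h3 : range J ⊆ range I := by
        rintro _ ⟨a, rfl⟩
        exact hc a
      refine Set.eq_of_subset_of_ncard_le h3 ?_ (Set.finite_range _)
      rw [Set.ncard_range_of_injective hI, Set.ncard_range_of_injective hJi]
    obtain ⟨a, ha⟩ := h2
    have h4 : mn J v = 0 := by
      unfold mn
      refine Matrix.det_eq_zero_of_column_eq_zero a fun b => ?_
      change (Pi.single (I b) (1 : k) : ι → k) (J a) = 0
      rw [Pi.single_apply, if_neg]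
      rintro h
      exact ha ⟨b, h.symm⟩
    rw [h4, norm_zero]
    exact norm_nonneg _
  · rw [mn_of_not_inj hJi, norm_zero]
    exact norm_nonneg _

theorem exists_out {I J : Fin d → ι} (hI : Function.Injective I) (hJi : Function.Injective J)
    (hJ : range J ≠ range I) : ∃ a, J a ∉ range I := by
  by_contra hc
  push Not at hc
  refine hJ ?_
  have h3 : range J ⊆ range I := by
    rintro _ ⟨a, rfl⟩
    exact hc a
  refine Set.eq_of_subset_of_ncard_le h3 ?_ (Set.finite_range _)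
  rw [Set.ncard_range_of_injective hI, Set.ncard_range_of_injective hJi]

open Classical in
/-- the diagonal entries -/
noncomputable def tI (I : Fin d → ι) (s : k) (i : ι) : k :=
  if i ∈ range I then s ^ (Fintype.card ι - d) else (s⁻¹) ^ d

theorem tI_prod {I : Fin d → ι} (hI : Function.Injective I) {s : k} (hs : s ≠ 0) :
    ∏ i, tI I s i = 1 := by
  classical
  unfold tI
  rw [Finset.prod_ite, Finset.prod_const, Finset.prod_const]
  have e1 : (Finset.univ.filter fun i => i ∈ range I) = Finset.univ.image I := by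
    ext i
    simp
  have c1 : (Finset.univ.filter fun i => i ∈ range I).card = d := by
    rw [e1, Finset.card_image_of_injective _ hI, Finset.card_univ, Fintype.card_fin]
  have c2 : (Finset.univ.filter fun i => i ∉ range I).card = Fintype.card ι - d := by
    have h := Finset.card_filter_add_card_filter_not (s := (Finset.univ : Finset ι))
      (fun i => i ∈ range I)
    rw [c1, Finset.card_univ] at h
    omega
  rw [c1, c2, ← pow_mul, ← pow_mul, mul_comm d, inv_pow, mul_inv_cancel₀ (pow_ne_zero _ hs)]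

/-- the diagonal element -/
noncomputable def dg {I : Fin d → ι} (hI : Function.Injective I) {s : k} (hs : s ≠ 0) :
    Matrix.SpecialLinearGroup ι k :=
  ⟨Matrix.diagonal (tI I s), by rw [Matrix.det_diagonal, tI_prod hI hs]⟩

theorem dg_smul {I : Fin d → ι} (hI : Function.Injective I) {s : k} (hs : s ≠ 0) (x : ι → k)
    (i : ι) : (dg hI hs • x) i = tI I s i * x i := by
  have e : (dg hI hs • x) = (Matrix.diagonal (tI I s)) *ᵥ x := rfl
  rw [e, Matrix.mulVec_diagonal]

/-- the contraction -/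
theorem key {I : Fin d → ι} (hI : Function.Injective I) (hd : 0 < d)
    (hdn : d < Fintype.card ι) {s c : k} (hs0 : s ≠ 0) (hs1 : ‖s‖ ≤ 1) (hc : 0 < ‖c‖)
    (hsc : ‖s‖ ≤ ‖c‖ / 4) {v w : Fin d → ι → k} (hw : ∀ b i, w b i = tI I s i * v b i)
    (h : bu I w ≠ 0) : (∀ J : Fin d → ι, range J ≠ range I → ‖mn J v‖ < ‖c‖ / 2 * ‖mn I v‖) ∧
      mn I v ≠ 0 := by
  have hx : 0 < ‖s‖ := norm_pos_iff.2 hs0
  have h0 : mn I v ≠ 0 := by
    have h1 := bu_ne' h
    rw [mn_diag (tI I s) I v w hw] at h1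
    exact fun h2 => h1 (by rw [h2, mul_zero])
  have h0' : 0 < ‖mn I v‖ := norm_pos_iff.2 h0
  refine ⟨fun J hJ => ?_, h0⟩
  by_cases hJi : Function.Injective J
  swap
  · rw [mn_of_not_inj hJi, norm_zero]
    positivity
  have h1 := bu_ne h hJ
  rw [mn_diag (tI I s) I v w hw, mn_diag (tI I s) J v w hw, norm_mul, norm_mul] at h1
  have e1 : ‖∏ a, tI I s (I a)‖ = (‖s‖ ^ (Fintype.card ι - d)) ^ d := by
    rw [norm_prod]
    have : ∀ a, ‖tI I s (I a)‖ = ‖s‖ ^ (Fintype.card ι - d) := fun a => by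
      unfold tI
      rw [if_pos ⟨a, rfl⟩, norm_pow]
    rw [Finset.prod_congr rfl fun a _ => this a, Finset.prod_const, Finset.card_univ,
      Fintype.card_fin]
  have hy0 : 0 < ‖s‖ ^ (Fintype.card ι - d) := pow_pos hx _
  have hy1 : ‖s‖ ^ (Fintype.card ι - d) ≤ 1 := pow_le_one₀ hx.le hs1
  have hinv : 1 ≤ (‖s‖⁻¹) ^ d := one_le_pow₀ ((one_le_inv₀ hx).2 hs1)
  obtain ⟨a₁, ha₁⟩ := exists_out hI hJi hJ
  have e2 : (‖s‖⁻¹) ^ d * (‖s‖ ^ (Fintype.card ι - d)) ^ (d - 1) ≤ ‖∏ a, tI I s (J a)‖ := by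
    rw [norm_prod, ← Finset.mul_prod_erase _ _ (Finset.mem_univ a₁)]
    have f1 : ‖tI I s (J a₁)‖ = (‖s‖⁻¹) ^ d := by
      unfold tI
      rw [if_neg ha₁, norm_pow, norm_inv]
    have f2 : (‖s‖ ^ (Fintype.card ι - d)) ^ (d - 1) ≤
        ∏ a ∈ Finset.univ.erase a₁, ‖tI I s (J a)‖ := by
      have f3 : (‖s‖ ^ (Fintype.card ι - d)) ^ (d - 1) =
          ∏ _a ∈ (Finset.univ.erase a₁ : Finset (Fin d)), ‖s‖ ^ (Fintype.card ι - d) := by
        rw [Finset.prod_const, Finset.card_erase_of_mem (Finset.mem_univ a₁), Finset.card_univ,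
          Fintype.card_fin]
      rw [f3]
      refine Finset.prod_le_prod (fun a _ => hy0.le) fun a _ => ?_
      unfold tI
      split_ifs
      · rw [norm_pow]
      · rw [norm_pow, norm_inv]
        exact hy1.trans hinv
    rw [f1]
    gcongr
  rw [e1] at h1
  generalize ‖s‖ ^ (Fintype.card ι - d) = y at *
  have e3 : y ^ d = y * y ^ (d - 1) := by
    conv_lhs => rw [← Nat.succ_pred_eq_of_pos hd]
    rw [Nat.pred_eq_sub_one, Nat.succ_eq_add_one, pow_succ, mul_comm]
  have h2 : (‖s‖⁻¹) ^ d * y ^ (d - 1) * ‖mn J v‖ < 2 * (y * y ^ (d - 1) * ‖mn I v‖) := by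
    rw [← e3]
    exact lt_of_le_of_lt (mul_le_mul_of_nonneg_right e2 (norm_nonneg _)) h1
  have hyd : 0 < y ^ (d - 1) := pow_pos hy0 _
  have h3 : (‖s‖⁻¹) ^ d * ‖mn J v‖ < 2 * (y * ‖mn I v‖) := by
    refine lt_of_mul_lt_mul_left ?_ hyd.le
    calc y ^ (d - 1) * ((‖s‖⁻¹) ^ d * ‖mn J v‖) = (‖s‖⁻¹) ^ d * y ^ (d - 1) * ‖mn J v‖ := by ring
      _ < 2 * (y * y ^ (d - 1) * ‖mn I v‖) := h2
      _ = y ^ (d - 1) * (2 * (y * ‖mn I v‖)) := by ring
  have hxd : 0 < ‖s‖ ^ d := pow_pos hx _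
  have h4 : ‖mn J v‖ < ‖s‖ ^ d * (2 * (y * ‖mn I v‖)) := by
    have h5 : ‖s‖ ^ d * ((‖s‖⁻¹) ^ d * ‖mn J v‖) < ‖s‖ ^ d * (2 * (y * ‖mn I v‖)) :=
      mul_lt_mul_of_pos_left h3 hxd
    rwa [← mul_assoc, ← mul_pow, mul_inv_cancel₀ hx.ne', one_pow, one_mul] at h5
  have h6 : ‖s‖ ^ d ≤ ‖s‖ := by
    calc ‖s‖ ^ d ≤ ‖s‖ ^ 1 := pow_le_pow_of_le_one hx.le hs1 hd
      _ = ‖s‖ := pow_one _
  calc ‖mn J v‖ < ‖s‖ ^ d * (2 * (y * ‖mn I v‖)) := h4
    _ ≤ (‖c‖ / 4) * (2 * (1 * ‖mn I v‖)) := by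
        gcongr
        exact h6.trans hsc
    _ = ‖c‖ / 2 * ‖mn I v‖ := by ring

/-- the data -/
theorem exists_data (hd : 0 < d) (hdn : d < Fintype.card ι) :
    ∃ (F : C(Gr k ι d, ℝ)) (a b : Matrix.SpecialLinearGroup ι k),
      0 ≤ F ∧ (∀ x, F (a • x) + F (b • x) ≤ F x) ∧ ∃ x, F x = 1 := by
  classical
  obtain ⟨c, hc0, hc1⟩ := NormedField.exists_norm_lt k (show (0 : ℝ) < 1 / 2 by norm_num)
  obtain ⟨s, hs0, hs1⟩ := NormedField.exists_norm_lt k (show (0 : ℝ) < ‖c‖ / 4 by linarith)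
  have hsne : s ≠ 0 := norm_pos_iff.1 hs0
  have hs_le : ‖s‖ ≤ 1 := by linarith
  -- the set of rows
  obtain ⟨I, hI⟩ : ∃ I : Fin d → ι, Function.Injective I := by
    have h1 : Fintype.card (Fin d) ≤ Fintype.card ι := by
      rw [Fintype.card_fin]
      exact hdn.le
    obtain ⟨f⟩ := Function.Embedding.nonempty_of_card_le h1
    exact ⟨f, f.injective⟩
  obtain ⟨q, hq⟩ : ∃ q, q ∉ range I := by
    by_contra hcon
    push Not at hcon
    have h1 : Function.Surjective I := fun x => hcon x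
    have h2 := Fintype.card_le_of_surjective I h1
    rw [Fintype.card_fin] at h2
    omega
  let a₀ : Fin d := ⟨0, hd⟩
  let p : ι := I a₀
  have hqp : q ≠ p := fun h => hq ⟨a₀, h.symm⟩
  let a : Matrix.SpecialLinearGroup ι k := dg hI hsne
  let u : Matrix.SpecialLinearGroup ι k := tv q p (-c)
  have ha : ∀ (v : Fr k ι d) b i, (smF a v).1 b i = tI I s i * v.1 b i := fun v b i =>
    dg_smul hI hsne (v.1 b) i
  have hu : ∀ (v : Fr k ι d) b i, (smF u v).1 b i =
      if i = q then v.1 b q + (-c) * v.1 b p else v.1 b i := fun v b i =>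
    tv_smul hqp (-c) (v.1 b) i
  -- the minor with `p` replaced by `q`
  let J₀ : Fin d → ι := Function.update I a₀ q
  have hJ₀q : J₀ a₀ = q := Function.update_self _ _ _
  have hJ₀i : Function.Injective J₀ := by
    intro x y hxy
    by_cases hx : x = a₀
    · by_cases hy : y = a₀
      · rw [hx, hy]
      · exfalso
        rw [hx, hJ₀q] at hxy
        have : J₀ y = I y := Function.update_of_ne hy _ _
        rw [this] at hxy
        exact hq ⟨y, hxy.symm⟩
    · by_cases hy : y = a₀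
      · exfalso
        rw [hy, hJ₀q] at hxy
        have : J₀ x = I x := Function.update_of_ne hx _ _
        rw [this] at hxy
        exact hq ⟨x, hxy⟩
      · have e1 : J₀ x = I x := Function.update_of_ne hx _ _
        have e2 : J₀ y = I y := Function.update_of_ne hy _ _
        rw [e1, e2] at hxy
        exact hI hxy
  have hJ₀r : range J₀ ≠ range I := fun h => hq (by rw [← h]; exact ⟨a₀, hJ₀q⟩)
  have hup : Function.update J₀ a₀ p = I := by
    rw [Function.update_idem]
    exact Function.update_eq_self a₀ I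
  have hIq : ∀ x, I x ≠ q := fun x hx => hq ⟨x, hx⟩
  -- the case of `a`
  have hA : ∀ v : Fr k ι d, bu I (smF a v).1 ≠ 0 →
      (∀ J : Fin d → ι, range J ≠ range I → ‖mn J v.1‖ < ‖c‖ / 2 * ‖mn I v.1‖) ∧
        mn I v.1 ≠ 0 := fun v h => key hI hd hdn hsne hs_le hc0 hs1.le (ha v) h
  -- the case of `a u`
  have hB : ∀ v : Fr k ι d, bu I (smF a (smF u v)).1 ≠ 0 →
      ‖c‖ / 2 * ‖mn I v.1‖ < ‖mn J₀ v.1‖ ∧
        ∀ J : Fin d → ι, range J ≠ range I → ‖mn J v.1‖ ≤ ‖mn I v.1‖ := by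
    intro v h
    obtain ⟨h1, h2⟩ := hA _ h
    have e1 : mn I (smF u v).1 = mn I v.1 := mn_tv_of_notMem hIq (hu v)
    have hpos : 0 < ‖mn I v.1‖ := by
      rw [← e1]
      exact norm_pos_iff.2 h2
    have e2 : mn J₀ (smF u v).1 = mn J₀ v.1 + (-c) * mn I v.1 := by
      rw [mn_tv hJ₀i hJ₀q (hu v), hup]
    constructor
    · have h3 := h1 J₀ hJ₀r
      rw [e1, e2] at h3
      have h4 : ‖c * mn I v.1‖ ≤ ‖mn J₀ v.1 + (-c) * mn I v.1‖ + ‖mn J₀ v.1‖ := by
        calc ‖c * mn I v.1‖ = ‖mn J₀ v.1 - (mn J₀ v.1 + (-c) * mn I v.1)‖ := by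
              congr 1
              ring
          _ ≤ ‖mn J₀ v.1‖ + ‖mn J₀ v.1 + (-c) * mn I v.1‖ := norm_sub_le _ _
          _ = _ := add_comm _ _
      rw [norm_mul] at h4
      linarith
    · intro J hJ
      by_cases hJi : Function.Injective J
      swap
      · rw [mn_of_not_inj hJi, norm_zero]
        exact norm_nonneg _
      -- minors of `w = u v`
      have hw : ∀ K : Fin d → ι, ‖mn K (smF u v).1‖ ≤ ‖mn I v.1‖ := by
        intro K
        by_cases hK : range K = range I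
        · rw [norm_mn_perm hI hK, e1]
        · have h5 := (h1 K hK).le
          rw [e1] at h5
          refine h5.trans ?_
          have : ‖c‖ / 2 ≤ 1 := by linarith
          calc ‖c‖ / 2 * ‖mn I v.1‖ ≤ 1 * ‖mn I v.1‖ := by gcongr
            _ = _ := one_mul _
      by_cases hJq : ∃ x, J x = q
      · obtain ⟨x, hx⟩ := hJq
        have e3 : mn J (smF u v).1 = mn J v.1 + (-c) * mn (Function.update J x p) v.1 :=
          mn_tv hJi hx (hu v)
        have e4 : mn (Function.update J x p) v.1 = mn (Function.update J x p) (smF u v).1 := by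
          refine (mn_tv_of_notMem (fun y hy => ?_) (hu v)).symm
          by_cases hyx : y = x
          · rw [hyx, Function.update_self] at hy
            exact hqp hy.symm
          · rw [Function.update_of_ne hyx] at hy
            exact hyx (hJi (hy.trans hx.symm))
        have e5 : mn J v.1 = mn J (smF u v).1 + c * mn (Function.update J x p) (smF u v).1 := by
          rw [e3, e4]
          ring
        have h6 := (h1 J hJ).le
        rw [e1] at h6
        calc ‖mn J v.1‖ ≤ ‖mn J (smF u v).1‖ + ‖c * mn (Function.update J x p) (smF u v).1‖ := by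
              rw [e5]
              exact norm_add_le _ _
          _ ≤ ‖c‖ / 2 * ‖mn I v.1‖ + ‖c‖ * ‖mn I v.1‖ := by
              rw [norm_mul]
              gcongr
              exact hw _
          _ = (3 / 2 * ‖c‖) * ‖mn I v.1‖ := by ring
          _ ≤ 1 * ‖mn I v.1‖ := by
              gcongr
              linarith
          _ = _ := one_mul _
      · push Not at hJq
        have e3 : mn J (smF u v).1 = mn J v.1 := mn_tv_of_notMem hJq (hu v)
        rw [← e3]
        exact hw J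
  refine ⟨BU I, a, a * u, ?_, ?_, exists_one hI⟩
  · intro x
    obtain ⟨v, rfl⟩ := sp_surj x
    change 0 ≤ BU I (sp v)
    rw [BU_sp]
    exact bu_nonneg _ _
  · intro x
    obtain ⟨v, rfl⟩ := sp_surj x
    rw [mul_smul, ← sp_smF, ← sp_smF, ← sp_smF, BU_sp, BU_sp, BU_sp]
    by_cases h1 : bu I (smF a v).1 = 0
    · rw [h1, zero_add]
      by_cases h2 : bu I (smF a (smF u v)).1 = 0
      · rw [h2]
        exact bu_nonneg _ _
      · obtain ⟨h3, h4⟩ := hB v h2
        rw [bu_one hI (P_ne v) h4]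
        exact bu_le _ _
    · obtain ⟨h3, h4⟩ := hA v h1
      have h5 : bu I (smF a (smF u v)).1 = 0 := by
        by_contra h2
        obtain ⟨h6, h7⟩ := hB v h2
        exact absurd (h3 J₀ hJ₀r) (not_lt.2 h6.le)
      rw [h5, add_zero, bu_one hI (P_ne v) fun J hJ => ?_]
      · exact bu_le _ _
      · refine (h3 J hJ).le.trans ?_
        calc ‖c‖ / 2 * ‖mn I v.1‖ ≤ 1 * ‖mn I v.1‖ := by
              gcongr
              linarith
          _ = _ := one_mul _

variable [ProperSpace k]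

/-- the data used in the abstract theorem -/
theorem exists_data' (hd : 0 < d) (hdn : d < Fintype.card ι) :
    ∃ (F : C(Gr k ι d, ℝ)) (a b : Matrix.SpecialLinearGroup ι k)
      (T : Finset (Matrix.SpecialLinearGroup ι k)),
      0 ≤ F ∧ (∀ x, F (a • x) + F (b • x) ≤ F x) ∧ ∀ x, 1 ≤ ∑ g ∈ T, F (g • x) := by
  classical
  obtain ⟨F, a, b, hF, hab, x₀, hx₀⟩ := exists_data (k := k) hd hdn
  have hop : ∀ g : Matrix.SpecialLinearGroup ι k, IsOpen {x : Gr k ι d | 1 / 2 < F (g • x)} :=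
    fun g => isOpen_lt continuous_const (F.continuous.comp (continuous_const_smul g))
  have hcov : (Set.univ : Set (Gr k ι d)) ⊆ ⋃ g : Matrix.SpecialLinearGroup ι k,
      {x : Gr k ι d | 1 / 2 < F (g • x)} := by
    intro x _
    obtain ⟨g, hg⟩ := exists_smul hdn x x₀
    refine mem_iUnion.2 ⟨g, ?_⟩
    change 1 / 2 < F (g • x)
    rw [hg, hx₀]
    norm_num
  obtain ⟨T, hT⟩ := isCompact_univ.elim_finite_subcover _ hop hcov
  refine ⟨(2 : ℝ) • F, a, b, T, ?_, ?_, ?_⟩
  · intro x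
    have h := hF x
    change (0 : ℝ) ≤ F x at h
    change (0 : ℝ) ≤ 2 * F x
    linarith
  · intro x
    change 2 * F (a • x) + 2 * F (b • x) ≤ 2 * F x
    linarith [hab x]
  · intro x
    obtain ⟨g, hg, hx⟩ := mem_iUnion₂.1 (hT (mem_univ x))
    have hx' : 1 / 2 < F (g • x) := hx
    calc (1 : ℝ) ≤ ((2 : ℝ) • F) (g • x) := by
          change (1 : ℝ) ≤ 2 * F (g • x)
          linarith
      _ ≤ ∑ g ∈ T, ((2 : ℝ) • F) (g • x) := by
          refine Finset.single_le_sum (f := fun g : Matrix.SpecialLinearGroup ι k =>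
            ((2 : ℝ) • F) (g • x)) (fun g _ => ?_) hg
          have h := hF (g • x)
          change (0 : ℝ) ≤ F (g • x) at h
          change (0 : ℝ) ≤ 2 * F (g • x)
          linarith

open Vale.Agent.P092.H514.NI (tr no_inv Covol toC itr itr_cont)

/-- **[N-GR]**, with a twist by an automorphism `θ` (for the contragredient action): no positive
unital functional on `C(Gr, ℝ)` is invariant under a subgroup of finite covolume. -/
theorem no_inv_tw (hd : 0 < d) (hdn : d < Fintype.card ι)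
    (θ : Matrix.SpecialLinearGroup ι k ≃* Matrix.SpecialLinearGroup ι k) (hθ : Continuous θ)
    (Γ : Subgroup (Matrix.SpecialLinearGroup ι k)) (hΓ : Covol Γ)
    (φ : C(Gr k ι d, ℝ) →ₗ[ℝ] ℝ) (hpos : ∀ F : C(Gr k ι d, ℝ), 0 ≤ F → 0 ≤ φ F)
    (h1 : φ 1 = 1)
    (hinv : ∀ γ ∈ Γ, ∀ F : C(Gr k ι d, ℝ), φ (tr F (θ γ)) = φ F) : False := by
  classical
  obtain ⟨ν, hν0, hνf, hν⟩ := hΓ
  obtain ⟨F, a, b, T, hF, hab, hT⟩ := exists_data' (k := k) hd hdn
  refine no_inv (θ : Matrix.SpecialLinearGroup ι k →* Matrix.SpecialLinearGroup ι k) hθ Γ ν hν0 hνf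
    hν F hF (θ.symm a) (θ.symm b) (fun x => ?_) (T.image θ.symm) (fun x => ?_) φ hpos h1
    (fun γ hγ F => hinv γ hγ F)
  · simp only [MonoidHom.coe_coe, MulEquiv.apply_symm_apply]
    exact hab x
  · rw [Finset.sum_image (fun x _ y _ h => θ.symm.injective h)]
    simp only [MonoidHom.coe_coe, MulEquiv.apply_symm_apply]
    exact hT x

/-- **[N-GR] (4)**: no invariant mean on the Grassmannian. -/
theorem no_inv_Gr (hd : 0 < d) (hdn : d < Fintype.card ι)
    (Γ : Subgroup (Matrix.SpecialLinearGroup ι k)) (hΓ : Covol Γ)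
    (φ : C(Gr k ι d, ℝ) →ₗ[ℝ] ℝ) (hpos : ∀ F : C(Gr k ι d, ℝ), 0 ≤ F → 0 ≤ φ F)
    (h1 : φ 1 = 1)
    (hinv : ∀ γ ∈ Γ, ∀ F : C(Gr k ι d, ℝ), φ (tr F γ) = φ F) : False :=
  no_inv_tw hd hdn (MulEquiv.refl _) continuous_id Γ hΓ φ hpos h1 hinv

/-- complex functionals, twisted form -/
theorem no_inv_C_tw (hd : 0 < d) (hdn : d < Fintype.card ι)
    (θ : Matrix.SpecialLinearGroup ι k ≃* Matrix.SpecialLinearGroup ι k) (hθ : Continuous θ)
    (Γ : Subgroup (Matrix.SpecialLinearGroup ι k)) (hΓ : Covol Γ)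
    (φ : C(Gr k ι d, ℂ) →ₗ[ℂ] ℂ)
    (hpos : ∀ F : C(Gr k ι d, ℝ), 0 ≤ F → 0 ≤ (φ (toC F)).re) (h1 : φ 1 = 1)
    (hinv : ∀ γ ∈ Γ, ∀ F : C(Gr k ι d, ℂ), φ (tr F (θ γ)) = φ F) : False := by
  let ψ : C(Gr k ι d, ℝ) →ₗ[ℝ] ℝ :=
    { toFun := fun F => (φ (toC F)).re
      map_add' := fun F G => by
        have : toC (F + G) = toC F + toC G := by ext x; simp [toC]
        rw [this, map_add, Complex.add_re]
      map_smul' := fun c F => by
        have : toC (c • F) = (c : ℂ) • toC F := by ext x; simp [toC]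
        rw [this, map_smul]
        simp }
  refine no_inv_tw hd hdn θ hθ Γ hΓ ψ hpos ?_ fun γ hγ F => ?_
  · have : toC (1 : C(Gr k ι d, ℝ)) = 1 := by ext x; simp [toC]
    change (φ (toC 1)).re = 1
    rw [this, h1, Complex.one_re]
  · change (φ (toC (tr F (θ γ)))).re = (φ (toC F)).re
    rw [← hinv γ hγ (toC F)]
    rfl

/-- `*`-homomorphisms, twisted form -/
theorem no_inv_hom_tw (hd : 0 < d) (hdn : d < Fintype.card ι)
    (θ : Matrix.SpecialLinearGroup ι k ≃* Matrix.SpecialLinearGroup ι k) (hθ : Continuous θ)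
    (Γ : Subgroup (Matrix.SpecialLinearGroup ι k)) (hΓ : Covol Γ)
    {𝔸 : Type*} [Ring 𝔸] [StarRing 𝔸] [Algebra ℂ 𝔸]
    (β : C(Gr k ι d, ℂ) →⋆ₐ[ℂ] 𝔸) (τ : 𝔸 →ₗ[ℂ] ℂ) (hτ : ∀ a : 𝔸, 0 ≤ (τ (star a * a)).re)
    (h1 : τ 1 = 1)
    (hinv : ∀ γ ∈ Γ, ∀ F : C(Gr k ι d, ℂ), τ (β (tr F (θ γ))) = τ (β F)) : False := by
  refine no_inv_C_tw hd hdn θ hθ Γ hΓ (τ.comp β.toAlgHom.toLinearMap) (fun F hF => ?_) ?_
    fun γ hγ F => hinv γ hγ F
  · let G : C(Gr k ι d, ℝ) := ⟨fun x => Real.sqrt (F x), F.continuous.sqrt⟩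
    have e : toC F = star (toC G) * toC G := by
      ext x
      simp only [toC, ContinuousMap.coe_mk, ContinuousMap.mul_apply, ContinuousMap.star_apply,
        Complex.star_def, Complex.conj_ofReal, ← Complex.ofReal_mul, G]
      exact congrArg _ (Real.mul_self_sqrt (hF x)).symm
    change 0 ≤ (τ (β (toC F))).re
    rw [e, map_mul, map_star]
    exact hτ _
  · change τ (β 1) = 1
    rw [map_one, h1]

/-- `*`-homomorphisms -/
theorem no_inv_hom (hd : 0 < d) (hdn : d < Fintype.card ι)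
    (Γ : Subgroup (Matrix.SpecialLinearGroup ι k)) (hΓ : Covol Γ)
    {𝔸 : Type*} [Ring 𝔸] [StarRing 𝔸] [Algebra ℂ 𝔸]
    (β : C(Gr k ι d, ℂ) →⋆ₐ[ℂ] 𝔸) (τ : 𝔸 →ₗ[ℂ] ℂ) (hτ : ∀ a : 𝔸, 0 ≤ (τ (star a * a)).re)
    (h1 : τ 1 = 1)
    (hinv : ∀ γ ∈ Γ, ∀ F : C(Gr k ι d, ℂ), τ (β (tr F γ)) = τ (β F)) : False :=
  no_inv_hom_tw hd hdn (MulEquiv.refl _) continuous_id Γ hΓ β τ hτ h1 hinv

end bump

end Vale.Agent.P092.H100.Gr
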