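import Vale.Agent.P092.H100.Gr3
import Vale.Agent.P092.H68.Span
import Vale.Agent.P092.H76.PurA

/-!
P092, TEAM N, block [N-GR] (helper100), file 4: no invariant states on the Grassmannians, in the
letters of `H76.Pur` and of `H618.RkData` (field `nis` of `H411.rkData_of`), and the action of
`Γ` on the target spaces `YG k n d` through `q : Γ → SL_n(k)`.
-/

set_option linter.all false

open TopologicalSpace Topology Module Set
open scoped Matrix

namespace Vale.Agent.P092.H100.Gr

open Vale.Agent.P092.H514.NI Vale.Agent.P092.H76.Pur Vale.Agent.P092.H68.Gras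

section nis

variable {k : Type*} [NontriviallyNormedField k] [ProperSpace k] {ι : Type*} [Fintype ι]
  [DecidableEq ι] {d : ℕ} {Γ : Type*} [Group Γ]

/-- No invariant state on the Grassmannian, twisted form. -/
theorem nis_gr_tw (hd : 0 < d) (hdn : d < Fintype.card ι)
    (θ : Matrix.SpecialLinearGroup ι k ≃* Matrix.SpecialLinearGroup ι k) (hθ : Continuous θ)
    (q : Γ →* Matrix.SpecialLinearGroup ι k) (hΓ : Covol q.range) :
    NIS fun (γ : Γ) (y : Gr k ι d) => θ (q γ) • y := by
  intro φ h0 h1 hinv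
  refine no_inv_C_tw hd hdn θ hθ q.range hΓ φ (fun F hF => ?_) h1 ?_
  · let G : C(Gr k ι d, ℝ) := ⟨fun x => Real.sqrt (F x), F.continuous.sqrt⟩
    have e : toC F = star (toC G) * toC G := by
      ext x
      simp only [toC, ContinuousMap.coe_mk, ContinuousMap.mul_apply,
        ContinuousMap.star_apply, Complex.star_def, Complex.conj_ofReal, ← Complex.ofReal_mul, G]
      exact congrArg _ (Real.mul_self_sqrt (hF x)).symm
    rw [e]
    exact h0 _
  · rintro _ ⟨γ, rfl⟩ F
    exact (hinv γ (tr F (θ (q γ))) F fun x => rfl).symm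

/-- No invariant state on the Grassmannian. -/
theorem nis_gr (hd : 0 < d) (hdn : d < Fintype.card ι)
    (q : Γ →* Matrix.SpecialLinearGroup ι k) (hΓ : Covol q.range) :
    NIS fun (γ : Γ) (y : Gr k ι d) => q γ • y :=
  nis_gr_tw hd hdn (MulEquiv.refl _) continuous_id q hΓ

end nis

section act

variable {k : Type} [NontriviallyNormedField k] [ProperSpace k] {n : ℕ} {Γ : Type} [Group Γ]

/-- The action of `Γ` on the target spaces through `q`. -/
@[reducible] noncomputable def actYG (q : Γ →* Matrix.SpecialLinearGroup (Fin n) k) (d : ℕ) :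
    MulAction Γ (YG k n d) :=
  MulAction.compHom (Gr k (Fin n) (min d n)) q

theorem actYG_val (q : Γ →* Matrix.SpecialLinearGroup (Fin n) k) (d : ℕ) (γ : Γ)
    (L : YG k n d) :
    ((actYG q d).smul γ L).1 = (q γ • (show Gr k (Fin n) (min d n) from L)).1 := rfl

theorem ccsYG (q : Γ →* Matrix.SpecialLinearGroup (Fin n) k) (d : ℕ) :
    @ContinuousConstSMul Γ (YG k n d) _ (actYG q d).toSMul :=
  letI := actYG q d
  ⟨fun γ => continuous_const_smul (T := Gr k (Fin n) (min d n)) (q γ)⟩

theorem gIYG (q : Γ →* Matrix.SpecialLinearGroup (Fin n) k) (γ : Γ) (i j : ℕ) (L : YG k n i)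
    (L' : YG k n j) (h : IG i j L L') :
    IG i j ((actYG q i).smul γ L) ((actYG q j).smul γ L') :=
  Submodule.map_mono h

/-- the field `nis` of `H411.rkData_of` -/
theorem nisYG (N : ℕ) (hN : N + 1 = n) (q : Γ →* Matrix.SpecialLinearGroup (Fin n) k)
    (hΓ : Covol q.range) (d : ℕ) (h1 : 1 ≤ d) (h2 : d ≤ N) :
    NIS fun (γ : Γ) (y : YG k n d) => (actYG q d).smul γ y :=
  nis_gr (k := k) (ι := Fin n) (d := min d n) (by omega)
    (by rw [Fintype.card_fin]; omega) q hΓ

/-- twisted form, `Γ` acts through `θ ∘ q` -/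
theorem nisYG_tw (N : ℕ) (hN : N + 1 = n)
    (θ : Matrix.SpecialLinearGroup (Fin n) k ≃* Matrix.SpecialLinearGroup (Fin n) k)
    (hθ : Continuous θ) (q : Γ →* Matrix.SpecialLinearGroup (Fin n) k)
    (hΓ : Covol q.range) (d : ℕ) (h1 : 1 ≤ d) (h2 : d ≤ N) :
    NIS fun (γ : Γ) (y : YG k n d) => (actYG (θ.toMonoidHom.comp q) d).smul γ y :=
  nis_gr_tw (k := k) (ι := Fin n) (d := min d n) (by omega)
    (by rw [Fintype.card_fin]; omega) θ hθ q hΓ

end act

end Vale.Agent.P092.H100.Gr
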