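import Mathlib

/-!
# [HC]: the commutation theorem for unimodular Hilbert algebras, elementary form
-/

open scoped InnerProductSpace ComplexConjugate
open MeasureTheory

namespace Vale.Agent.P092.H100

set_option linter.unusedSectionVars false

variable {K : Type*} [NormedAddCommGroup K] [InnerProductSpace ℂ K] [CompleteSpace K]

/-- A unimodular Hilbert algebra inside the Hilbert space `K`: `j : A → K` has dense range,
`L a`, `R a` are left and right multiplication by `a`, `st` is the involution. -/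
structure HAlg {A : Type*} (j : A → K) (L R : A → (K →L[ℂ] K)) (st : A → A) : Prop where
  dense : DenseRange j
  Lj : ∀ a b, L a (j b) = R b (j a)
  Ls : ∀ a, star (L a) = L (st a)
  Rs : ∀ a, star (R a) = R (st a)
  tr : ∀ a b, ⟪j a, j b⟫_ℂ = ⟪j (st b), j (st a)⟫_ℂ
  nd : ∀ x : K, (∀ a, L a x = 0) → x = 0
  nd' : ∀ x : K, (∀ a, R a x = 0) → x = 0

variable {A : Type*} {j : A → K} {L R : A → (K →L[ℂ] K)} {st : A → A}

theorem dist_st (htr : ∀ a b, ⟪j a, j b⟫_ℂ = ⟪j (st b), j (st a)⟫_ℂ) (a b : A) :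
    dist (j (st a)) (j (st b)) = dist (j a) (j b) := by
  rw [dist_eq_norm, dist_eq_norm]
  have h1 : ‖j (st a) - j (st b)‖ ^ 2 = ‖j a - j b‖ ^ 2 := by
    rw [@norm_sub_sq ℂ, @norm_sub_sq ℂ]
    have e1 : ‖j (st a)‖ ^ 2 = ‖j a‖ ^ 2 := by
      have h := htr a a
      have h2 := congrArg Complex.re h
      rw [inner_self_eq_norm_sq_to_K, inner_self_eq_norm_sq_to_K] at h2
      exact_mod_cast h2.symm
    have e2 : ‖j (st b)‖ ^ 2 = ‖j b‖ ^ 2 := by
      have h := htr b b
      have h2 := congrArg Complex.re h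
      rw [inner_self_eq_norm_sq_to_K, inner_self_eq_norm_sq_to_K] at h2
      exact_mod_cast h2.symm
    have e3 : RCLike.re ⟪j (st a), j (st b)⟫_ℂ = RCLike.re ⟪j a, j b⟫_ℂ := by
      rw [htr a b, ← inner_conj_symm (j (st a)) (j (st b)), RCLike.conj_re]
    rw [e1, e2, e3]
  exact (sq_eq_sq₀ (norm_nonneg _) (norm_nonneg _)).1 h1

/-- The modular conjugation. -/
theorem exists_J (hj : DenseRange j)
    (htr : ∀ a b, ⟪j a, j b⟫_ℂ = ⟪j (st b), j (st a)⟫_ℂ) :
    ∃ J : K → K, Continuous J ∧ ∀ a, J (j a) = j (st a) := by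
  letI : PseudoMetricSpace A := PseudoMetricSpace.induced j inferInstance
  have hi : Isometry j := fun a b => rfl
  have hf : Isometry (fun a => j (st a)) :=
    Isometry.of_dist_eq fun a b => (dist_st htr a b).trans rfl
  have hd := hi.isUniformInducing.isDenseInducing hj
  refine ⟨hd.extend (fun a => j (st a)), ?_, ?_⟩
  · exact (uniformContinuous_uniformly_extend hi.isUniformInducing hj
      hf.uniformContinuous).continuous
  · intro a
    exact hd.extend_eq hf.continuous a

theorem HAlg.swap (h : HAlg j L R st) : HAlg j R L st where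
  dense := h.dense
  Lj a b := (h.Lj b a).symm
  Ls := h.Rs
  Rs := h.Ls
  tr := h.tr
  nd := h.nd'
  nd' := h.nd

/-- The basic identity: `⟪η, R c (J ζ)⟫ = ⟪ζ, L c (J η)⟫`. -/
theorem HAlg.JJ (h : HAlg j L R st) {J : K → K} (hJc : Continuous J)
    (hJ : ∀ a, J (j a) = j (st a)) (c : A) (ζ η : K) :
    ⟪η, R c (J ζ)⟫_ℂ = ⟪ζ, L c (J η)⟫_ℂ := by
  have h0 : ∀ p q : A, ⟪j q, R c (J (j p))⟫_ℂ = ⟪j p, L c (J (j q))⟫_ℂ := by
    intro p q
    rw [hJ, hJ]
    have e1 : ⟪j q, R c (j (st p))⟫_ℂ = ⟪L p (j q), j c⟫_ℂ := by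
      rw [← h.Lj, ← h.Ls, ContinuousLinearMap.star_eq_adjoint,
        ContinuousLinearMap.adjoint_inner_right]
    have e2 : ⟪j p, L c (j (st q))⟫_ℂ = ⟪R q (j p), j c⟫_ℂ := by
      rw [h.Lj, ← h.Rs, ContinuousLinearMap.star_eq_adjoint,
        ContinuousLinearMap.adjoint_inner_right]
    rw [e1, e2, h.Lj]
  have h1 : ∀ (p : A) (η : K), ⟪η, R c (J (j p))⟫_ℂ = ⟪j p, L c (J η)⟫_ℂ := by
    intro p η
    refine h.dense.induction_on (p := fun η => ⟪η, R c (J (j p))⟫_ℂ = ⟪j p, L c (J η)⟫_ℂ) η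
      ?_ (fun q => h0 p q)
    exact isClosed_eq (continuous_id.inner continuous_const)
      (continuous_const.inner ((L c).continuous.comp hJc))
  refine h.dense.induction_on (p := fun ζ => ⟪η, R c (J ζ)⟫_ℂ = ⟪ζ, L c (J η)⟫_ℂ) ζ
    ?_ (fun p => h1 p η)
  exact isClosed_eq (continuous_const.inner ((R c).continuous.comp hJc))
    (continuous_id.inner continuous_const)

/-- For `X` commuting with the left family: `⟪X (R b ζ), j c⟫ = ⟪X (j b), R c (J ζ)⟫`. -/
theorem HAlg.left_formula (h : HAlg j L R st) {J : K → K} (hJc : Continuous J)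
    (hJ : ∀ a, J (j a) = j (st a)) (X : K →L[ℂ] K) (hX : ∀ a, X * L a = L a * X)
    (b c : A) (ζ : K) : ⟪X (R b ζ), j c⟫_ℂ = ⟪X (j b), R c (J ζ)⟫_ℂ := by
  refine h.dense.induction_on
    (p := fun ζ => ⟪X (R b ζ), j c⟫_ℂ = ⟪X (j b), R c (J ζ)⟫_ℂ) ζ ?_ ?_
  · exact isClosed_eq ((X.continuous.comp (R b).continuous).inner continuous_const)
      (continuous_const.inner ((R c).continuous.comp hJc))
  · intro a
    have e1 : X (R b (j a)) = L a (X (j b)) := by
      rw [← h.Lj]
      exact congrArg (fun T : K →L[ℂ] K => T (j b)) (hX a)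
    rw [e1, hJ, ← h.Lj, ← h.Ls, ContinuousLinearMap.star_eq_adjoint,
      ContinuousLinearMap.adjoint_inner_right]

/-- For `z` commuting with the right family: `⟪z (L a η), j c⟫ = ⟪z (j a), L c (J η)⟫`. -/
theorem HAlg.right_formula (h : HAlg j L R st) {J : K → K} (hJc : Continuous J)
    (hJ : ∀ a, J (j a) = j (st a)) (z : K →L[ℂ] K) (hz : ∀ a, z * R a = R a * z)
    (a c : A) (η : K) : ⟪z (L a η), j c⟫_ℂ = ⟪z (j a), L c (J η)⟫_ℂ :=
  h.swap.left_formula hJc hJ z hz a c η

/-- COMMUTATION THEOREM: `X` in the commutant of the left family, `z` in the commutant of the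
right family; then they commute. -/
theorem HAlg.commute (h : HAlg j L R st) (X z : K →L[ℂ] K)
    (hX : ∀ a, X * L a = L a * X) (hz : ∀ a, z * R a = R a * z) : X * z = z * X := by
  obtain ⟨J, hJc, hJ⟩ := exists_J (st := st) h.dense h.tr
  -- products are total
  have key : ∀ a b : A, X (z (L a (j b))) = z (X (L a (j b))) := by
    intro a b
    have e1 : z (L a (j b)) = R b (z (j a)) := by
      rw [h.Lj]
      exact congrArg (fun T : K →L[ℂ] K => T (j a)) (hz b)
    have e2 : X (L a (j b)) = L a (X (j b)) :=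
      congrArg (fun T : K →L[ℂ] K => T (j b)) (hX a)
    have e3 : ∀ c : A, ⟪X (z (L a (j b))) - z (X (L a (j b))), j c⟫_ℂ = 0 := by
      intro c
      rw [inner_sub_left, e1, e2, h.left_formula hJc hJ X hX b c,
        h.right_formula hJc hJ z hz a c, h.JJ hJc hJ c, sub_self]
    have e4 : ∀ y : K, ⟪X (z (L a (j b))) - z (X (L a (j b))), y⟫_ℂ = 0 := by
      intro y
      refine h.dense.induction_on
        (p := fun y => ⟪X (z (L a (j b))) - z (X (L a (j b))), y⟫_ℂ = 0) y ?_ e3
      exact isClosed_eq (continuous_const.inner continuous_id) continuous_const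
    have e5 := e4 (X (z (L a (j b))) - z (X (L a (j b))))
    exact sub_eq_zero.1 (inner_self_eq_zero.1 e5)
  -- the commutator kills the closed span of the products
  set W : Submodule ℂ K := (LinearMap.ker (X * z - z * X : K →L[ℂ] K).toLinearMap) with hW
  have hWc : IsClosed (W : Set K) :=
    isClosed_singleton.preimage (X * z - z * X : K →L[ℂ] K).continuous
  have : CompleteSpace W := hWc.completeSpace_coe
  have hmem : ∀ a b : A, L a (j b) ∈ W := by
    intro a b
    change X (z (L a (j b))) - z (X (L a (j b))) = 0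
    rw [key a b, sub_self]
  have hbot : Wᗮ = ⊥ := by
    rw [eq_bot_iff]
    intro x hx
    rw [Submodule.mem_bot]
    refine h.nd x fun a => ?_
    have e1 : ∀ b : A, ⟪j b, L a x⟫_ℂ = 0 := by
      intro b
      have e2 : ⟪j b, L a x⟫_ℂ = ⟪star (L a) (j b), x⟫_ℂ := by
        rw [ContinuousLinearMap.star_eq_adjoint, ContinuousLinearMap.adjoint_inner_left]
      rw [e2, h.Ls]
      exact (Submodule.mem_orthogonal _ _).1 hx _ (hmem _ _)
    have e3 : ∀ y : K, ⟪y, L a x⟫_ℂ = 0 := by
      intro y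
      refine h.dense.induction_on (p := fun y => ⟪y, L a x⟫_ℂ = 0) y ?_ e1
      exact isClosed_eq (continuous_id.inner continuous_const) continuous_const
    exact inner_self_eq_zero.1 (e3 _)
  have htop : W = ⊤ := (Submodule.orthogonal_eq_bot_iff).1 hbot
  refine ContinuousLinearMap.ext fun x => ?_
  have hx : x ∈ W := by rw [htop]; exact Submodule.mem_top
  exact sub_eq_zero.1 hx

end Vale.Agent.P092.H100
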