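import Vale.Agent.P092.H156.Int
import Vale.Agent.P092.H100.Fld

/-!
P092 (helper100), team A: the Hilbert algebra of the smooth fields, integrability of the right
translations, ergodicity.
-/

set_option linter.all false

open scoped InnerProductSpace Topology ENNReal
open Filter ContinuousLinearMap MeasureTheory
open Vale.Agent.P092.H160 Vale.Agent.P092.H156.Sm

namespace Vale.Agent.P092.H100

section pt

variable {Γ Λ G H K : Type} [Group Γ] [Group Λ] [Group G] [Group H] [Countable Γ]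
  [TopologicalSpace G] [TopologicalSpace H] [IsTopologicalGroup G] [IsTopologicalGroup H]
  [MeasurableSpace G] [BorelSpace G] [SecondCountableTopology G]
  [NormedAddCommGroup K] [InnerProductSpace ℂ K] [CompleteSpace K]
  {ι : Γ →* G} {κ : Λ →* H} {ρ : Γ →* (K →L[ℂ] K)} {V : Λ →* (K →L[ℂ] K)} {ω : K}
  {μ : Measure G}

theorem aesm_apply {a : G → K →L[ℂ] K} (ha : Continuous a) {f : G → K}
    (hf : AEStronglyMeasurable f μ) : AEStronglyMeasurable (fun x => a x (f x)) μ := by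
  have h1 : AEStronglyMeasurable a μ := ha.aestronglyMeasurable
  have h2 : Continuous fun p : (K →L[ℂ] K) × K => p.1 p.2 := continuous_fst.clm_apply continuous_snd
  exact h2.comp_aestronglyMeasurable (h1.prodMk hf)

theorem MA_mem {a : G → K →L[ℂ] K} (ha : Continuous a) {C : ℝ} (hC : ∀ x, ‖a x‖ ≤ C)
    (ξ : Lp K 2 μ) : MemLp (fun x => a x (ξ x)) 2 μ :=
  MemLp.of_le_mul (c := C) (Lp.memLp ξ) (aesm_apply ha (Lp.aestronglyMeasurable ξ))
    (Eventually.of_forall fun x =>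
      ((a x).le_opNorm _).trans (mul_le_mul_of_nonneg_right (hC x) (norm_nonneg _)))

/-- pointwise multiplication by a bounded continuous field -/
noncomputable def MA (a : G → K →L[ℂ] K) (ha : Continuous a) (C : ℝ) (hC : ∀ x, ‖a x‖ ≤ C) :
    Lp K 2 μ →L[ℂ] Lp K 2 μ :=
  LinearMap.mkContinuous
    { toFun := fun ξ => MemLp.toLp (fun x => a x (ξ x)) (MA_mem ha hC ξ)
      map_add' := fun ξ η => by
        rw [← MemLp.toLp_add]
        refine MemLp.toLp_congr _ _ ?_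
        filter_upwards [Lp.coeFn_add ξ η] with x hx
        rw [hx, Pi.add_apply, map_add]
        rfl
      map_smul' := fun c ξ => by
        rw [RingHom.id_apply, ← MemLp.toLp_const_smul]
        refine MemLp.toLp_congr _ _ ?_
        filter_upwards [Lp.coeFn_smul c ξ] with x hx
        rw [hx, Pi.smul_apply, map_smul]
        rfl }
    C (fun ξ => by
      refine Lp.norm_le_mul_norm_of_ae_le_mul ?_
      filter_upwards [(MA_mem ha hC ξ).coeFn_toLp] with x hx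
      change ‖(MemLp.toLp (fun x => a x (ξ x)) (MA_mem ha hC ξ) : Lp K 2 μ) x‖ ≤ _
      rw [hx]
      exact ((a x).le_opNorm _).trans (mul_le_mul_of_nonneg_right (hC x) (norm_nonneg _)))

theorem MA_ae (a : G → K →L[ℂ] K) (ha : Continuous a) (C : ℝ) (hC : ∀ x, ‖a x‖ ≤ C)
    (ξ : Lp K 2 μ) : MA (μ := μ) a ha C hC ξ =ᵐ[μ] fun x => a x (ξ x) :=
  (MA_mem ha hC ξ).coeFn_toLp

theorem jj_ae (b : SM ι κ ρ V ω μ) :
    ((jj ι κ ρ V ω μ b : LL ι κ ρ V ω μ) : Lp K 2 μ) =ᵐ[μ] fun x => b.1 x ω := by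
  have h : MemLp (fun x => b.1 x ω) 2 μ := b.2.l2
  exact h.coeFn_toLp

variable [μ.IsMulLeftInvariant]

theorem Lo_ae (h : Frm ρ V ω) (a : SM ι κ ρ V ω μ) (ξ : LL ι κ ρ V ω μ) :
    ((Lo h a ξ : LL ι κ ρ V ω μ) : Lp K 2 μ) =ᵐ[μ] fun x => a.1 x ((ξ : Lp K 2 μ) x) := by
  obtain ⟨C, hC0, hC⟩ := a.2.toFd.exists_bdd
  have h1 : ((LL ι κ ρ V ω μ).subtypeL.comp (Lo h a)) =
      (MA (μ := μ) a.1 a.2.toFd.continuous C hC).comp (LL ι κ ρ V ω μ).subtypeL := by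
    refine ext_jj fun b => ?_
    change ((Lo h a (jj ι κ ρ V ω μ b) : LL ι κ ρ V ω μ) : Lp K 2 μ) =
      MA (μ := μ) a.1 a.2.toFd.continuous C hC (jj ι κ ρ V ω μ b : Lp K 2 μ)
    rw [Lo_jj]
    refine Lp.ext ?_
    filter_upwards [jj_ae (mulS h a b), jj_ae b, MA_ae (μ := μ) a.1 a.2.toFd.continuous C hC
      (jj ι κ ρ V ω μ b : Lp K 2 μ)] with x h1 h2 h3
    rw [h1, h3, h2]
    rfl
  have h2 := congrArg (fun T : LL ι κ ρ V ω μ →L[ℂ] Lp K 2 μ => T ξ) h1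
  change ((Lo h a ξ : LL ι κ ρ V ω μ) : Lp K 2 μ) =
    MA (μ := μ) a.1 a.2.toFd.continuous C hC (ξ : Lp K 2 μ) at h2
  rw [h2]
  exact MA_ae (μ := μ) a.1 a.2.toFd.continuous C hC _

theorem inner_LL (ξ η : LL ι κ ρ V ω μ) :
    ⟪ξ, η⟫_ℂ = ∫ x, ⟪(ξ : Lp K 2 μ) x, (η : Lp K 2 μ) x⟫_ℂ ∂μ := by
  rw [Submodule.coe_inner, MeasureTheory.L2.inner_def]

end pt

section int

variable {Γ Λ G H K : Type} [Group Γ] [Group Λ] [Group G] [Group H] [Countable Γ]
  [TopologicalSpace G] [TopologicalSpace H] [IsTopologicalGroup G] [IsTopologicalGroup H]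
  [MeasurableSpace G] [BorelSpace G] [SecondCountableTopology G]
  [NormedAddCommGroup K] [InnerProductSpace ℂ K] [CompleteSpace K]
  {ι : Γ →* G} {κ : Λ →* H} {ρ : Γ →* (K →L[ℂ] K)} {V : Λ →* (K →L[ℂ] K)} {ω : K}
  {μ : Measure G} [μ.IsMulLeftInvariant] [μ.IsMulRightInvariant] [SFinite μ]

omit [μ.IsMulRightInvariant] in
/-- the Fubini computation -/
theorem fub (h : TFrm ρ V ω) {c : G → K →L[ℂ] K} (hc : Fd ι ρ c) (hc2 : L2 ω μ c)
    (hco : Ort V ω μ c c) {ξ' η' : G → K} (hξ : MemLp ξ' 2 μ) (hη : MemLp η' 2 μ) :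
    ∫ y, ∫ x, ⟪c (x * y) (ξ' x), c (x * y) (η' x)⟫_ℂ ∂μ ∂μ =
      ip ω μ c c * ∫ x, ⟪ξ' x, η' x⟫_ℂ ∂μ := by
  have hcc : Continuous c := hc.continuous
  have hml : ∀ (x : G) (ζ : K), MemLp (fun y => c (x * y) ζ) 2 μ := fun x ζ =>
    (memLp_apply h hc hc2 hco ζ).comp_measurePreserving (measurePreserving_mul_left μ x)
  have hsq : ∀ (x : G) (ζ : K), ∫ y, ‖c (x * y) ζ‖ ^ 2 ∂μ = (nsq ω μ c).toReal * ‖ζ‖ ^ 2 := by
    intro x ζ
    have g1 : ∫ y, ‖c (x * y) ζ‖ ^ 2 ∂μ = ∫ y, ‖c y ζ‖ ^ 2 ∂μ :=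
      integral_mul_left_eq_self (fun y => ‖c y ζ‖ ^ 2) x
    rw [g1, integral_sq_eq (memLp_apply h hc hc2 hco ζ),
      lintegral_sq_apply h hc hc2 hco ζ, ENNReal.toReal_mul, ENNReal.toReal_pow,
      toReal_enorm]
  have hmeas : ∀ f : G → K, AEStronglyMeasurable f μ →
      AEStronglyMeasurable (fun p : G × G => c (p.2 * p.1) (f p.2)) (μ.prod μ) := by
    intro f hf
    have g1 : AEStronglyMeasurable (fun p : G × G => f p.2) (μ.prod μ) := hf.comp_snd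
    have g2 : AEStronglyMeasurable (fun p : G × G => c (p.2 * p.1)) (μ.prod μ) := by
      have : Continuous fun p : G × G => c (p.2 * p.1) :=
        hcc.comp (continuous_snd.mul continuous_fst)
      exact this.aestronglyMeasurable
    have g3 : Continuous fun p : (K →L[ℂ] K) × K => p.1 p.2 :=
      continuous_fst.clm_apply continuous_snd
    exact g3.comp_aestronglyMeasurable (g2.prodMk g1)
  have hint : Integrable (fun p : G × G => ⟪c (p.2 * p.1) (ξ' p.2),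
      c (p.2 * p.1) (η' p.2)⟫_ℂ) (μ.prod μ) := by
    have hm := (hmeas ξ' hξ.1).inner (𝕜 := ℂ) (hmeas η' hη.1)
    rw [integrable_prod_iff' hm]
    refine ⟨Eventually.of_forall fun x => integrable_inner_of_memLp (hml x (ξ' x)) (hml x (η' x)), ?_⟩
    have hb : Integrable (fun x => (nsq ω μ c).toReal * (‖ξ' x‖ ^ 2 + ‖η' x‖ ^ 2)) μ :=
      ((hξ.integrable_norm_pow two_ne_zero).add
        (hη.integrable_norm_pow two_ne_zero)).const_mul _
    refine hb.mono' ?_ ?_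
    · exact hm.norm.prod_swap.integral_prod_right'
    refine Eventually.of_forall fun x => ?_
    have i1 : Integrable (fun y => ‖c (x * y) (ξ' x)‖ ^ 2) μ :=
      (hml x _).integrable_norm_pow two_ne_zero
    have i2 : Integrable (fun y => ‖c (x * y) (η' x)‖ ^ 2) μ :=
      (hml x _).integrable_norm_pow two_ne_zero
    rw [Real.norm_eq_abs, abs_of_nonneg (integral_nonneg fun y => norm_nonneg _)]
    calc ∫ y, ‖⟪c (x * y) (ξ' x), c (x * y) (η' x)⟫_ℂ‖ ∂μ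
        ≤ ∫ y, (‖c (x * y) (ξ' x)‖ ^ 2 + ‖c (x * y) (η' x)‖ ^ 2) ∂μ := by
          refine integral_mono_of_nonneg (Eventually.of_forall fun y => norm_nonneg _)
            (i1.add i2) (Eventually.of_forall fun y => ?_)
          have := norm_inner_le_norm (𝕜 := ℂ) (c (x * y) (ξ' x)) (c (x * y) (η' x))
          have h3 := two_mul_le_add_sq ‖c (x * y) (ξ' x)‖ ‖c (x * y) (η' x)‖
          have h4 := mul_nonneg (norm_nonneg (c (x * y) (ξ' x)))
            (norm_nonneg (c (x * y) (η' x)))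
          simp only
          linarith
      _ = (nsq ω μ c).toReal * (‖ξ' x‖ ^ 2 + ‖η' x‖ ^ 2) := by
          rw [integral_add i1 i2, hsq, hsq]
          ring
  rw [integral_integral_swap hint]
  have e2 : ∀ x, ∫ y, ⟪c (x * y) (ξ' x), c (x * y) (η' x)⟫_ℂ ∂μ =
      ip ω μ c c * ⟪ξ' x, η' x⟫_ℂ := by
    intro x
    have g1 : ∫ y, ⟪c (x * y) (ξ' x), c (x * y) (η' x)⟫_ℂ ∂μ =
        ∫ y, ⟪c y (ξ' x), c y (η' x)⟫_ℂ ∂μ :=
      integral_mul_left_eq_self (fun y => ⟪c y (ξ' x), c y (η' x)⟫_ℂ) x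
    rw [g1, integral_apply h hc hc hc2 hc2 hco hco hco]
  rw [integral_congr_ae (Eventually.of_forall e2), integral_const_mul]

omit [SFinite μ] in
theorem Rt_inv_mul (y : G) : (Rt y⁻¹ : LL ι κ ρ V ω μ →L[ℂ] LL ι κ ρ V ω μ) * Rt y = 1 :=
  rep_inv_mul (RtR (ι := ι) (κ := κ) (ρ := ρ) (V := V) (ω := ω) (μ := μ)) y

omit [SFinite μ] in
theorem Rt_mul_inv (y : G) : (Rt y : LL ι κ ρ V ω μ →L[ℂ] LL ι κ ρ V ω μ) * Rt y⁻¹ = 1 :=
  rep_mul_inv (RtR (ι := ι) (κ := κ) (ρ := ρ) (V := V) (ω := ω) (μ := μ)) y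

omit [SFinite μ] in
theorem stS_stS (h : Frm ρ V ω) (b : SM ι κ ρ V ω μ) : stS h (stS h b) = b := by
  refine Subtype.ext (funext fun x => ?_)
  change adjoint (adjoint (b.1 x)) = b.1 x
  rw [adjoint_adjoint]

omit [SFinite μ] in
/-- `r_y L_b L_b^* r_y⁻¹` as an integral. -/
theorem inner_RL (h : Frm ρ V ω) (b : SM ι κ ρ V ω μ) (ξ η : LL ι κ ρ V ω μ) (y : G) :
    ⟪ξ, RtR y (Lo h b (star (Lo h b) (RtR y⁻¹ η)))⟫_ℂ =
      ∫ x, ⟪(stS h b).1 (x * y) ((ξ : Lp K 2 μ) x),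
        (stS h b).1 (x * y) ((η : Lp K 2 μ) x)⟫_ℂ ∂μ := by
  have f1 : RtR y * (Lo h b * star (Lo h b)) * RtR y⁻¹ =
      star (Lo h (rtS y (stS h b))) * Lo h (rtS y (stS h b)) := by
    have g1 : star (Lo h (rtS y (stS h b))) = Lo h (rtS y b) := by
      rw [Lo_star]
      refine congrArg _ (Subtype.ext (funext fun x => ?_))
      change adjoint (adjoint (b.1 (x * y))) = b.1 (x * y)
      rw [adjoint_adjoint]
    rw [g1, Lo_star, ← Rt_L h y b, ← Rt_L h y (stS h b)]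
    change Rt y * (Lo h b * Lo h (stS h b)) * Rt y⁻¹ = _
    calc Rt y * (Lo h b * Lo h (stS h b)) * Rt y⁻¹ =
          Rt y * Lo h b * 1 * Lo h (stS h b) * Rt y⁻¹ := by
            rw [mul_one]; simp only [mul_assoc]
      _ = _ := by rw [← Rt_inv_mul y]; simp only [mul_assoc]
  have f2 : RtR y (Lo h b (star (Lo h b) (RtR y⁻¹ η))) =
      star (Lo h (rtS y (stS h b))) (Lo h (rtS y (stS h b)) η) :=
    congrArg (fun T : LL ι κ ρ V ω μ →L[ℂ] LL ι κ ρ V ω μ => T η) f1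
  rw [f2, star_eq_adjoint, adjoint_inner_right, inner_LL]
  refine integral_congr_ae ?_
  filter_upwards [Lo_ae h (rtS y (stS h b)) ξ, Lo_ae h (rtS y (stS h b)) η] with x h1 h2
  rw [h1, h2]
  rfl

/-- integrability of the right translations, left version -/
theorem int_left (h : TFrm ρ V ω)
    (ho : ∀ a b : G → K →L[ℂ] K, Smo ι κ ρ V ω μ a → Smo ι κ ρ V ω μ b → Ort V ω μ a b)
    (b : SM ι κ ρ V ω μ) (ξ η : LL ι κ ρ V ω μ) :
    ∫ y, ⟪ξ, RtR y (Lo h.toFrm b (star (Lo h.toFrm b) (RtR y⁻¹ η)))⟫_ℂ ∂μ =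
      (‖jj ι κ ρ V ω μ b‖ ^ 2 : ℂ) * ⟪ξ, η⟫_ℂ := by
  have e1 := inner_RL h.toFrm b ξ η
  rw [integral_congr_ae (Eventually.of_forall e1)]
  have e2 := fub h (stS h.toFrm b).2.toFd (stS h.toFrm b).2.l2 (ho _ _ (stS h.toFrm b).2
    (stS h.toFrm b).2) (Lp.memLp (ξ : Lp K 2 μ)) (Lp.memLp (η : Lp K 2 μ))
  have e3 : ip ω μ (stS h.toFrm b).1 (stS h.toFrm b).1 = (‖jj ι κ ρ V ω μ b‖ ^ 2 : ℂ) := by
    have g1 := tr_jj h.toFrm b b
    rw [inner_jj (stS h.toFrm b) (stS h.toFrm b)] at g1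
    have g2 := inner_self_eq_norm_sq_to_K (𝕜 := ℂ) (jj ι κ ρ V ω μ b)
    exact g1.symm.trans g2
  rw [e3, ← inner_LL] at e2
  exact e2

/-- The smooth fields form a Hilbert algebra. -/
theorem halg (h : TFrm ρ V ω)
    (ho : ∀ a b : G → K →L[ℂ] K, Smo ι κ ρ V ω μ a → Smo ι κ ρ V ω μ b → Ort V ω μ a b) :
    HAlg (jj ι κ ρ V ω μ) (Lo h.toFrm) (Ro h.toFrm) (stS h.toFrm) := by
  have nd : ∀ x : LL ι κ ρ V ω μ, (∀ a, Lo h.toFrm a x = 0) → x = 0 := by
    intro x hx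
    by_cases hall : ∀ b : SM ι κ ρ V ω μ, jj ι κ ρ V ω μ b = 0
    · refine eq_of_inner_jj fun a => ?_
      rw [hall a, inner_zero_left, inner_zero_left]
    · push Not at hall
      obtain ⟨b, hb⟩ := hall
      have h1 := int_left h ho b x x
      have h2 : ∀ y, star (Lo h.toFrm b) (RtR y⁻¹ x) = 0 := by
        intro y
        rw [Lo_star]
        have h3 := Rt_L h.toFrm y (stS h.toFrm b)
        have h4 := congrArg (fun T : LL ι κ ρ V ω μ →L[ℂ] LL ι κ ρ V ω μ => T x) h3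
        change Rt y (Lo h.toFrm (stS h.toFrm b) (Rt y⁻¹ x)) = Lo h.toFrm _ x at h4
        rw [hx] at h4
        have h5 := apply_inv_rep (RtR (ι := ι) (κ := κ) (ρ := ρ) (V := V) (ω := ω) (μ := μ)) y
          (Lo h.toFrm (stS h.toFrm b) (Rt y⁻¹ x))
        change Rt y⁻¹ (Rt y (Lo h.toFrm (stS h.toFrm b) (Rt y⁻¹ x))) = _ at h5
        rw [h4, map_zero] at h5
        exact h5.symm
      have h6 : ∀ y, ⟪x, RtR y (Lo h.toFrm b (star (Lo h.toFrm b) (RtR y⁻¹ x)))⟫_ℂ = 0 := by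
        intro y
        rw [h2, map_zero, map_zero, inner_zero_right]
      rw [integral_congr_ae (Eventually.of_forall h6), integral_zero] at h1
      have h7 : (‖jj ι κ ρ V ω μ b‖ ^ 2 : ℂ) ≠ 0 := by
        have : ‖jj ι κ ρ V ω μ b‖ ≠ 0 := norm_ne_zero_iff.2 hb
        exact pow_ne_zero 2 (by exact_mod_cast this)
      rcases mul_eq_zero.1 h1.symm with h8 | h8
      · exact absurd h8 h7
      · exact inner_self_eq_zero.1 h8
  refine ⟨dense_jj ι κ ρ V ω μ, fun a b => ?_, Lo_star h.toFrm, Ro_star h.toFrm, tr_jj h.toFrm,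
    nd, fun x hx => nd x fun b => ?_⟩
  · rw [Lo_jj, Ro_jj]
  · -- `R a x = 0` for all `a` gives `L b x = 0`
    have h1 : ∀ a : SM ι κ ρ V ω μ, ⟪jj ι κ ρ V ω μ a, Lo h.toFrm b x⟫_ℂ = 0 := by
      intro a
      have h2 : Lo h.toFrm b = star (Lo h.toFrm (stS h.toFrm b)) := by
        rw [Lo_star, stS_stS]
      rw [h2, star_eq_adjoint, adjoint_inner_right, Lo_jj, ← Ro_jj h.toFrm a (stS h.toFrm b)]
      have h3 : Ro h.toFrm a = star (Ro h.toFrm (stS h.toFrm a)) := by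
        rw [Ro_star, stS_stS]
      rw [h3, star_eq_adjoint, adjoint_inner_left, hx, inner_zero_right]
    refine eq_of_inner_jj fun a => ?_
    rw [h1, inner_zero_right]

theorem hrep (h : Frm ρ V ω) :
    HRep (jj ι κ ρ V ω μ) (Lo h) (Ro h) (RtR (ι := ι) (κ := κ) (ρ := ρ) (V := V) (ω := ω)
      (μ := μ)) where
  un y := Rt_star y
  rj y a := ⟨rtS y a, Rt_jj y a, Rt_L h y a, Rt_R h y a⟩

/-- ergodicity of the right translations -/
theorem erg_jj [μ.IsInvInvariant] (h : TFrm ρ V ω)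
    (ho : ∀ a b : G → K →L[ℂ] K, Smo ι κ ρ V ω μ a → Smo ι κ ρ V ω μ b → Ort V ω μ a b)
    (X : LL ι κ ρ V ω μ →L[ℂ] LL ι κ ρ V ω μ)
    (hXL : ∀ a, X * Lo h.toFrm a = Lo h.toFrm a * X) (hXr : ∀ g, X * RtR g = RtR g * X) :
    ∃ c : ℂ, X = c • 1 :=
  (halg h ho).erg (hrep h.toFrm) (LR_comm h.toFrm)
    ((halg h ho).int_right (hrep h.toFrm) (int_left h ho)) X hXL hXr

end int

end Vale.Agent.P092.H100
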