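import Vale.Agent.P092.H325.Comm

/-!
# [IRR]: multiplication by `C_c(G)` and left translations act irreducibly on `L²(G)`
-/

open MeasureTheory Set Filter
open scoped ENNReal Topology InnerProductSpace ComplexConjugate

namespace Vale.Agent.P092.H100

set_option linter.unusedSectionVars false

variable {G : Type*} [Group G] [TopologicalSpace G] [IsTopologicalGroup G] [MeasurableSpace G]
  [BorelSpace G] [SecondCountableTopology G] [LocallyCompactSpace G] [T2Space G]
  (μ : Measure G) [μ.IsHaarMeasure] [μ.IsMulRightInvariant] [μ.IsInvInvariant]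

theorem conv_int {p q : G → ℂ} (hp : Integrable p μ) (hq : Integrable q μ) :
    ∫ y, ∫ x, p x * q (y⁻¹ * x) ∂μ ∂μ = (∫ x, p x ∂μ) * (∫ x, q x ∂μ) := by
  have mp : MeasurePreserving (fun z : G × G => (z.2, z.1⁻¹ * z.2)) (μ.prod μ) (μ.prod μ) := by
    have h1 := (measurePreserving_prod_mul_right μ μ).comp
      (((MeasurePreserving.id μ).prod (Measure.measurePreserving_inv μ)).comp
        (Measure.measurePreserving_swap (μ := μ) (ν := μ)))
    exact h1
  have h2 : Integrable (fun z : G × G => p z.2 * q (z.1⁻¹ * z.2)) (μ.prod μ) :=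
    mp.integrable_comp_of_integrable (hp.mul_prod hq)
  rw [integral_integral_swap h2]
  have h3 : ∀ x, ∫ y, p x * q (y⁻¹ * x) ∂μ = p x * ∫ y, q y ∂μ := by
    intro x
    rw [integral_const_mul, integral_inv_eq_self (μ := μ) (f := fun y => q (y * x)),
      integral_mul_right_eq_self]
  simp only [h3]
  rw [integral_mul_const]

/-- the class of a continuous function with compact support -/
noncomputable def cc (F : G → ℂ) (hF : Continuous F) (hc : HasCompactSupport F) : Lp ℂ 2 μ :=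
  (hF.memLp_of_hasCompactSupport hc : MemLp F 2 μ).toLp F

omit [IsTopologicalGroup G] [SecondCountableTopology G] [LocallyCompactSpace G] [T2Space G] [μ.IsMulRightInvariant] [μ.IsInvInvariant] in
theorem cc_ae (F : G → ℂ) (hF : Continuous F) (hc : HasCompactSupport F) :
    cc μ F hF hc =ᵐ[μ] F := MemLp.coeFn_toLp _

theorem exists_cc (u : Lp ℂ 2 μ) {ε : ℝ} (hε : 0 < ε) :
    ∃ (F : G → ℂ) (hF : Continuous F) (hc : HasCompactSupport F), ‖u - cc μ F hF hc‖ ≤ ε := by
  have hu : MemLp u 2 μ := Lp.memLp u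
  obtain ⟨F, hc, hle, hF, hm⟩ := hu.exists_hasCompactSupport_eLpNorm_sub_le (by simp)
    (ε := ENNReal.ofReal ε) (by simpa using hε)
  refine ⟨F, hF, hc, ?_⟩
  have h1 : ‖u - cc μ F hF hc‖ = (eLpNorm (fun x => u x - F x) 2 μ).toReal := by
    rw [Lp.norm_def]
    congr 1
    refine eLpNorm_congr_ae ?_
    filter_upwards [Lp.coeFn_sub u (cc μ F hF hc), cc_ae μ F hF hc] with x h1 h2
    rw [h1, Pi.sub_apply, h2]
  rw [h1]
  exact ENNReal.toReal_le_of_le_ofReal hε.le hle

theorem eq_zero_of_cc (u : Lp ℂ 2 μ)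
    (h : ∀ (F : G → ℂ) (hF : Continuous F) (hc : HasCompactSupport F),
      ⟪cc μ F hF hc, u⟫_ℂ = 0) : u = 0 := by
  rw [← norm_le_zero_iff]
  refine le_of_forall_pos_le_add fun ε hε => ?_
  rw [zero_add]
  obtain ⟨F, hF, hc, hle⟩ := exists_cc μ u hε
  by_contra hcon
  push Not at hcon
  have hpos : 0 < ‖u‖ := hε.trans hcon
  have h1 : ⟪u - cc μ F hF hc, u⟫_ℂ = ⟪u, u⟫_ℂ := by rw [inner_sub_left, h, sub_zero]
  have h2 : ‖⟪u, u⟫_ℂ‖ = ‖u‖ * ‖u‖ := by
    rw [inner_self_eq_norm_sq_to_K]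
    simp [sq]
  have h3 := norm_inner_le_norm (𝕜 := ℂ) (u - cc μ F hF hc) u
  rw [h1, h2] at h3
  have h4 : ‖u‖ * ‖u‖ ≤ ε * ‖u‖ := h3.trans (by gcongr)
  have h5 := le_of_mul_le_mul_right h4 hpos
  linarith

theorem exists_cutoff (F : G → ℂ) (hc : HasCompactSupport F) :
    ∃ χ : G → ℂ, Continuous χ ∧ HasCompactSupport χ ∧ ∀ x, χ x * F x = F x := by
  obtain ⟨f, hf1, -, hf3, -⟩ := exists_continuous_one_zero_of_isCompact (s := tsupport F)
    (t := ∅) hc isClosed_empty (disjoint_empty _)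
  refine ⟨fun x => (f x : ℂ), by fun_prop, ?_, fun x => ?_⟩
  · exact hf3.comp_left (g := fun t : ℝ => (t : ℂ)) (by simp)
  · by_cases hx : x ∈ tsupport F
    · have h1 : f x = 1 := hf1 hx
      change (f x : ℂ) * F x = F x
      rw [h1]
      simp
    · rw [image_eq_zero_of_notMem_tsupport hx, mul_zero]

theorem inner_cc (F : G → ℂ) (hF : Continuous F) (hc : HasCompactSupport F) (u : Lp ℂ 2 μ) :
    ⟪cc μ F hF hc, u⟫_ℂ = ∫ x, conj (F x) * u x ∂μ := by
  rw [L2.inner_def]
  refine integral_congr_ae ?_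
  filter_upwards [cc_ae μ F hF hc] with x hx
  rw [hx, RCLike.inner_apply, mul_comm]

/-- **[IRR]** -/
theorem irr (T : Lp ℂ 2 μ →L[ℂ] Lp ℂ 2 μ)
    (hM : ∀ F : G → ℂ, Continuous F → HasCompactSupport F → ∀ ξ η : Lp ℂ 2 μ,
      η =ᵐ[μ] (fun x => F x * ξ x) → T η =ᵐ[μ] fun x => F x * T ξ x)
    (hL : ∀ g ξ, T (H325.tl μ g ξ) = H325.tl μ g (T ξ)) : ∃ c : ℂ, T = c • 1 := by
  -- the main identity
  have hTF : ∀ (F : G → ℂ) (hF : Continuous F) (hc : HasCompactSupport F),
      Integrable (T (cc μ F hF hc)) μ := by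
    intro F hF hc
    obtain ⟨χ, h1, h2, h3⟩ := exists_cutoff F hc
    have h4 : cc μ F hF hc =ᵐ[μ] fun x => χ x * cc μ F hF hc x := by
      filter_upwards [cc_ae μ F hF hc] with x hx
      rw [hx, h3]
    have h5 := hM χ h1 h2 _ _ h4
    have h6 : Integrable (fun x => χ x * T (cc μ F hF hc) x) μ :=
      (h1.memLp_of_hasCompactSupport h2 : MemLp χ 2 μ).integrable_mul (Lp.memLp _)
    exact h6.congr h5.symm
  have main : ∀ (F g h : G → ℂ) (hF : Continuous F) (hFc : HasCompactSupport F)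
      (hg : Continuous g) (hgc : HasCompactSupport g) (hh : Continuous h)
      (hhc : HasCompactSupport h),
      (∫ x, F x ∂μ) * ⟪cc μ h hh hhc, T (cc μ g hg hgc)⟫_ℂ =
        (∫ x, T (cc μ F hF hFc) x ∂μ) * ⟪cc μ h hh hhc, cc μ g hg hgc⟫_ℂ := by
    intro F g h hF hFc hg hgc hh hhc
    have hconj : Continuous fun x => conj (h x) := Complex.continuous_conj.comp hh
    have hconjc : HasCompactSupport fun x => conj (h x) :=
      hhc.comp_left (g := fun z : ℂ => conj z) (map_zero _)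
    have hp : Integrable (fun x => conj (h x) * T (cc μ g hg hgc) x) μ :=
      (hconj.memLp_of_hasCompactSupport hconjc : MemLp _ 2 μ).integrable_mul (Lp.memLp _)
    have hq : Integrable (fun x => conj (h x) * g x) μ :=
      (hconj.mul hg).integrable_of_hasCompactSupport (hconjc.mul_right)
    have hFi : Integrable F μ := hF.integrable_of_hasCompactSupport hFc
    have e1 := conv_int μ hp hFi
    have e2 := conv_int μ hq (hTF F hF hFc)
    have e3 : ∀ y, ∫ x, conj (h x) * T (cc μ g hg hgc) x * F (y⁻¹ * x) ∂μ =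
        ∫ x, conj (h x) * g x * T (cc μ F hF hFc) (y⁻¹ * x) ∂μ := by
      intro y
      have c1 : Continuous fun x => F (y⁻¹ * x) := by fun_prop
      have c2 : HasCompactSupport fun x => F (y⁻¹ * x) :=
        hFc.comp_homeomorph (Homeomorph.mulLeft y⁻¹)
      have c3 : HasCompactSupport fun x => F (y⁻¹ * x) * g x := c2.mul_right
      have c4 : Continuous fun x => F (y⁻¹ * x) * g x := c1.mul hg
      have d1 : cc μ _ c4 c3 =ᵐ[μ] fun x => F (y⁻¹ * x) * cc μ g hg hgc x := by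
        filter_upwards [cc_ae μ _ c4 c3, cc_ae μ g hg hgc] with x h1 h2
        rw [h1, h2]
      have d2 : cc μ _ c4 c3 =ᵐ[μ] fun x => g x * H325.tl μ y (cc μ F hF hFc) x := by
        have h3 := (measurePreserving_mul_left μ y⁻¹).quasiMeasurePreserving.ae
          (cc_ae μ F hF hFc)
        filter_upwards [cc_ae μ _ c4 c3, H325.tl_ae μ y (cc μ F hF hFc), h3] with x h1 h2 h3
        rw [h1, h2, h3, mul_comm]
      have d3 := hM _ c1 c2 _ _ d1
      have d4 := hM _ hg hgc _ _ d2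
      rw [hL] at d4
      refine integral_congr_ae ?_
      filter_upwards [d3, d4, H325.tl_ae μ y (T (cc μ F hF hFc))] with x h1 h2 h3
      rw [h3] at h2
      calc conj (h x) * T (cc μ g hg hgc) x * F (y⁻¹ * x)
          = conj (h x) * (F (y⁻¹ * x) * T (cc μ g hg hgc) x) := by ring
        _ = conj (h x) * (g x * T (cc μ F hF hFc) (y⁻¹ * x)) := by rw [← h1, h2]
        _ = _ := by ring
    have e4 : (∫ x, conj (h x) * T (cc μ g hg hgc) x ∂μ) * (∫ x, F x ∂μ) =
        (∫ x, conj (h x) * g x ∂μ) * (∫ x, T (cc μ F hF hFc) x ∂μ) := by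
      rw [← e1, ← e2]
      exact integral_congr_ae (Eventually.of_forall e3)
    have e5 : ⟪cc μ h hh hhc, cc μ g hg hgc⟫_ℂ = ∫ x, conj (h x) * g x ∂μ := by
      rw [inner_cc]
      refine integral_congr_ae ?_
      filter_upwards [cc_ae μ g hg hgc] with x hx
      rw [hx]
    rw [inner_cc, e5, mul_comm, e4, mul_comm]
  -- a function with nonzero integral
  obtain ⟨F, hF, hFc, hI⟩ : ∃ (F : G → ℂ) (_ : Continuous F) (_ : HasCompactSupport F),
      (∫ x, F x ∂μ) ≠ 0 := by
    obtain ⟨f, hf1, -, hf3, hf4⟩ := exists_continuous_one_zero_of_isCompact (s := ({1} : Set G))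
      (t := ∅) isCompact_singleton isClosed_empty (disjoint_empty _)
    refine ⟨fun x => (f x : ℂ), by fun_prop,
      hf3.comp_left (g := fun t : ℝ => (t : ℂ)) (by simp), ?_⟩
    have h1 : (0 : ℝ) < ∫ x, f x ∂μ := by
      refine f.continuous.integral_pos_of_hasCompactSupport_nonneg_nonzero hf3
        (fun x => (hf4 x).1) (x := 1) ?_
      rw [hf1 (mem_singleton _)]
      simp
    rw [integral_complex_ofReal]
    exact_mod_cast h1.ne'
  set c : ℂ := (∫ x, T (cc μ F hF hFc) x ∂μ) / (∫ x, F x ∂μ) with hc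
  refine ⟨c, ?_⟩
  have h1 : ∀ (g : G → ℂ) (hg : Continuous g) (hgc : HasCompactSupport g),
      T (cc μ g hg hgc) = c • cc μ g hg hgc := by
    intro g hg hgc
    refine sub_eq_zero.1 (eq_zero_of_cc μ _ fun h hh hhc => ?_)
    have h2 := main F g h hF hFc hg hgc hh hhc
    rw [inner_sub_right, inner_smul_right, hc, div_mul_eq_mul_div, ← h2,
      mul_div_cancel_left₀ _ hI, sub_self]
  refine ContinuousLinearMap.ext fun ξ => ?_
  change T ξ = c • ξ
  refine sub_eq_zero.1 (norm_le_zero_iff.1 ?_)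
  refine le_of_forall_pos_le_add fun ε hε => ?_
  rw [zero_add]
  obtain ⟨g, hg, hgc, hle⟩ := exists_cc μ ξ (ε := ε / (‖T‖ + ‖c‖ + 1)) (by positivity)
  have h2 : T ξ - c • ξ = T (ξ - cc μ g hg hgc) - c • (ξ - cc μ g hg hgc) := by
    rw [map_sub, h1, smul_sub]
    abel
  rw [h2]
  calc ‖T (ξ - cc μ g hg hgc) - c • (ξ - cc μ g hg hgc)‖
      ≤ ‖T‖ * ‖ξ - cc μ g hg hgc‖ + ‖c‖ * ‖ξ - cc μ g hg hgc‖ := by
        refine (norm_sub_le _ _).trans (add_le_add (T.le_opNorm _) ?_)
        rw [norm_smul]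
    _ ≤ (‖T‖ + ‖c‖ + 1) * ‖ξ - cc μ g hg hgc‖ := by
        have := norm_nonneg (ξ - cc μ g hg hgc)
        nlinarith
    _ ≤ (‖T‖ + ‖c‖ + 1) * (ε / (‖T‖ + ‖c‖ + 1)) := by gcongr
    _ = ε := by field_simp

end Vale.Agent.P092.H100
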