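import Mathlib.MeasureTheory.Measure.Haar.MulEquivHaarChar
import Mathlib.MeasureTheory.Measure.Haar.NormedSpace
import Mathlib.MeasureTheory.Group.FundamentalDomain
import Mathlib.Analysis.Normed.Module.FiniteDimension
import Mathlib.Analysis.SpecialFunctions.Pow.Real

/-!
P092 (helper100), Team N, block [N-GAPB]: Haar measure on a finite dimensional space over a local
field, the fundamental domain `{1 ≤ ‖v‖ < ‖t‖}` of multiplication by `t`, and integrals of
homogeneous functions over it.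
-/

set_option linter.all false

open MeasureTheory Filter Topology Set
open scoped ENNReal NNReal Pointwise

namespace Vale.Agent.P092.H100.Ker

variable {k E : Type} [NontriviallyNormedField k] [NormedAddCommGroup E] [NormedSpace k E]
  [ProperSpace E] [MeasurableSpace E] [BorelSpace E]

/-- Haar measure under a linear automorphism. -/
theorem map_lin (μ : Measure E) [μ.IsAddHaarMeasure] (g : E ≃L[k] E) :
    ∃ c : ℝ≥0, 0 < c ∧ μ.map g = c • μ := by
  have h := addEquivAddHaarChar_smul_map μ g.toContinuousAddEquiv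
  have hp := addEquivAddHaarChar_pos g.toContinuousAddEquiv
  refine ⟨(addEquivAddHaarChar g.toContinuousAddEquiv)⁻¹, inv_pos.2 hp, ?_⟩
  have h2 : μ.map g.toContinuousAddEquiv = μ.map g := rfl
  rw [h2] at h
  calc μ.map g = (addEquivAddHaarChar g.toContinuousAddEquiv)⁻¹ •
        (addEquivAddHaarChar g.toContinuousAddEquiv • μ.map g) := by
        rw [smul_smul, inv_mul_cancel₀ hp.ne', one_smul]
    _ = _ := by rw [h]

/-- The data: the scale `t` and the exponent. -/
structure Dat (μ : Measure E) (t : k) (α : ℝ) : Prop where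
  one_lt : 1 < ‖t‖
  pos : 0 < α
  map : μ.map (fun v => t • v) = ENNReal.ofReal (‖t‖ ^ (-(2 * α))) • μ

theorem Dat.ne {μ : Measure E} {t : k} {α : ℝ} (h : Dat μ t α) : t ≠ 0 :=
  norm_pos_iff.1 (zero_lt_one.trans h.one_lt)

/-- multiplication by a nonzero scalar as a linear automorphism -/
noncomputable def sm (t : k) (ht : t ≠ 0) : E ≃L[k] E :=
  ContinuousLinearEquiv.smulLeft (Units.mk0 t ht)

theorem sm_apply (t : k) (ht : t ≠ 0) (v : E) : sm t ht v = t • v := rfl

theorem exists_dat [Nontrivial E] (μ : Measure E) [μ.IsAddHaarMeasure] :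
    ∃ (t : k) (α : ℝ), Dat μ t α ∧ ∃ s : k, 1 < ‖s‖ ∧ t = s ^ 2 := by
  obtain ⟨s, hs⟩ := NormedField.exists_one_lt_norm k
  have hs0 : 0 < ‖s‖ := zero_lt_one.trans hs
  have ht : 1 < ‖s ^ 2‖ := by rw [norm_pow]; exact one_lt_pow₀ hs two_ne_zero
  have ht0 : s ^ 2 ≠ 0 := norm_pos_iff.1 (zero_lt_one.trans ht)
  obtain ⟨c, hc, hm⟩ := map_lin (k := k) μ (sm (s ^ 2) ht0)
  have hm' : μ.map (fun v => s ^ 2 • v) = c • μ := hm
  -- `c < 1`
  have hc1 : (c : ℝ) < 1 := by
    have hmeas : Measurable (fun v : E => s ^ 2 • v) := (continuous_const_smul (s ^ 2)).measurable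
    have hB : MeasurableSet (Metric.closedBall (0 : E) 1) := Metric.isClosed_closedBall.measurableSet
    have e1 : c * μ (Metric.closedBall (0 : E) 1) =
        μ ((fun v : E => s ^ 2 • v) ⁻¹' Metric.closedBall (0 : E) 1) := by
      rw [← Measure.map_apply hmeas hB, hm', Measure.smul_apply]
      rfl
    have hfin : μ (Metric.closedBall (0 : E) 1) ≠ ∞ :=
      (isCompact_closedBall (0 : E) 1).measure_lt_top.ne
    -- the open shell
    have hO : IsOpen {v : E | 1 < ‖s ^ 2 • v‖ ∧ ‖v‖ < 1} :=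
      (isOpen_lt continuous_const (continuous_const_smul (s ^ 2)).norm).inter
        (isOpen_lt continuous_norm continuous_const)
    have hne : {v : E | 1 < ‖s ^ 2 • v‖ ∧ ‖v‖ < 1}.Nonempty := by
      obtain ⟨v, hv⟩ := exists_ne (0 : E)
      have hv' : 0 < ‖v‖ := norm_pos_iff.2 hv
      obtain ⟨m, hm1, hm2⟩ := exists_mem_Ico_zpow hv' hs
      have hp : 0 < ‖s‖ ^ m := zpow_pos hs0 m
      refine ⟨s ^ (-m - 1) • v, ?_, ?_⟩
      · rw [norm_smul, norm_smul, norm_zpow, norm_pow]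
        have e : ‖s‖ ^ 2 * (‖s‖ ^ (-m - 1) * ‖v‖) = ‖s‖ * ((‖s‖ ^ m)⁻¹ * ‖v‖) := by
          rw [zpow_sub₀ hs0.ne', zpow_neg, zpow_one]
          field_simp
        rw [e]
        have h1 : 1 ≤ (‖s‖ ^ m)⁻¹ * ‖v‖ := by
          rw [inv_mul_eq_div, le_div_iff₀ hp, one_mul]; exact hm1
        calc 1 < ‖s‖ := hs
          _ = ‖s‖ * 1 := (mul_one _).symm
          _ ≤ _ := mul_le_mul_of_nonneg_left h1 hs0.le
      · rw [norm_smul, norm_zpow]
        have e : ‖s‖ ^ (-m - 1) * ‖v‖ = ‖v‖ / ‖s‖ ^ (m + 1) := by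
          rw [show -m - 1 = -(m + 1) by ring, zpow_neg]
          field_simp
        rw [e, div_lt_one (zpow_pos hs0 _)]
        exact hm2
    have hOpos : 0 < μ {v : E | 1 < ‖s ^ 2 • v‖ ∧ ‖v‖ < 1} := hO.measure_pos μ hne
    have hdis : Disjoint ((fun v : E => s ^ 2 • v) ⁻¹' Metric.closedBall (0 : E) 1)
        {v : E | 1 < ‖s ^ 2 • v‖ ∧ ‖v‖ < 1} := by
      rw [Set.disjoint_left]
      rintro v h1 ⟨h2, h3⟩
      have h1' : ‖s ^ 2 • v‖ ≤ 1 := by simpa using h1
      linarith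
    have hsub : ((fun v : E => s ^ 2 • v) ⁻¹' Metric.closedBall (0 : E) 1) ∪
        {v : E | 1 < ‖s ^ 2 • v‖ ∧ ‖v‖ < 1} ⊆ Metric.closedBall (0 : E) 1 := by
      rintro v (h1 | ⟨h2, h3⟩)
      · have h1' : ‖s ^ 2 • v‖ ≤ 1 := by simpa using h1
        rw [norm_smul] at h1'
        have : ‖v‖ ≤ ‖s ^ 2‖ * ‖v‖ := le_mul_of_one_le_left (norm_nonneg _) ht.le
        simpa using this.trans h1'
      · simpa using h3.le
    have h3 : c * μ (Metric.closedBall (0 : E) 1) + μ {v : E | 1 < ‖s ^ 2 • v‖ ∧ ‖v‖ < 1} ≤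
        μ (Metric.closedBall (0 : E) 1) := by
      rw [e1, ← measure_union hdis hO.measurableSet]
      exact measure_mono hsub
    by_contra hcc
    push Not at hcc
    have hcc' : (1 : ℝ≥0∞) ≤ c := by exact_mod_cast hcc
    have h4 : μ (Metric.closedBall (0 : E) 1) + μ {v : E | 1 < ‖s ^ 2 • v‖ ∧ ‖v‖ < 1} ≤
        μ (Metric.closedBall (0 : E) 1) := by
      refine le_trans (add_le_add_left ?_ _) h3
      calc μ (Metric.closedBall (0 : E) 1) = 1 * μ (Metric.closedBall (0 : E) 1) := (one_mul _).symm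
        _ ≤ _ := by gcongr
    exact absurd h4 (not_le.2 (ENNReal.lt_add_right hfin hOpos.ne'))
  have hl : 0 < Real.log ‖s ^ 2‖ := Real.log_pos ht
  have hc0 : (0 : ℝ) < c := by exact_mod_cast hc
  refine ⟨s ^ 2, -Real.log c / (2 * Real.log ‖s ^ 2‖), ⟨ht, ?_, ?_⟩, s, hs, rfl⟩
  · have := Real.log_neg hc0 hc1
    apply div_pos <;> linarith
  · rw [hm']
    have e : ‖s ^ 2‖ ^ (-(2 * (-Real.log c / (2 * Real.log ‖s ^ 2‖)))) = (c : ℝ) := by
      rw [Real.rpow_def_of_pos (zero_lt_one.trans ht)]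
      have : Real.log ‖s ^ 2‖ * -(2 * (-Real.log c / (2 * Real.log ‖s ^ 2‖))) = Real.log c := by
        field_simp
      rw [this, Real.exp_log hc0]
    rw [e, ENNReal.ofReal_coe_nnreal]
    rfl

/-- the fundamental domain of a homogeneous gauge -/
def FD (t : k) (h : E → ℝ) : Set E := {v | 1 ≤ h v ∧ h v < ‖t‖}

theorem measurableSet_FD (t : k) {h : E → ℝ} (hm : Measurable h) : MeasurableSet (FD t h) :=
  (measurableSet_le measurable_const hm).inter (measurableSet_lt hm measurable_const)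

theorem h_zpow {t : k} (ht : t ≠ 0) {h : E → ℝ} (hh : ∀ v, h (t • v) = ‖t‖ * h v) (m : ℤ) (v : E) :
    h (t ^ m • v) = ‖t‖ ^ m * h v := by
  have ht' : ‖t‖ ≠ 0 := norm_ne_zero_iff.2 ht
  have hi : ∀ v, h (t⁻¹ • v) = ‖t‖⁻¹ * h v := fun v => by
    have := hh (t⁻¹ • v)
    rw [smul_smul, mul_inv_cancel₀ ht, one_smul] at this
    rw [this, inv_mul_cancel_left₀ ht']
  induction m using Int.induction_on with
  | zero => simp
  | succ m ih => rw [zpow_add_one₀ ht, zpow_add_one₀ ht', mul_comm (t ^ (m : ℤ)) t, mul_smul, hh, ih]; ring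
  | pred m ih =>
    rw [zpow_sub_one₀ ht, zpow_sub_one₀ ht', mul_comm (t ^ (-(m : ℤ))) t⁻¹, mul_smul, hi, ih]; ring

theorem fd_isFD {t : k} (ht : 1 < ‖t‖) {h : E → ℝ} (hm : Measurable h)
    (hh : ∀ v, h (t • v) = ‖t‖ * h v) (hp : ∀ v, v ≠ 0 → 0 < h v) (ρ : Measure E)
    (h0 : ρ {0} = 0) :
    IsFundamentalDomain (Subgroup.zpowers (Units.mk0 t (norm_pos_iff.1 (zero_lt_one.trans ht))))
      (FD t h) ρ := by
  have ht0 : t ≠ 0 := norm_pos_iff.1 (zero_lt_one.trans ht)
  have ht1 : 0 < ‖t‖ := zero_lt_one.trans ht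
  refine ⟨(measurableSet_FD t hm).nullMeasurableSet, ?_, ?_⟩
  · have : ∀ᵐ x ∂ρ, x ≠ 0 := by
      rw [ae_iff]; simpa using h0
    filter_upwards [this] with x hx
    obtain ⟨m, hm1, hm2⟩ := exists_mem_Ico_zpow (hp x hx) ht
    refine ⟨⟨Units.mk0 t ht0 ^ (-m), -m, rfl⟩, ?_⟩
    have e : (⟨Units.mk0 t ht0 ^ (-m), -m, rfl⟩ : Subgroup.zpowers (Units.mk0 t ht0)) • x =
        t ^ (-m) • x := by
      change (Units.mk0 t ht0 ^ (-m)) • x = _
      rw [Units.smul_def, Units.val_zpow_eq_zpow_val]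
      rfl
    rw [e]
    have hpm : 0 < ‖t‖ ^ m := zpow_pos ht1 m
    constructor
    · rw [h_zpow ht0 hh, zpow_neg, inv_mul_eq_div, le_div_iff₀ hpm, one_mul]; exact hm1
    · rw [h_zpow ht0 hh, zpow_neg, inv_mul_eq_div, div_lt_iff₀ hpm, ← zpow_one_add₀ ht1.ne',
        add_comm]
      exact hm2
  · rintro ⟨_, m, rfl⟩ ⟨_, m', rfl⟩ hne
    refine Disjoint.aedisjoint (Set.disjoint_left.2 fun x hx hx' => hne ?_)
    have key : ∀ (n : ℤ) (z : Units k) (hz : Units.mk0 t ht0 ^ n = z) (hz' : z ∈ Subgroup.zpowers (Units.mk0 t ht0)),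
        x ∈ (⟨z, hz'⟩ : Subgroup.zpowers (Units.mk0 t ht0)) • FD t h →
        ‖t‖ ^ n ≤ h x ∧ h x < ‖t‖ ^ (n + 1) := by
      rintro n z rfl hz' ⟨y, hy, hyx⟩
      have e : (⟨Units.mk0 t ht0 ^ n, hz'⟩ : Subgroup.zpowers (Units.mk0 t ht0)) • y =
          t ^ n • y := by
        change (Units.mk0 t ht0 ^ n) • y = _
        rw [Units.smul_def, Units.val_zpow_eq_zpow_val]
        rfl
      have hyx' : t ^ n • y = x := by rw [← e]; exact hyx
      rw [← hyx', h_zpow ht0 hh]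
      have hpm : 0 < ‖t‖ ^ n := zpow_pos ht1 n
      constructor
      · nlinarith [hy.1]
      · rw [zpow_add_one₀ ht1.ne']; nlinarith [hy.2]
    obtain ⟨a1, a2⟩ := key m _ rfl _ hx
    obtain ⟨b1, b2⟩ := key m' _ rfl _ hx'
    have c1 : m < m' + 1 := (zpow_lt_zpow_iff_right₀ ht).1 (lt_of_le_of_lt a1 b2)
    have c2 : m' < m + 1 := (zpow_lt_zpow_iff_right₀ ht).1 (lt_of_le_of_lt b1 a2)
    have : m = m' := by omega
    subst this
    rfl

theorem Dat.zero {μ : Measure E} [μ.IsAddHaarMeasure] {t : k} {α : ℝ} (h : Dat μ t α) :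
    μ {0} = 0 := by
  have h1 : μ.map (fun v => t • v) {0} = μ {0} := by
    rw [Measure.map_apply (continuous_const_smul t).measurable (measurableSet_singleton 0)]
    congr 1
    ext v
    simp [h.ne]
  rw [h.map, Measure.smul_apply, smul_eq_mul] at h1
  have hf : μ {(0 : E)} ≠ ∞ := isCompact_singleton.measure_lt_top.ne
  by_contra hne
  have hc : ENNReal.ofReal (‖t‖ ^ (-(2 * α))) < 1 := by
    rw [ENNReal.ofReal_lt_one]
    exact Real.rpow_lt_one_of_one_lt_of_neg h.one_lt (by linarith [h.pos])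
  have : ENNReal.ofReal (‖t‖ ^ (-(2 * α))) * μ {(0 : E)} < 1 * μ {(0 : E)} :=
    ENNReal.mul_lt_mul_left hne hf hc
  rw [h1, one_mul] at this
  exact lt_irrefl _ this

/-- the invariance of `w μ` for homogeneous `w` -/
theorem dens_inv {μ : Measure E} {t : k} {α : ℝ} (h : Dat μ t α) {w : E → ℝ≥0∞}
    (hw : Measurable w) (hh : ∀ v, w (t • v) = ENNReal.ofReal (‖t‖ ^ (-(2 * α))) * w v)
    {X : Set E} (hX : MeasurableSet X) :
    μ.withDensity w ((fun v => t • v) ⁻¹' X) = μ.withDensity w X := by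
  have hmt : Measurable (fun v : E => t • v) := (continuous_const_smul t).measurable
  have hc0 : ENNReal.ofReal (‖t‖ ^ (-(2 * α))) ≠ 0 := by
    rw [ENNReal.ofReal_ne_zero_iff]
    exact Real.rpow_pos_of_pos (zero_lt_one.trans h.one_lt) _
  have hc1 : ENNReal.ofReal (‖t‖ ^ (-(2 * α))) ≠ ∞ := ENNReal.ofReal_ne_top
  rw [withDensity_apply _ hX, withDensity_apply _ (hmt hX), ← lintegral_indicator hX,
    ← lintegral_indicator (hmt hX)]
  have e1 : ∫⁻ v, X.indicator w v ∂(μ.map fun v => t • v) =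
      ENNReal.ofReal (‖t‖ ^ (-(2 * α))) * ∫⁻ v, X.indicator w v ∂μ := by
    rw [h.map, lintegral_smul_measure]
    rfl
  rw [lintegral_map (hw.indicator hX) hmt] at e1
  have e2 : ∀ v, X.indicator w (t • v) = ENNReal.ofReal (‖t‖ ^ (-(2 * α))) *
      ((fun v => t • v) ⁻¹' X).indicator w v := by
    intro v
    by_cases hv : t • v ∈ X
    · rw [indicator_of_mem hv, indicator_of_mem (show v ∈ (fun v => t • v) ⁻¹' X from hv), hh]
    · rw [indicator_of_notMem hv, indicator_of_notMem (show v ∉ (fun v => t • v) ⁻¹' X from hv),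
        mul_zero]
  simp_rw [e2] at e1
  rw [lintegral_const_mul _ (hw.indicator (hmt hX))] at e1
  exact (ENNReal.mul_right_inj hc0 hc1).1 e1

theorem lint_hom {μ : Measure E} [μ.IsAddHaarMeasure] {t : k} {α : ℝ} (h : Dat μ t α)
    {w : E → ℝ≥0∞} (hw : Measurable w)
    (hh : ∀ v, w (t • v) = ENNReal.ofReal (‖t‖ ^ (-(2 * α))) * w v)
    {h1 h2 : E → ℝ} (hm1 : Measurable h1) (hm2 : Measurable h2)
    (hh1 : ∀ v, h1 (t • v) = ‖t‖ * h1 v) (hh2 : ∀ v, h2 (t • v) = ‖t‖ * h2 v)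
    (hp1 : ∀ v, v ≠ 0 → 0 < h1 v) (hp2 : ∀ v, v ≠ 0 → 0 < h2 v) :
    ∫⁻ v in FD t h1, w v ∂μ = ∫⁻ v in FD t h2, w v ∂μ := by
  have h0 : μ.withDensity w {0} = 0 := by
    rw [withDensity_apply _ (measurableSet_singleton 0)]
    exact setLIntegral_measure_zero _ _ h.zero
  haveI : SMulInvariantMeasure (Subgroup.zpowers (Units.mk0 t
      (norm_pos_iff.1 (zero_lt_one.trans h.one_lt)))) E (μ.withDensity w) := by
    constructor
    rintro ⟨_, m, rfl⟩ X hX
    have e : ((fun v : E => (⟨Units.mk0 t (norm_pos_iff.1 (zero_lt_one.trans h.one_lt)) ^ m, m, rfl⟩ :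
        Subgroup.zpowers (Units.mk0 t (norm_pos_iff.1 (zero_lt_one.trans h.one_lt)))) • v) ⁻¹' X) =
        ((fun v : E => t ^ m • v) ⁻¹' X) := by
      ext v
      change (Units.mk0 t (norm_pos_iff.1 (zero_lt_one.trans h.one_lt)) ^ m) • v ∈ X ↔
        t ^ m • v ∈ X
      rw [Units.smul_def, Units.val_zpow_eq_zpow_val]
      rfl
    refine (congrArg _ e).trans ?_
    clear e
    have hmt : ∀ m : ℤ, Measurable (fun v : E => t ^ m • v) := fun m =>
      (continuous_const_smul (t ^ m)).measurable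
    induction m using Int.induction_on with
    | zero => simp
    | succ m ih =>
      have e : (fun v : E => t ^ ((m : ℤ) + 1) • v) ⁻¹' X =
          (fun v => t • v) ⁻¹' ((fun v : E => t ^ (m : ℤ) • v) ⁻¹' X) := by
        ext v
        rw [mem_preimage, mem_preimage, mem_preimage, smul_smul, zpow_add_one₀ h.ne]
      rw [e, dens_inv h hw hh (hmt m hX), ih]
    | pred m ih =>
      have e : (fun v => t • v) ⁻¹' ((fun v : E => t ^ (-(m : ℤ) - 1) • v) ⁻¹' X) =
          (fun v : E => t ^ (-(m : ℤ)) • v) ⁻¹' X := by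
        ext v
        rw [mem_preimage, mem_preimage, mem_preimage, smul_smul, ← zpow_add_one₀ h.ne,
          sub_add_cancel]
      rw [← dens_inv h hw hh (hmt _ hX), e, ih]
  have := (fd_isFD h.one_lt hm1 hh1 hp1 (μ.withDensity w) h0).measure_eq
    (fd_isFD h.one_lt hm2 hh2 hp2 (μ.withDensity w) h0)
  rwa [withDensity_apply _ (measurableSet_FD t hm1), withDensity_apply _ (measurableSet_FD t hm2)]
    at this

/-- **Change of variables for homogeneous functions.** -/
theorem lint_comp {μ : Measure E} [μ.IsAddHaarMeasure] {t : k} {α : ℝ} (h : Dat μ t α)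
    (g : E ≃L[k] E) : ∃ c : ℝ≥0, 0 < c ∧ ∀ w : E → ℝ≥0∞, Measurable w →
      (∀ v, w (t • v) = ENNReal.ofReal (‖t‖ ^ (-(2 * α))) * w v) →
      ∫⁻ v in FD t (fun v : E => ‖v‖), w (g v) ∂μ = c * ∫⁻ v in FD t (fun v : E => ‖v‖), w v ∂μ := by
  obtain ⟨c, hc, hm⟩ := map_lin μ g
  refine ⟨c, hc, fun w hw hh => ?_⟩
  have hg : Measurable g := g.continuous.measurable
  have hgs : Measurable g.symm := g.symm.continuous.measurable
  have hn : Measurable (fun v : E => ‖v‖) := measurable_norm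
  have hn2 : Measurable (fun v : E => ‖g.symm v‖) := measurable_norm.comp hgs
  rw [← lintegral_indicator (measurableSet_FD t hn)]
  have e1 : ∀ v, (FD t (fun v : E => ‖v‖)).indicator (fun v => w (g v)) v =
      (FD t (fun v : E => ‖g.symm v‖)).indicator w (g v) := by
    intro v
    by_cases hv : v ∈ FD t (fun v : E => ‖v‖)
    · rw [indicator_of_mem hv, indicator_of_mem]
      simpa [FD] using hv
    · rw [indicator_of_notMem hv, indicator_of_notMem]
      simpa [FD] using hv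
  simp_rw [e1]
  rw [← lintegral_map (hw.indicator (measurableSet_FD t hn2)) hg, hm, lintegral_smul_measure,
    lintegral_indicator (measurableSet_FD t hn2)]
  have e2 := lint_hom h hw hh hn2 hn (fun v => by rw [map_smul, norm_smul])
    (fun v => norm_smul _ _) (fun v hv => norm_pos_iff.2 fun h0 => hv (by simpa using h0))
    (fun v hv => norm_pos_iff.2 hv)
  rw [e2]
  rfl

end Vale.Agent.P092.H100.Ker
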