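import Vale.Agent.P092.H100.Ker1
import Vale.Agent.P092.H541.HelDef
import Mathlib.Analysis.Matrix.Order
import Mathlib.MeasureTheory.Integral.DominatedConvergence

/-!
P092 (helper100), Team N, block [N-GAPB]: the kernel `KY` of helper541: invariance under `GL_j`,
positivity.
-/

set_option linter.all false

open MeasureTheory Filter Topology Set Matrix
open scoped ENNReal NNReal Pointwise

namespace Vale.Agent.P092.H100.Ker

open Vale.Agent.P092.H541.Hel (D Sc PR NR KY)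

variable {k : Type} [NontriviallyNormedField k] [ProperSpace k] {ι κ : Type} [Fintype ι]
  [Fintype κ] [MeasurableSpace k] [BorelSpace k]

theorem FD_eq (t : k) : FD t (fun v : κ → k => ‖v‖) = D κ t := rfl

theorem dat_of_sc {μ : Measure (κ → k)} [μ.IsAddHaarMeasure] {t : k} {α : ℝ} (h : Sc μ t α) :
    Dat μ t α := by
  refine ⟨h.one_lt, h.pos, ?_⟩
  have ht : 0 < ‖t‖ := zero_lt_one.trans h.one_lt
  refine Measure.ext fun S hS => ?_
  rw [Measure.map_apply (continuous_const_smul t).measurable hS, Measure.smul_apply, smul_eq_mul,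
    ← h.scale S, mul_comm (μ _), ← mul_assoc, ← ENNReal.ofReal_mul (by positivity),
    ← Real.rpow_add ht]
  simp

theorem measurable_mv (A : Matrix ι κ k) : Measurable fun v : κ → k => ‖A *ᵥ v‖ :=
  ((A.mulVecLin).continuous_of_finiteDimensional.norm).measurable

theorem continuous_mv (A : Matrix ι κ k) : Continuous fun v : κ → k => A *ᵥ v :=
  (A.mulVecLin).continuous_of_finiteDimensional

theorem measurableSet_D (t : k) : MeasurableSet (D κ t) := measurableSet_FD t measurable_norm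

theorem ne_of_D {t : k} {v : κ → k} (hv : v ∈ D κ t) : v ≠ 0 := by
  rintro rfl
  have := hv.1
  rw [norm_zero] at this
  linarith

/-- the lower bound of an injective matrix on the shell -/
theorem lower {A : Matrix ι κ k} (hA : ∀ v, A *ᵥ v = 0 → v = 0) (t : k) :
    ∃ c : ℝ, 0 < c ∧ ∀ v ∈ D κ t, c ≤ ‖A *ᵥ v‖ := by
  have hK : IsCompact {v : κ → k | 1 ≤ ‖v‖ ∧ ‖v‖ ≤ ‖t‖} := by
    refine (isCompact_closedBall (0 : κ → k) ‖t‖).of_isClosed_subset ?_ ?_
    · exact (isClosed_le continuous_const continuous_norm).inter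
        (isClosed_le continuous_norm continuous_const)
    · rintro v ⟨_, hv⟩
      simpa using hv
  rcases Set.eq_empty_or_nonempty {v : κ → k | 1 ≤ ‖v‖ ∧ ‖v‖ ≤ ‖t‖} with he | hne
  · refine ⟨1, one_pos, fun v hv => ?_⟩
    have : v ∈ {v : κ → k | 1 ≤ ‖v‖ ∧ ‖v‖ ≤ ‖t‖} := ⟨hv.1, hv.2.le⟩
    rw [he] at this
    exact absurd this (Set.notMem_empty v)
  · obtain ⟨v0, hv0, hmin⟩ := hK.exists_isMinOn hne (continuous_mv A).norm.continuousOn
    refine ⟨‖A *ᵥ v0‖, norm_pos_iff.2 fun h0 => ?_, fun v hv => hmin ⟨hv.1, hv.2.le⟩⟩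
    have := hA v0 h0
    rw [this] at hv0
    have h1 := hv0.1
    rw [norm_zero] at h1
    linarith

theorem measure_D_lt_top (μ : Measure (κ → k)) [IsFiniteMeasureOnCompacts μ] (t : k) :
    μ (D κ t) < ∞ := by
  refine lt_of_le_of_lt (measure_mono ?_) (isCompact_closedBall (0 : κ → k) ‖t‖).measure_lt_top
  rintro v ⟨_, hv⟩
  simpa using hv.le

theorem measure_D_pos {μ : Measure (κ → k)} [μ.IsAddHaarMeasure] {t : k} {α : ℝ}
    (h : Dat μ t α) [Nonempty κ] : 0 < μ (D κ t) := by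
  by_contra hc
  have hc' : μ (D κ t) = 0 := le_antisymm (not_lt.1 hc) bot_le
  have hfd := fd_isFD h.one_lt (measurable_norm (α := κ → k)) (fun v => norm_smul t v)
    (fun v hv => norm_pos_iff.2 hv) μ h.zero
  haveI : SMulInvariantMeasure (Subgroup.zpowers (Units.mk0 t
      (norm_pos_iff.1 (zero_lt_one.trans h.one_lt)))) (κ → k) (0 : Measure (κ → k)) :=
    ⟨fun _ _ _ => rfl⟩
  -- all translates are null
  have hall : ∀ m : ℤ, μ ((fun v : κ → k => t ^ m • v) ⁻¹' D κ t) = 0 := by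
    intro m
    obtain ⟨c, hc, hm⟩ := map_lin (k := k) μ (sm (t ^ m) (zpow_ne_zero m h.ne))
    have e : μ.map (sm (t ^ m) (zpow_ne_zero m h.ne)) (D κ t) =
        μ ((fun v : κ → k => t ^ m • v) ⁻¹' D κ t) :=
      Measure.map_apply (sm (t ^ m) (zpow_ne_zero m h.ne)).continuous.measurable
        (measurableSet_D t)
    rw [← e, hm, Measure.smul_apply, hc', smul_zero]
  have hcov : (univ : Set (κ → k)) ⊆ {0} ∪ ⋃ m : ℤ, (fun v : κ → k => t ^ m • v) ⁻¹' D κ t := by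
    intro v _
    by_cases hv : v = 0
    · left; exact hv
    · right
      obtain ⟨m, hm1, hm2⟩ := exists_mem_Ico_zpow (norm_pos_iff.2 hv) h.one_lt
      rw [Set.mem_iUnion]
      have ht : 0 < ‖t‖ := zero_lt_one.trans h.one_lt
      have hpm : 0 < ‖t‖ ^ m := zpow_pos ht m
      refine ⟨-m, ?_, ?_⟩
      · rw [norm_smul, norm_zpow, _root_.zpow_neg, inv_mul_eq_div, le_div_iff₀ hpm, one_mul]; exact hm1
      · rw [norm_smul, norm_zpow, _root_.zpow_neg, inv_mul_eq_div, div_lt_iff₀ hpm,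
          ← zpow_one_add₀ ht.ne', add_comm]
        exact hm2
  have h0 : μ univ = 0 := by
    refine le_antisymm ((measure_mono hcov).trans ?_) bot_le
    refine (measure_union_le _ _).trans ?_
    rw [h.zero, zero_add]
    refine (measure_iUnion_le _).trans ?_
    simp [hall]
  exact (isOpen_univ.measure_pos μ ⟨0, trivial⟩).ne' h0

theorem integrable_pw (μ : Measure (κ → k)) [IsFiniteMeasureOnCompacts μ] (t : k) {A B : Matrix ι κ k}
    (hA : ∀ v, A *ᵥ v = 0 → v = 0) (hB : ∀ v, B *ᵥ v = 0 → v = 0) {a b : ℝ} (ha : 0 ≤ a)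
    (hb : 0 ≤ b) :
    IntegrableOn (fun v => ‖A *ᵥ v‖ ^ (-a) * ‖B *ᵥ v‖ ^ (-b)) (D κ t) μ := by
  obtain ⟨c, hc, hcA⟩ := lower hA t
  obtain ⟨d, hd, hdB⟩ := lower hB t
  refine Measure.integrableOn_of_bounded (M := c ^ (-a) * d ^ (-b)) (measure_D_lt_top μ t).ne
    ?_ ?_
  · exact (((measurable_mv A).pow_const _).mul ((measurable_mv B).pow_const _)).aestronglyMeasurable
  · rw [ae_restrict_iff' (measurableSet_D t)]
    refine Eventually.of_forall fun v hv => ?_
    have h1 := hcA v hv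
    have h2 := hdB v hv
    rw [Real.norm_of_nonneg (by positivity)]
    refine mul_le_mul ?_ ?_ (by positivity) (by positivity)
    · exact Real.rpow_le_rpow_of_nonpos hc h1 (by linarith)
    · exact Real.rpow_le_rpow_of_nonpos hd h2 (by linarith)

theorem NR_pos {μ : Measure (κ → k)} [μ.IsAddHaarMeasure] {t : k} {α : ℝ} (h : Dat μ t α)
    [Nonempty κ] {A : Matrix ι κ k} (hA : ∀ v, A *ᵥ v = 0 → v = 0) : 0 < NR μ t α A := by
  unfold NR
  have hi : IntegrableOn (fun v => ‖A *ᵥ v‖ ^ (-(2 * α))) (D κ t) μ := by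
    have := integrable_pw μ t hA hA (a := 2 * α) (b := 0) (by linarith [h.pos]) le_rfl
    simpa using this
  rw [setIntegral_pos_iff_support_of_nonneg_ae _ hi]
  · have e : Function.support (fun v => ‖A *ᵥ v‖ ^ (-(2 * α))) ∩ D κ t = D κ t := by
      refine Set.inter_eq_right.2 fun v hv => ?_
      have : 0 < ‖A *ᵥ v‖ := norm_pos_iff.2 fun h0 => ne_of_D hv (hA v h0)
      exact (Real.rpow_pos_of_pos this _).ne'
    rw [e]
    exact measure_D_pos h
  · exact Eventually.of_forall fun v => by positivity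

theorem NR_pos' {μ : Measure (κ → k)} [μ.IsAddHaarMeasure] {t : k} {α : ℝ} (h : Dat μ t α)
    [Nonempty κ] {A B : Matrix ι κ k} (hA : ∀ v, A *ᵥ v = 0 → v = 0)
    (hB : ∀ v, B *ᵥ v = 0 → v = 0) : 0 < PR μ t α A B := by
  unfold PR
  have hi := integrable_pw μ t hA hB (a := α) (b := α) h.pos.le h.pos.le
  rw [setIntegral_pos_iff_support_of_nonneg_ae _ hi]
  · have e : Function.support (fun v => ‖A *ᵥ v‖ ^ (-α) * ‖B *ᵥ v‖ ^ (-α)) ∩ D κ t = D κ t := by
      refine Set.inter_eq_right.2 fun v hv => ?_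
      have h1 : 0 < ‖A *ᵥ v‖ := norm_pos_iff.2 fun h0 => ne_of_D hv (hA v h0)
      have h2 : 0 < ‖B *ᵥ v‖ := norm_pos_iff.2 fun h0 => ne_of_D hv (hB v h0)
      exact (mul_pos (Real.rpow_pos_of_pos h1 _) (Real.rpow_pos_of_pos h2 _)).ne'
    rw [e]
    exact measure_D_pos h
  · exact Eventually.of_forall fun v => by positivity

theorem KY_pos {μ : Measure (κ → k)} [μ.IsAddHaarMeasure] {t : k} {α : ℝ} (h : Dat μ t α)
    [Nonempty κ] {A B : Matrix ι κ k} (hA : ∀ v, A *ᵥ v = 0 → v = 0)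
    (hB : ∀ v, B *ᵥ v = 0 → v = 0) : 0 < KY μ t α A B :=
  div_pos (NR_pos' h hA hB) (Real.sqrt_pos.2 (mul_pos (NR_pos h hA) (NR_pos h hB)))

theorem KY_symm (μ : Measure (κ → k)) (t : k) (α : ℝ) (A B : Matrix ι κ k) :
    KY μ t α A B = KY μ t α B A := by
  unfold KY PR
  rw [mul_comm (NR μ t α B)]
  simp_rw [mul_comm (‖B *ᵥ _‖ ^ (-α))]

theorem KY_nonneg (μ : Measure (κ → k)) (t : k) (α : ℝ) (A B : Matrix ι κ k) :
    0 ≤ KY μ t α A B :=
  div_nonneg (integral_nonneg fun v => by positivity) (Real.sqrt_nonneg _)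

/-- the kernel is a Gram kernel -/
theorem KY_gram {μ : Measure (κ → k)} [μ.IsAddHaarMeasure] {t : k} {α : ℝ} (h : Dat μ t α)
    [Nonempty κ] {A B : Matrix ι κ k} (hA : ∀ v, A *ᵥ v = 0 → v = 0)
    (hB : ∀ v, B *ᵥ v = 0 → v = 0) : KY μ t α A B =
      ∫ v in D κ t, (‖A *ᵥ v‖ ^ (-α) / √(NR μ t α A)) * (‖B *ᵥ v‖ ^ (-α) / √(NR μ t α B)) ∂μ := by
  unfold KY PR
  rw [Real.sqrt_mul (NR_pos h hA).le, ← integral_div]
  refine integral_congr_ae (Eventually.of_forall fun v => ?_)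
  change ‖A *ᵥ v‖ ^ (-α) * ‖B *ᵥ v‖ ^ (-α) / (√(NR μ t α A) * √(NR μ t α B)) = _
  rw [mul_div_mul_comm]

theorem KY_psd {μ : Measure (κ → k)} [μ.IsAddHaarMeasure] {t : k} {α : ℝ} (h : Dat μ t α)
    [Nonempty κ] {I : Type} (s : Finset I) (A : I → Matrix ι κ k)
    (hA : ∀ i, ∀ v, A i *ᵥ v = 0 → v = 0) (c : I → ℝ) :
    0 ≤ ∑ i ∈ s, ∑ j ∈ s, c i * c j * KY μ t α (A i) (A j) := by
  have e : ∑ i ∈ s, ∑ j ∈ s, c i * c j * KY μ t α (A i) (A j) =
      ∫ v in D κ t, (∑ i ∈ s, c i * (‖A i *ᵥ v‖ ^ (-α) / √(NR μ t α (A i)))) ^ 2 ∂μ := by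
    have hint : ∀ i j, IntegrableOn (fun v => c i * c j *
        ((‖A i *ᵥ v‖ ^ (-α) / √(NR μ t α (A i))) * (‖A j *ᵥ v‖ ^ (-α) / √(NR μ t α (A j)))))
        (D κ t) μ := by
      intro i j
      refine Integrable.const_mul ?_ _
      have h1 := integrable_pw μ t (hA i) (hA j) (a := α) (b := α) h.pos.le h.pos.le
      refine (h1.div_const (√(NR μ t α (A i)) * √(NR μ t α (A j)))).congr
        (Eventually.of_forall fun v => ?_)
      change ‖A i *ᵥ v‖ ^ (-α) * ‖A j *ᵥ v‖ ^ (-α) / (√(NR μ t α (A i)) * √(NR μ t α (A j))) = _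
      rw [mul_div_mul_comm]
    have e2 : ∀ v, (∑ i ∈ s, c i * (‖A i *ᵥ v‖ ^ (-α) / √(NR μ t α (A i)))) ^ 2 =
        ∑ i ∈ s, ∑ j ∈ s, c i * c j * ((‖A i *ᵥ v‖ ^ (-α) / √(NR μ t α (A i))) *
          (‖A j *ᵥ v‖ ^ (-α) / √(NR μ t α (A j)))) := by
      intro v
      rw [sq, Finset.sum_mul_sum]
      refine Finset.sum_congr rfl fun i _ => Finset.sum_congr rfl fun j _ => ?_
      ring
    simp_rw [e2]
    rw [integral_finset_sum _ fun i _ => integrable_finset_sum _ fun j _ => hint i j]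
    refine Finset.sum_congr rfl fun i _ => ?_
    rw [integral_finset_sum _ fun j _ => hint i j]
    refine Finset.sum_congr rfl fun j _ => ?_
    rw [integral_const_mul, KY_gram h (hA i) (hA j)]
  rw [e]
  exact integral_nonneg fun v => sq_nonneg _

theorem KY_self {μ : Measure (κ → k)} [μ.IsAddHaarMeasure] {t : k} {α : ℝ} (h : Dat μ t α)
    [Nonempty κ] {A : Matrix ι κ k} (hA : ∀ v, A *ᵥ v = 0 → v = 0) : KY μ t α A A = 1 := by
  have hp := NR_pos h hA
  unfold KY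
  rw [Vale.Agent.P092.H541.Hel.PR_self μ t α A (fun v hv h0 => ne_of_D hv (hA v h0))
    (measurableSet_D t), Real.sqrt_mul_self hp.le, div_self hp.ne']

theorem KY_le_one {μ : Measure (κ → k)} [μ.IsAddHaarMeasure] {t : k} {α : ℝ} (h : Dat μ t α)
    [Nonempty κ] {A B : Matrix ι κ k} (hA : ∀ v, A *ᵥ v = 0 → v = 0)
    (hB : ∀ v, B *ᵥ v = 0 → v = 0) : KY μ t α A B ≤ 1 := by
  have := KY_psd h (Finset.univ : Finset Bool) (fun b => if b then A else B)
    (fun b => by cases b <;> simpa) (fun b => if b then 1 else -1)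
  simp only [Fintype.univ_bool, Finset.mem_singleton, Bool.true_eq_false, not_false_eq_true,
    Finset.sum_insert, if_true, Finset.sum_singleton, Bool.false_eq_true, if_false] at this
  rw [KY_self h hA, KY_self h hB, KY_symm μ t α B A] at this
  linarith

/-- **`GL_j`-invariance** -/
theorem KY_comp {μ : Measure (κ → k)} [μ.IsAddHaarMeasure] {t : k} {α : ℝ} (h : Dat μ t α)
    {g g' : Matrix κ κ k} [DecidableEq κ] (hg : g * g' = 1) (A B : Matrix ι κ k) :
    KY μ t α (A * g) (B * g) = KY μ t α A B := by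
  have hg' : g' * g = 1 := mul_eq_one_comm.mp hg
  let G : (κ → k) ≃L[k] (κ → k) :=
    (LinearEquiv.ofLinear g.mulVecLin g'.mulVecLin
      (by rw [← Matrix.mulVecLin_mul, hg, Matrix.mulVecLin_one])
      (by rw [← Matrix.mulVecLin_mul, hg', Matrix.mulVecLin_one])).toContinuousLinearEquiv
  have hG : ∀ v, G v = g *ᵥ v := fun v => rfl
  obtain ⟨c, hc, H⟩ := lint_comp h G
  have ht : 0 < ‖t‖ := zero_lt_one.trans h.one_lt
  -- one function
  have key : ∀ f : (κ → k) → ℝ, Measurable f → (∀ v, 0 ≤ f v) →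
      (∀ v, f (t • v) = ‖t‖ ^ (-(2 * α)) * f v) →
      ∫ v in D κ t, f (g *ᵥ v) ∂μ = c * ∫ v in D κ t, f v ∂μ := by
    intro f hf hf0 hft
    have hfg : Measurable fun v => f (g *ᵥ v) := hf.comp (continuous_mv g).measurable
    rw [integral_eq_lintegral_of_nonneg_ae (Eventually.of_forall fun v => hf0 _)
        hfg.aestronglyMeasurable,
      integral_eq_lintegral_of_nonneg_ae (Eventually.of_forall fun v => hf0 _)
        hf.aestronglyMeasurable]
    have e := H (fun v => ENNReal.ofReal (f v)) hf.ennreal_ofReal (fun v => by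
      rw [hft, ENNReal.ofReal_mul (by positivity)])
    rw [FD_eq] at e
    rw [show (∫⁻ v in D κ t, ENNReal.ofReal (f (g *ᵥ v)) ∂μ) =
      ∫⁻ v in D κ t, ENNReal.ofReal (f (G v)) ∂μ from rfl, e, ENNReal.toReal_mul]
    rfl
  have hpow : ∀ (M : Matrix ι κ k) (a : ℝ) (v : κ → k),
      ‖M *ᵥ (t • v)‖ ^ (-a) = ‖t‖ ^ (-a) * ‖M *ᵥ v‖ ^ (-a) := by
    intro M a v
    rw [mulVec_smul, norm_smul, Real.mul_rpow (norm_nonneg _) (norm_nonneg _)]
  have hPR : PR μ t α (A * g) (B * g) = c * PR μ t α A B := by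
    unfold PR
    rw [← key (fun v => ‖A *ᵥ v‖ ^ (-α) * ‖B *ᵥ v‖ ^ (-α))
      (((measurable_mv A).pow_const _).mul ((measurable_mv B).pow_const _))
      (fun v => by positivity) (fun v => by
        change ‖A *ᵥ (t • v)‖ ^ (-α) * ‖B *ᵥ (t • v)‖ ^ (-α) = _
        rw [hpow, hpow, show -(2 * α) = -α + -α by ring, Real.rpow_add ht]
        ring)]
    refine integral_congr_ae (Eventually.of_forall fun v => ?_)
    change ‖(A * g) *ᵥ v‖ ^ (-α) * ‖(B * g) *ᵥ v‖ ^ (-α) =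
      ‖A *ᵥ (g *ᵥ v)‖ ^ (-α) * ‖B *ᵥ (g *ᵥ v)‖ ^ (-α)
    rw [mulVec_mulVec, mulVec_mulVec]
  have hNR : ∀ M : Matrix ι κ k, NR μ t α (M * g) = c * NR μ t α M := by
    intro M
    unfold NR
    rw [← key (fun v => ‖M *ᵥ v‖ ^ (-(2 * α))) ((measurable_mv M).pow_const _)
      (fun v => by positivity) (fun v => hpow M (2 * α) v)]
    refine integral_congr_ae (Eventually.of_forall fun v => ?_)
    change ‖(M * g) *ᵥ v‖ ^ (-(2 * α)) = ‖M *ᵥ (g *ᵥ v)‖ ^ (-(2 * α))
    rw [mulVec_mulVec]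
  unfold KY
  rw [hPR, hNR, hNR]
  have hc' : (0 : ℝ) < c := by exact_mod_cast hc
  rw [show (c : ℝ) * NR μ t α A * (c * NR μ t α B) = c ^ 2 * (NR μ t α A * NR μ t α B) by ring,
    Real.sqrt_mul (by positivity), Real.sqrt_sq hc'.le, mul_div_mul_left _ _ hc'.ne']

end Vale.Agent.P092.H100.Ker
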