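import Vale.Agent.P092.H100.Ker2
import Vale.Agent.P092.H85.KerI

/-!
P092 (helper100), Team N, block [N-GAPB]: positive semidefinite kernels, powers and averages of the
kernel `KY` over a random frame.
-/

set_option linter.all false

open MeasureTheory Filter Topology Set Matrix
open scoped ENNReal NNReal Pointwise

namespace Vale.Agent.P092.H100.Ker

open Vale.Agent.P092.H541.Hel (D Sc PR NR KY)
open Vale.Agent.P092.H85.Ker (Inj norm_ge KY_cont)

/-! ### Positive semidefinite real kernels -/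

section pk

variable {X Z : Type}

/-- positive semidefinite real kernel -/
def PK (K : X → X → ℝ) : Prop := (Matrix.of K).PosSemidef

theorem PK.symm {K : X → X → ℝ} (h : PK K) (a b : X) : K a b = K b a := by
  have := h.1.apply a b
  simpa using this.symm

theorem PK.sum {K : X → X → ℝ} (h : PK K) (s : Finset X) (c : X → ℝ) :
    0 ≤ ∑ a ∈ s, ∑ b ∈ s, c a * c b * K a b := by
  classical
  have h2 := h.2 (Finsupp.indicator s fun a _ => c a)
  have hs : (Finsupp.indicator s fun a _ => c a).support ⊆ s :=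
    Finsupp.support_indicator_subset s _
  rw [Finsupp.sum_of_support_subset _ hs _ (by simp)] at h2
  refine h2.trans (le_of_eq ?_)
  refine Finset.sum_congr rfl fun a ha => ?_
  rw [Finsupp.sum_of_support_subset _ hs _ (by simp)]
  refine Finset.sum_congr rfl fun b hb => ?_
  simp only [Finsupp.indicator_of_mem ha, Finsupp.indicator_of_mem hb]
  simp
  ring

theorem PK.of_sum {K : X → X → ℝ} (hs : ∀ a b, K a b = K b a)
    (h : ∀ (s : Finset X) (c : X → ℝ), 0 ≤ ∑ a ∈ s, ∑ b ∈ s, c a * c b * K a b) : PK K := by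
  refine ⟨?_, fun x => ?_⟩
  · ext a b
    simp [hs a b]
  · refine (h x.support x).trans (le_of_eq ?_)
    rw [Finsupp.sum]
    refine Finset.sum_congr rfl fun a _ => ?_
    rw [Finsupp.sum]
    refine Finset.sum_congr rfl fun b _ => ?_
    simp
    ring

theorem PK.mul {K L : X → X → ℝ} (hK : PK K) (hL : PK L) : PK fun a b => K a b * L a b :=
  Matrix.PosSemidef.hadamard hK hL

theorem PK.one : PK fun _ _ : X => (1 : ℝ) :=
  PK.of_sum (fun _ _ => rfl) fun s c => by
    have : ∑ a ∈ s, ∑ b ∈ s, c a * c b * 1 = (∑ a ∈ s, c a) ^ 2 := by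
      rw [sq, Finset.sum_mul_sum]
      simp
    rw [this]
    positivity

theorem PK.pow {K : X → X → ℝ} (hK : PK K) (p : ℕ) : PK fun a b => K a b ^ p := by
  induction p with
  | zero => simpa using PK.one
  | succ p ih => simpa only [pow_succ] using ih.mul hK

theorem PK.comap {K : X → X → ℝ} (hK : PK K) (f : Z → X) : PK fun a b => K (f a) (f b) := by
  refine PK.of_sum (fun a b => hK.symm _ _) fun s c => ?_
  classical
  have h := (hK.submatrix f).2 (Finsupp.indicator s fun a _ => c a)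
  have hs : (Finsupp.indicator s fun a _ => c a).support ⊆ s :=
    Finsupp.support_indicator_subset s _
  rw [Finsupp.sum_of_support_subset _ hs _ (by simp)] at h
  refine h.trans (le_of_eq ?_)
  refine Finset.sum_congr rfl fun a ha => ?_
  rw [Finsupp.sum_of_support_subset _ hs _ (by simp)]
  refine Finset.sum_congr rfl fun b hb => ?_
  simp only [Finsupp.indicator_of_mem ha, Finsupp.indicator_of_mem hb]
  simp
  ring

theorem PK.integral {Ω : Type} [MeasurableSpace Ω] {m : Measure Ω} {K : Ω → X → X → ℝ}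
    (h : ∀ᵐ ω ∂m, PK (K ω)) (hi : ∀ a b, Integrable (fun ω => K ω a b) m) :
    PK fun a b => ∫ ω, K ω a b ∂m := by
  refine PK.of_sum (fun a b => ?_) fun s c => ?_
  · refine integral_congr_ae ?_
    filter_upwards [h] with ω hω
    exact hω.symm a b
  · have e : ∑ a ∈ s, ∑ b ∈ s, c a * c b * ∫ ω, K ω a b ∂m =
        ∫ ω, ∑ a ∈ s, ∑ b ∈ s, c a * c b * K ω a b ∂m := by
      rw [integral_finset_sum _ fun a _ => integrable_finset_sum _ fun b _ =>
        (hi a b).const_mul _]
      refine Finset.sum_congr rfl fun a _ => ?_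
      rw [integral_finset_sum _ fun b _ => (hi a b).const_mul _]
      refine Finset.sum_congr rfl fun b _ => ?_
      rw [integral_const_mul]
    rw [e]
    refine integral_nonneg_of_ae ?_
    filter_upwards [h] with ω hω
    exact hω.sum s c

end pk

/-! ### Random frames -/

section frames

variable {k : Type} [NontriviallyNormedField k] [ProperSpace k] {ι κ : Type} [Fintype ι]
  [Fintype κ] [MeasurableSpace k] [BorelSpace k]

theorem sc_of_dat {μ : Measure (κ → k)} [μ.IsAddHaarMeasure] {t : k} {α : ℝ} (h : Dat μ t α) :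
    Sc μ t α := by
  refine ⟨h.one_lt, h.pos, fun S => ?_⟩
  have ht : 0 < ‖t‖ := zero_lt_one.trans h.one_lt
  have e : μ ((fun v => t • v) ⁻¹' S) = μ.map (fun v => t • v) S :=
    ((sm (E := κ → k) t h.ne).toHomeomorph.toMeasurableEquiv.map_apply S).symm
  rw [e, h.map, Measure.smul_apply, smul_eq_mul, mul_comm, ← mul_assoc,
    ← ENNReal.ofReal_mul (by positivity), ← Real.rpow_add ht]
  simp

theorem isOpen_inj : IsOpen {A : Matrix ι κ k | Inj A} := by
  obtain ⟨t, ht⟩ := NormedField.exists_one_lt_norm k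
  rw [isOpen_iff_mem_nhds]
  intro A hA
  obtain ⟨c, hc, h⟩ := norm_ge (A₀ := A) hA t
  filter_upwards [h] with B hB v hv
  by_contra hv0
  obtain ⟨m, hm1, hm2⟩ := exists_mem_Ico_zpow (norm_pos_iff.2 hv0) ht
  have ht0 : 0 < ‖t‖ := zero_lt_one.trans ht
  have hpm : 0 < ‖t‖ ^ m := zpow_pos ht0 m
  have hD : t ^ (-m) • v ∈ D κ t := by
    constructor
    · rw [norm_smul, norm_zpow, _root_.zpow_neg, inv_mul_eq_div, le_div_iff₀ hpm, one_mul]
      exact hm1
    · rw [norm_smul, norm_zpow, _root_.zpow_neg, inv_mul_eq_div, div_lt_iff₀ hpm,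
        ← zpow_one_add₀ ht0.ne', add_comm]
      exact hm2
  have := hB _ hD
  rw [mulVec_smul, hv, smul_zero, norm_zero] at this
  linarith

theorem inj_mul {A : Matrix ι ι k} {B : Matrix ι κ k} (hA : Inj A) (hB : Inj B) : Inj (A * B) := by
  intro v hv
  rw [← mulVec_mulVec] at hv
  exact hB v (hA _ hv)

theorem inj_of_inv [DecidableEq ι] {A A' : Matrix ι ι k} (h : A' * A = 1) : Inj A := by
  intro v hv
  have : (A' * A) *ᵥ v = 0 := by rw [← mulVec_mulVec, hv, mulVec_zero]
  rwa [h, one_mulVec] at this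

variable {Ω : Type} [MeasurableSpace Ω] [TopologicalSpace Ω] [OpensMeasurableSpace Ω]
  [SecondCountableTopology Ω] (m : Measure Ω) (Y : Ω → Matrix ι κ k)

/-- a random frame -/
structure RF : Prop where
  cont : Continuous Y
  inj : ∀ᵐ ω ∂m, Inj (Y ω)

variable {m Y}

theorem KY_aesm (hY : RF m Y) {μ : Measure (κ → k)} [μ.IsAddHaarMeasure] [Nonempty κ] {t : k}
    {α : ℝ} (h : Sc μ t α) {x y : Matrix ι ι k} (hx : Inj x) (hy : Inj y) :
    AEStronglyMeasurable (fun ω => KY μ t α (x * Y ω) (y * Y ω)) m := by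
  have hS : IsOpen {ω | Inj (Y ω)} := isOpen_inj.preimage hY.cont
  have hc : ContinuousOn (fun ω => KY μ t α (x * Y ω) (y * Y ω)) {ω | Inj (Y ω)} := by
    intro ω hω
    have h1 : ContinuousAt (fun ω => (x * Y ω, y * Y ω)) ω :=
      ((continuous_const.matrix_mul hY.cont).prodMk
        (continuous_const.matrix_mul hY.cont)).continuousAt
    exact (ContinuousAt.comp (f := fun ω => (x * Y ω, y * Y ω))
      (KY_cont μ h (inj_mul hx hω) (inj_mul hy hω)) h1).continuousWithinAt
  have h2 := hc.aestronglyMeasurable hS.measurableSet (μ := m)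
  have e : m.restrict {ω | Inj (Y ω)} = m := Measure.restrict_eq_self_of_ae_mem hY.inj
  rwa [e] at h2

/-- the averaged kernel of power `p` -/
noncomputable def kl (μ : Measure (κ → k)) (t : k) (α : ℝ) (m : Measure Ω)
    (Y : Ω → Matrix ι κ k) (p : ℕ) (x y : Matrix ι ι k) : ℝ :=
  ∫ ω, KY μ t α (x * Y ω) (y * Y ω) ^ p ∂m

theorem KY_int (hY : RF m Y) [IsFiniteMeasure m] {μ : Measure (κ → k)} [μ.IsAddHaarMeasure]
    [Nonempty κ] {t : k} {α : ℝ} (h : Sc μ t α) {x y : Matrix ι ι k} (hx : Inj x) (hy : Inj y)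
    (p : ℕ) : Integrable (fun ω => KY μ t α (x * Y ω) (y * Y ω) ^ p) m := by
  refine Integrable.of_bound ((KY_aesm hY h hx hy).pow p) 1 ?_
  filter_upwards [hY.inj] with ω hω
  rw [Real.norm_of_nonneg (pow_nonneg (KY_nonneg _ _ _ _ _) _)]
  exact pow_le_one₀ (KY_nonneg _ _ _ _ _)
    (KY_le_one (dat_of_sc h) (inj_mul hx hω) (inj_mul hy hω))

theorem KY_int' (hY : RF m Y) [IsFiniteMeasure m] {μ : Measure (κ → k)} [μ.IsAddHaarMeasure]
    [Nonempty κ] {t : k} {α : ℝ} (h : Sc μ t α) {x y : Matrix ι ι k} (hx : Inj x) (hy : Inj y)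
    (p : ℕ) : Integrable (fun ω => (1 - KY μ t α (x * Y ω) (y * Y ω)) ^ p) m := by
  refine Integrable.of_bound ((aestronglyMeasurable_const.sub (KY_aesm hY h hx hy)).pow p) 1 ?_
  filter_upwards [hY.inj] with ω hω
  have h1 := KY_le_one (dat_of_sc h) (inj_mul hx hω) (inj_mul hy hω)
  have h0 := KY_nonneg μ t α (x * Y ω) (y * Y ω)
  have h2 : 0 ≤ 1 - KY μ t α (x * Y ω) (y * Y ω) := by linarith
  change ‖(1 - KY μ t α (x * Y ω) (y * Y ω)) ^ p‖ ≤ 1
  rw [Real.norm_of_nonneg (pow_nonneg h2 _)]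
  exact pow_le_one₀ h2 (by linarith)

theorem kl_pk (hY : RF m Y) [IsFiniteMeasure m] {μ : Measure (κ → k)} [μ.IsAddHaarMeasure]
    [Nonempty κ] {t : k} {α : ℝ} (h : Sc μ t α) {X : Type} (f : X → Matrix ι ι k)
    (hf : ∀ a, Inj (f a)) (p : ℕ) : PK fun a b => kl μ t α m Y p (f a) (f b) := by
  refine PK.integral ?_ fun a b => KY_int hY h (hf a) (hf b) p
  filter_upwards [hY.inj] with ω hω
  exact (PK.of_sum (K := fun a b => KY μ t α (f a * Y ω) (f b * Y ω)) (fun a b => KY_symm _ _ _ _ _)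
    fun s c => KY_psd (dat_of_sc h) s _ (fun i => inj_mul (hf i) hω) c).pow p

theorem kl_nonneg (μ : Measure (κ → k)) (t : k) (α : ℝ) (p : ℕ) (x y : Matrix ι ι k) :
    0 ≤ kl μ t α m Y p x y :=
  integral_nonneg fun ω => pow_nonneg (KY_nonneg _ _ _ _ _) _

theorem kl_self (hY : RF m Y) [IsProbabilityMeasure m] {μ : Measure (κ → k)}
    [μ.IsAddHaarMeasure] [Nonempty κ] {t : k} {α : ℝ} (h : Sc μ t α) {x : Matrix ι ι k}
    (hx : Inj x) (p : ℕ) : kl μ t α m Y p x x = 1 := by
  have e : ∫ ω, KY μ t α (x * Y ω) (x * Y ω) ^ p ∂m = ∫ ω, (1 : ℝ) ∂m := by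
    refine integral_congr_ae ?_
    filter_upwards [hY.inj] with ω hω
    rw [KY_self (dat_of_sc h) (inj_mul hx hω), one_pow]
  rw [kl, e]
  simp

theorem kl_le_one (hY : RF m Y) [IsProbabilityMeasure m] {μ : Measure (κ → k)}
    [μ.IsAddHaarMeasure] [Nonempty κ] {t : k} {α : ℝ} (h : Sc μ t α) {x y : Matrix ι ι k}
    (hx : Inj x) (hy : Inj y) (p : ℕ) : kl μ t α m Y p x y ≤ 1 := by
  have e : ∫ ω, KY μ t α (x * Y ω) (y * Y ω) ^ p ∂m ≤ ∫ ω, (1 : ℝ) ∂m := by
    refine integral_mono_ae (KY_int hY h hx hy p) (integrable_const _) ?_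
    filter_upwards [hY.inj] with ω hω
    exact pow_le_one₀ (KY_nonneg _ _ _ _ _)
      (KY_le_one (dat_of_sc h) (inj_mul hx hω) (inj_mul hy hω))
  rw [integral_const, smul_eq_mul, mul_one, probReal_univ] at e
  exact e

/-- the mean of `(1 - κ) ^ q` -/
noncomputable def um (μ : Measure (κ → k)) (t : k) (α : ℝ) (m : Measure Ω)
    (Y : Ω → Matrix ι κ k) (q : ℕ) (x y : Matrix ι ι k) : ℝ :=
  ∫ ω, (1 - KY μ t α (x * Y ω) (y * Y ω)) ^ q ∂m

theorem um_nonneg (hY : RF m Y) [IsFiniteMeasure m] {μ : Measure (κ → k)} [μ.IsAddHaarMeasure]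
    [Nonempty κ] {t : k} {α : ℝ} (h : Sc μ t α) {x y : Matrix ι ι k} (hx : Inj x) (hy : Inj y)
    (q : ℕ) : 0 ≤ um μ t α m Y q x y := by
  refine integral_nonneg_of_ae ?_
  filter_upwards [hY.inj] with ω hω
  have h1 := KY_le_one (dat_of_sc h) (inj_mul hx hω) (inj_mul hy hω)
  exact pow_nonneg (by linarith) _

theorem um_le_one (hY : RF m Y) [IsProbabilityMeasure m] {μ : Measure (κ → k)}
    [μ.IsAddHaarMeasure] [Nonempty κ] {t : k} {α : ℝ} (h : Sc μ t α) {x y : Matrix ι ι k}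
    (hx : Inj x) (hy : Inj y) (q : ℕ) : um μ t α m Y q x y ≤ 1 := by
  have e : um μ t α m Y q x y ≤ ∫ ω, (1 : ℝ) ∂m := by
    refine integral_mono_ae (KY_int' hY h hx hy q) (integrable_const _) ?_
    filter_upwards [hY.inj] with ω hω
    have h1 := KY_le_one (dat_of_sc h) (inj_mul hx hω) (inj_mul hy hω)
    have h0 := KY_nonneg μ t α (x * Y ω) (y * Y ω)
    exact pow_le_one₀ (by linarith) (by linarith)
  simpa using e

/-- Bernoulli: `1 - q ∫ κ ≤ um` -/
theorem um_ge (hY : RF m Y) [IsProbabilityMeasure m] {μ : Measure (κ → k)}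
    [μ.IsAddHaarMeasure] [Nonempty κ] {t : k} {α : ℝ} (h : Sc μ t α) {x y : Matrix ι ι k}
    (hx : Inj x) (hy : Inj y) (q : ℕ) : 1 - q * kl μ t α m Y 1 x y ≤ um μ t α m Y q x y := by
  have e : ∫ ω, (1 - q * KY μ t α (x * Y ω) (y * Y ω) ^ 1) ∂m ≤ um μ t α m Y q x y := by
    refine integral_mono_ae ((integrable_const _).sub ((KY_int hY h hx hy 1).const_mul _))
      (KY_int' hY h hx hy q) ?_
    filter_upwards [hY.inj] with ω hω
    have h1 := KY_le_one (dat_of_sc h) (inj_mul hx hω) (inj_mul hy hω)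
    have h0 := KY_nonneg μ t α (x * Y ω) (y * Y ω)
    have := one_add_mul_le_pow (a := -KY μ t α (x * Y ω) (y * Y ω)) (by linarith) q
    change 1 - q * KY μ t α (x * Y ω) (y * Y ω) ^ 1 ≤ (1 - KY μ t α (x * Y ω) (y * Y ω)) ^ q
    rw [pow_one]
    calc 1 - q * KY μ t α (x * Y ω) (y * Y ω) = 1 + q * -KY μ t α (x * Y ω) (y * Y ω) := by ring
      _ ≤ _ := this
      _ = _ := by rw [← sub_eq_add_neg]
  rw [integral_sub (integrable_const _) ((KY_int hY h hx hy 1).const_mul _),
    integral_const_mul] at e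
  simpa [kl] using e

/-- `um` is a combination of the kernels `kl p` -/
theorem um_eq (hY : RF m Y) [IsFiniteMeasure m] {μ : Measure (κ → k)} [μ.IsAddHaarMeasure]
    [Nonempty κ] {t : k} {α : ℝ} (h : Sc μ t α) {x y : Matrix ι ι k} (hx : Inj x) (hy : Inj y)
    (q : ℕ) : um μ t α m Y q x y =
      ∑ p ∈ Finset.range (q + 1), (-1) ^ p * (q.choose p : ℝ) * kl μ t α m Y p x y := by
  have e : ∀ ω, (1 - KY μ t α (x * Y ω) (y * Y ω)) ^ q =
      ∑ p ∈ Finset.range (q + 1), (-1) ^ p * (q.choose p : ℝ) *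
        KY μ t α (x * Y ω) (y * Y ω) ^ p := by
    intro ω
    rw [sub_eq_add_neg, add_comm, add_pow]
    refine Finset.sum_congr rfl fun p _ => ?_
    rw [neg_pow, one_pow]
    ring
  rw [um]
  simp_rw [e]
  rw [integral_finset_sum _ fun p _ => (KY_int hY h hx hy p).const_mul _]
  refine Finset.sum_congr rfl fun p _ => ?_
  rw [integral_const_mul]
  rfl

end frames

end Vale.Agent.P092.H100.Ker
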