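import Vale.Agent.P092.H100.Ker3

/-!
P092 (helper100), Team N, block [N-GAPB]: the test functions of the two sides and their combination
(abstract part).
-/

set_option linter.all false

open MeasureTheory Filter Topology Set

namespace Vale.Agent.P092.H100.Ker

section abs

variable {X : Type}

theorem PK.abs_le {K : X → X → ℝ} (hK : PK K) (h1 : ∀ a, K a a ≤ 1) (a b : X) : |K a b| ≤ 1 := by
  classical
  by_cases hab : a = b
  · subst hab
    have h0 := hK.sum {a} fun _ => 1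
    simp at h0
    rw [abs_of_nonneg h0]
    exact h1 a
  · have hp := hK.sum {a, b} fun _ => 1
    have hm := hK.sum {a, b} fun x => if x = a then 1 else -1
    rw [Finset.sum_pair hab, Finset.sum_pair hab, Finset.sum_pair hab] at hp hm
    have hba : ¬ b = a := fun h => hab h.symm
    simp only [if_true, hba, if_false] at hp hm
    have hs := hK.symm a b
    have ha := h1 a
    have hb := h1 b
    rw [_root_.abs_le]
    constructor <;> linarith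

end abs

variable {Γ J : Type} [Group Γ]

/-- an admissible kernel: positive semidefinite, at most one on the diagonal, and asymptotically
invariant when the gap `i₀` is large -/
structure Ad (gap : J → Γ → ℝ) (i₀ : J) (e : Γ → Γ → ℝ) : Prop where
  pk : PK e
  one : ∀ g, e g g ≤ 1
  ri : ∀ f x y : Γ, ∀ δ : ℝ, 0 < δ → ∃ T : ℝ, ∀ g, T ≤ gap i₀ g →
    |e (f⁻¹ * g⁻¹ * x) (f⁻¹ * g⁻¹ * y) - e (g⁻¹ * x) (g⁻¹ * y)| ≤ δ

theorem Ad.const (gap : J → Γ → ℝ) (i₀ : J) : Ad gap i₀ fun _ _ => 1 where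
  pk := PK.one
  one _ := le_rfl
  ri f x y δ hδ := ⟨0, fun g _ => by simp [hδ.le]⟩

theorem Ad.mul {gap : J → Γ → ℝ} {i₀ : J} {e e' : Γ → Γ → ℝ} (h : Ad gap i₀ e)
    (h' : Ad gap i₀ e') : Ad gap i₀ fun a b => e a b * e' a b where
  pk := h.pk.mul h'.pk
  one g := by
    have h1 := _root_.abs_le.1 (h.pk.abs_le h.one g g)
    have h2 := _root_.abs_le.1 (h'.pk.abs_le h'.one g g)
    have h3 : 0 ≤ e g g := by
      have := h.pk.sum {g} fun _ => 1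
      simpa using this
    have h4 : 0 ≤ e' g g := by
      have := h'.pk.sum {g} fun _ => 1
      simpa using this
    exact mul_le_one₀ h1.2 h4 h2.2
  ri f x y δ hδ := by
    obtain ⟨T, hT⟩ := h.ri f x y (δ / 2) (half_pos hδ)
    obtain ⟨T', hT'⟩ := h'.ri f x y (δ / 2) (half_pos hδ)
    refine ⟨max T T', fun g hg => ?_⟩
    have a1 := hT g ((le_max_left _ _).trans hg)
    have a2 := hT' g ((le_max_right _ _).trans hg)
    have b1 := h'.pk.abs_le h'.one (f⁻¹ * g⁻¹ * x) (f⁻¹ * g⁻¹ * y)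
    have b2 := h.pk.abs_le h.one (g⁻¹ * x) (g⁻¹ * y)
    obtain ⟨u, hu⟩ : ∃ u, u = e (f⁻¹ * g⁻¹ * x) (f⁻¹ * g⁻¹ * y) := ⟨_, rfl⟩
    obtain ⟨v, hv⟩ : ∃ v, v = e (g⁻¹ * x) (g⁻¹ * y) := ⟨_, rfl⟩
    obtain ⟨u', hu'⟩ : ∃ u', u' = e' (f⁻¹ * g⁻¹ * x) (f⁻¹ * g⁻¹ * y) := ⟨_, rfl⟩
    obtain ⟨v', hv'⟩ : ∃ v', v' = e' (g⁻¹ * x) (g⁻¹ * y) := ⟨_, rfl⟩
    rw [← hu, ← hv] at a1
    rw [← hu', ← hv'] at a2
    rw [← hu'] at b1
    rw [← hv] at b2
    rw [← hu, ← hv, ← hu', ← hv']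
    calc |u * u' - v * v'| = |(u - v) * u' + v * (u' - v')| := by ring_nf
      _ ≤ |(u - v) * u'| + |v * (u' - v')| := abs_add_le _ _
      _ = |u - v| * |u'| + |v| * |u' - v'| := by rw [abs_mul, abs_mul]
      _ ≤ (δ / 2) * 1 + 1 * (δ / 2) := by gcongr
      _ = δ := by ring

/-- the mean of `(1 - κ) ^ q` in terms of the kernels -/
noncomputable def UU (e : ℕ → Γ → Γ → ℝ) (q : ℕ) (g : Γ) : ℝ :=
  ∑ p ∈ Finset.range (q + 1), (-1) ^ p * (q.choose p : ℝ) * e p g⁻¹ 1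

/-- one side -/
structure Sd (gap : J → Γ → ℝ) (i₀ : J) (X : Set J) (e : ℕ → Γ → Γ → ℝ) : Prop where
  ad : ∀ p, Ad gap i₀ (e p)
  u0 : ∀ q g, 0 ≤ UU e q g
  u1 : ∀ q g, UU e q g ≤ 1
  lo : ∀ ε : ℝ, 0 < ε → ∀ R0 : ℝ, ∃ q0 : ℕ, ∀ q, q0 ≤ q → ∀ g, (∀ x ∈ X, gap x g < R0) →
    UU e q g ≤ ε
  up : ∀ ε : ℝ, 0 < ε → ∀ q : ℕ, ∃ R1 : ℝ, ∀ g, (∃ x ∈ X, R1 ≤ gap x g) → 1 - ε ≤ UU e q g

/-- **The test functions** -/
theorem test {gap : J → Γ → ℝ} {i₀ : J} {X X' : Set J} {e e' : ℕ → Γ → Γ → ℝ}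
    (hL : Sd gap i₀ X e) (hR : Sd gap i₀ X' e') (hX : X.Nonempty) (hX' : X'.Nonempty)
    {ε : ℝ} (hε : 0 < ε) (R0 : ℝ) :
    ∃ (I : Type) (_ : Fintype I) (c : I → ℝ) (K : I → Γ → Γ → ℝ), (∀ i, Ad gap i₀ (K i)) ∧
      (∀ g, 0 ≤ ∑ i, c i * K i g⁻¹ 1 ∧ ∑ i, c i * K i g⁻¹ 1 ≤ 1) ∧
      (∀ g, ((∀ x ∈ X, gap x g < R0) ∨ (∀ x ∈ X', gap x g < R0)) →
        1 - ε ≤ ∑ i, c i * K i g⁻¹ 1) ∧
      ∃ R1 : ℝ, ∀ g, (∀ x, R1 ≤ gap x g) → ∑ i, c i * K i g⁻¹ 1 ≤ ε := by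
  obtain ⟨q1, hq1⟩ := hL.lo ε hε R0
  obtain ⟨q2, hq2⟩ := hR.lo ε hε R0
  obtain ⟨q, hq⟩ : ∃ q, q = max q1 q2 := ⟨_, rfl⟩
  obtain ⟨R1, hR1⟩ := hL.up (ε / 2) (half_pos hε) q
  obtain ⟨R2, hR2⟩ := hR.up (ε / 2) (half_pos hε) q
  have key : ∀ g, ∑ i : Option (Fin (q + 1) × Fin (q + 1)),
      (match i with
        | none => (1 : ℝ)
        | some p => -((-1) ^ (p.1 : ℕ) * (q.choose p.1 : ℝ) * ((-1) ^ (p.2 : ℕ) *
          (q.choose p.2 : ℝ)))) *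
      (match i with
        | none => fun _ _ => (1 : ℝ)
        | some p => fun a b => e p.1 a b * e' p.2 a b : Γ → Γ → ℝ) g⁻¹ 1 =
      1 - UU e q g * UU e' q g := by
    intro g
    rw [Fintype.sum_option, Fintype.sum_prod_type]
    simp only [mul_one]
    rw [UU, UU, Finset.sum_range, Finset.sum_range, Finset.sum_mul_sum, sub_eq_add_neg,
      ← Finset.sum_neg_distrib]
    congr 1
    refine Finset.sum_congr rfl fun a _ => ?_
    rw [← Finset.sum_neg_distrib]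
    refine Finset.sum_congr rfl fun b _ => ?_
    ring
  refine ⟨Option (Fin (q + 1) × Fin (q + 1)), inferInstance, fun i => match i with
    | none => (1 : ℝ)
    | some p => -((-1) ^ (p.1 : ℕ) * (q.choose p.1 : ℝ) * ((-1) ^ (p.2 : ℕ) *
      (q.choose p.2 : ℝ))), fun i => match i with
    | none => fun _ _ => (1 : ℝ)
    | some p => fun a b => e p.1 a b * e' p.2 a b, ?_, ?_, ?_, ?_⟩
  · intro i
    match i with
    | none => exact Ad.const gap i₀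
    | some p => exact (hL.ad _).mul (hR.ad _)
  · intro g
    rw [key g]
    have a0 := hL.u0 q g
    have a1 := hL.u1 q g
    have b0 := hR.u0 q g
    have b1 := hR.u1 q g
    constructor <;> nlinarith
  · intro g hg
    rw [key g]
    have a0 := hL.u0 q g
    have a1 := hL.u1 q g
    have b0 := hR.u0 q g
    have b1 := hR.u1 q g
    rcases hg with h | h
    · have := hq1 q (hq ▸ le_max_left _ _) g h
      nlinarith
    · have := hq2 q (hq ▸ le_max_right _ _) g h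
      nlinarith
  · refine ⟨max R1 R2, fun g hg => ?_⟩
    rw [key g]
    obtain ⟨x, hx⟩ := hX
    obtain ⟨x', hx'⟩ := hX'
    have a := hR1 g ⟨x, hx, (le_max_left _ _).trans (hg x)⟩
    have b := hR2 g ⟨x', hx', (le_max_right _ _).trans (hg x')⟩
    have a1 := hL.u1 q g
    have b1 := hR.u1 q g
    have a0 := hL.u0 q g
    nlinarith

end Vale.Agent.P092.H100.Ker
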