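import Vale.Agent.P092.H100.Ker4
import Vale.Agent.P092.H87.Tst
import Vale.Agent.P092.H221.GapsC

/-!
P092 (helper100), Team N, block [N-GAPB]: one side of the kernels on `Γ`.
-/

set_option linter.all false

open MeasureTheory Filter Topology Set Matrix
open scoped ENNReal NNReal

namespace Vale.Agent.P092.H100.Ker

open Vale.Agent.P092.H541.Hel (D Sc PR NR KY KY_smul KY_smul')
open Vale.Agent.P092.H85.Ker (Inj KY_cont)
open Vale.Agent.P092.H87.Contr (Frm mY frm_mY Gf Dec con upper_m)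
open Vale.Agent.P092.H534.GK (Crt)
open Vale.Agent.P092.H221.GapsC (lg)

variable {k : Type} [NontriviallyNormedField k] [ProperSpace k] [MeasurableSpace k]
  [BorelSpace k] {n j : ℕ}

/-- the random frame -/
abbrev fr (k : Type) [NontriviallyNormedField k] (n j : ℕ) :
    (Fin n → Fin j → k) → Matrix (Fin n) (Fin j) k := fun Y => Matrix.of Y

omit [MeasurableSpace k] [BorelSpace k] in
theorem inj_of_mem {Y : Matrix (Fin n) (Fin j) k} (h : Y ∈ H87.Contr.Inj k n j) : Inj Y := by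
  obtain ⟨L, hL⟩ := h
  intro v hv
  have : (L * Y) *ᵥ v = 0 := by rw [← mulVec_mulVec, hv, mulVec_zero]
  rwa [hL, one_mulVec] at this

theorem rf (hj : j ≤ n) {m : Measure (Fin n → Fin j → k)} (hm : Frm hj m) :
    RF m (fr k n j) := by
  refine ⟨continuous_id, ?_⟩
  filter_upwards [H87.Contr.ae_inj hm (A := 1) (A' := 1) (Matrix.mul_one 1)] with Y hY
  rw [Matrix.one_mul] at hY
  exact inj_of_mem hY

omit [ProperSpace k] [MeasurableSpace k] [BorelSpace k] in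
theorem inv_of_det {A : Matrix (Fin n) (Fin n) k} (h : A.det ≠ 0) : A⁻¹ * A = 1 ∧ A * A⁻¹ = 1 :=
  ⟨nonsing_inv_mul _ (isUnit_iff_ne_zero.2 h), mul_nonsing_inv _ (isUnit_iff_ne_zero.2 h)⟩

omit [MeasurableSpace k] [BorelSpace k] in
theorem inj_of_det {A : Matrix (Fin n) (Fin n) k} (h : A.det ≠ 0) : Inj A := by
  intro v hv
  have h1 : (A⁻¹ * A) *ᵥ v = 0 := by rw [← mulVec_mulVec, hv, mulVec_zero]
  rwa [(inv_of_det h).1, one_mulVec] at h1

section one

variable {μ : Measure (Fin j → k)} [μ.IsAddHaarMeasure] [Nonempty (Fin j)] {t : k} {α : ℝ}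

theorem gf (h : Sc μ t α) {A B : Matrix (Fin n) (Fin n) k} (hA : A.det ≠ 0) (hB : B.det ≠ 0)
    (p : ℕ) : Gf fun Z : Matrix (Fin n) (Fin j) k => KY μ t α (A * Z) (B * Z) ^ p where
  le Y hY := by
    have hY' := inj_of_mem hY
    have h0 := KY_nonneg μ t α (A * Y) (B * Y)
    have h1 := KY_le_one (dat_of_sc h) (inj_mul (inj_of_det hA) hY') (inj_mul (inj_of_det hB) hY')
    rw [abs_of_nonneg (pow_nonneg h0 _)]
    exact pow_le_one₀ h0 h1
  cont := by
    intro Y hY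
    have hY' := inj_of_mem hY
    have h1 : ContinuousAt (fun Z : Matrix (Fin n) (Fin j) k => (A * Z, B * Z)) Y :=
      ((continuous_const.matrix_mul continuous_id).prodMk
        (continuous_const.matrix_mul continuous_id)).continuousAt
    exact ((ContinuousAt.comp (f := fun Z : Matrix (Fin n) (Fin j) k => (A * Z, B * Z))
      (KY_cont μ h (inj_mul (inj_of_det hA) hY') (inj_mul (inj_of_det hB) hY'))
      h1).pow p).continuousWithinAt
  inv Y hY g g' hg := by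
    change KY μ t α (A * (Y * g)) (B * (Y * g)) ^ p = KY μ t α (A * Y) (B * Y) ^ p
    rw [← Matrix.mul_assoc, ← Matrix.mul_assoc, KY_comp (dat_of_sc h) hg]

theorem kl_smul (m : Measure (Fin n → Fin j → k)) {c d : k} (hc : c ≠ 0) (hd : d ≠ 0) (p : ℕ)
    (A B : Matrix (Fin n) (Fin n) k) :
    kl μ t α m (fr k n j) p (c • A) (d • B) = kl μ t α m (fr k n j) p A B := by
  unfold kl
  refine integral_congr_ae (Eventually.of_forall fun Y => ?_)
  change KY μ t α (c • A * fr k n j Y) (d • B * fr k n j Y) ^ p = _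
  rw [Matrix.smul_mul, Matrix.smul_mul, KY_smul hc, KY_smul' hd]

/-- asymptotic invariance on one side -/
theorem ri1 {hj : j ≤ n} {m : Measure (Fin n → Fin j → k)} (hm : Frm hj m) (h : Sc μ t α)
    {A B f : Matrix (Fin n) (Fin n) k} (hA : A.det ≠ 0) (hB : B.det ≠ 0) (hf : f.det ≠ 0) (p : ℕ)
    {δ : ℝ} (hδ : 0 < δ) : ∃ T : ℝ, 0 < T ∧ ∀ (g : Matrix (Fin n) (Fin n) k) (a : Fin n → k)
      (U U' V V' : Matrix (Fin n) (Fin n) k), Crt g a U U' V V' → g.det ≠ 0 →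
        (∀ i l : Fin n, (i : ℕ) < j → j ≤ (l : ℕ) → T * ‖a l‖ ≤ ‖a i‖) →
        |kl μ t α m (fr k n j) p (A * g * f) (B * g * f) -
          kl μ t α m (fr k n j) p (A * g) (B * g)| ≤ δ := by
  obtain ⟨T, hT, H⟩ := con hm (gf h hA hB p) 1 (inv_of_det hf).2 hδ
  refine ⟨T, hT, fun g a U U' V V' hc hd hgap => ?_⟩
  have := H g a U U' V V' ⟨hc.hU, hc.hU', hc.hV, hc.hV', hc.uu, hc.vv, hc.ne hd, hgap, hc.eq⟩
  convert this using 3
  · unfold kl
    refine integral_congr_ae (Eventually.of_forall fun Y => ?_)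
    change KY μ t α (A * g * f * Matrix.of Y) (B * g * f * Matrix.of Y) ^ p =
      KY μ t α (A * (g * f * Matrix.of Y)) (B * (g * f * Matrix.of Y)) ^ p
    simp only [Matrix.mul_assoc]
  · unfold kl
    refine integral_congr_ae (Eventually.of_forall fun Y => ?_)
    change KY μ t α (A * g * Matrix.of Y) (B * g * Matrix.of Y) ^ p =
      KY μ t α (A * (g * Matrix.of Y)) (B * (g * Matrix.of Y)) ^ p
    simp only [Matrix.mul_assoc]

/-- `um` is small when `κ ≥ δ` off a small set -/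
theorem um_small {hj : j ≤ n} {m : Measure (Fin n → Fin j → k)} (hm : Frm hj m) (h : Sc μ t α)
    {g : Matrix (Fin n) (Fin n) k} (hg : g.det ≠ 0) {δ η : ℝ} (hδ : 0 < δ) (hδ1 : δ ≤ 1)
    (hη : 0 ≤ η)
    (hs : m {Y | KY μ t α (g * Matrix.of Y) (Matrix.of Y) < δ} ≤ ENNReal.ofReal η) (q : ℕ) :
    um μ t α m (fr k n j) q g 1 ≤ η + (1 - δ) ^ q := by
  have hprob := hm.prob
  have hrf := rf hj hm
  have hI : Inj g := inj_of_det hg
  have h1 : Inj (1 : Matrix (Fin n) (Fin n) k) := inj_of_inv (Matrix.mul_one 1)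
  have haes := KY_aesm hrf h hI h1
  obtain ⟨S, hS⟩ : ∃ S, S = {Y : Fin n → Fin j → k |
    KY μ t α (g * Matrix.of Y) (Matrix.of Y) < δ} := ⟨_, rfl⟩
  have hSn : NullMeasurableSet S m := by
    rw [hS]
    have h2 : AEMeasurable (fun Y : Fin n → Fin j → k =>
        KY μ t α (g * Matrix.of Y) (Matrix.of Y)) m := by
      have := haes.aemeasurable
      simpa only [Matrix.one_mul] using this
    exact nullMeasurableSet_lt h2 aemeasurable_const
  have hle : um μ t α m (fr k n j) q g 1 ≤ ∫ Y, (S.indicator (fun _ => (1 : ℝ)) Y + (1 - δ) ^ q) ∂m := by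
    unfold um
    refine integral_mono_ae (KY_int' hrf h hI h1 q) ?_ ?_
    · exact ((integrable_const (1 : ℝ)).indicator₀ hSn).add (integrable_const _)
    · filter_upwards [hrf.inj] with Y hY
      have b0 := KY_nonneg μ t α (g * fr k n j Y) ((1 : Matrix (Fin n) (Fin n) k) * fr k n j Y)
      have b1 := KY_le_one (dat_of_sc h) (inj_mul hI hY) (inj_mul h1 hY)
      change (1 - KY μ t α (g * fr k n j Y) ((1 : Matrix (Fin n) (Fin n) k) * fr k n j Y)) ^ q ≤ _
      by_cases hYS : Y ∈ S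
      · rw [indicator_of_mem hYS]
        have : (1 - KY μ t α (g * fr k n j Y) ((1 : Matrix (Fin n) (Fin n) k) * fr k n j Y)) ^ q ≤ 1 :=
          pow_le_one₀ (by linarith) (by linarith)
        have h3 : 0 ≤ (1 - δ) ^ q := pow_nonneg (by linarith) _
        linarith
      · rw [indicator_of_notMem hYS, zero_add]
        have hge : δ ≤ KY μ t α (g * fr k n j Y) ((1 : Matrix (Fin n) (Fin n) k) * fr k n j Y) := by
          rw [hS, mem_setOf_eq, not_lt] at hYS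
          rw [Matrix.one_mul]
          exact hYS
        exact pow_le_pow_left₀ (by linarith) (by linarith) _
  refine hle.trans ?_
  rw [integral_add ((integrable_const (1 : ℝ)).indicator₀ hSn) (integrable_const _),
    integral_indicator₀ hSn, integral_const, integral_const]
  simp only [smul_eq_mul, mul_one, probReal_univ, one_mul]
  rw [measureReal_restrict_apply_univ]
  have : m.real S ≤ η := by
    rw [Measure.real]
    refine ENNReal.toReal_le_of_le_ofReal hη ?_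
    rw [hS]
    exact hs
  linarith

/-- `∫ κ` is small when `κ ≤ ε` off a small set -/
theorem kl_small {hj : j ≤ n} {m : Measure (Fin n → Fin j → k)} (hm : Frm hj m) (h : Sc μ t α)
    {g : Matrix (Fin n) (Fin n) k} (hg : g.det ≠ 0) {ε η : ℝ} (hε : 0 ≤ ε)
    (hη : 0 ≤ η)
    (hs : m {Y | ε < KY μ t α (g * Matrix.of Y) (Matrix.of Y)} ≤ ENNReal.ofReal η) :
    kl μ t α m (fr k n j) 1 g 1 ≤ η + ε := by
  have hprob := hm.prob
  have hrf := rf hj hm
  have hI : Inj g := inj_of_det hg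
  have h1 : Inj (1 : Matrix (Fin n) (Fin n) k) := inj_of_inv (Matrix.mul_one 1)
  have haes := KY_aesm hrf h hI h1
  obtain ⟨S, hS⟩ : ∃ S, S = {Y : Fin n → Fin j → k |
    ε < KY μ t α (g * Matrix.of Y) (Matrix.of Y)} := ⟨_, rfl⟩
  have hSn : NullMeasurableSet S m := by
    rw [hS]
    have h2 : AEMeasurable (fun Y : Fin n → Fin j → k =>
        KY μ t α (g * Matrix.of Y) (Matrix.of Y)) m := by
      have := haes.aemeasurable
      simpa only [Matrix.one_mul] using this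
    exact nullMeasurableSet_lt aemeasurable_const h2
  have hle : kl μ t α m (fr k n j) 1 g 1 ≤ ∫ Y, (S.indicator (fun _ => (1 : ℝ)) Y + ε) ∂m := by
    unfold kl
    refine integral_mono_ae (KY_int hrf h hI h1 1) ?_ ?_
    · exact ((integrable_const (1 : ℝ)).indicator₀ hSn).add (integrable_const _)
    · filter_upwards [hrf.inj] with Y hY
      have b0 := KY_nonneg μ t α (g * fr k n j Y) ((1 : Matrix (Fin n) (Fin n) k) * fr k n j Y)
      have b1 := KY_le_one (dat_of_sc h) (inj_mul hI hY) (inj_mul h1 hY)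
      change KY μ t α (g * fr k n j Y) ((1 : Matrix (Fin n) (Fin n) k) * fr k n j Y) ^ 1 ≤ _
      rw [pow_one]
      by_cases hYS : Y ∈ S
      · rw [indicator_of_mem hYS]
        linarith
      · rw [indicator_of_notMem hYS, zero_add]
        rw [hS, mem_setOf_eq, not_lt] at hYS
        rw [Matrix.one_mul]
        exact hYS
  refine hle.trans ?_
  rw [integral_add ((integrable_const (1 : ℝ)).indicator₀ hSn) (integrable_const _),
    integral_indicator₀ hSn, integral_const, integral_const]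
  simp only [smul_eq_mul, mul_one, probReal_univ, one_mul]
  rw [measureReal_restrict_apply_univ]
  have : m.real S ≤ η := by
    rw [Measure.real]
    refine ENNReal.toReal_le_of_le_ofReal hη ?_
    rw [hS]
    exact hs
  linarith

end one

/-! ### The kernels on `Γ` -/

section group

variable {Γ : Type} [Group Γ]

omit [MeasurableSpace k] [BorelSpace k] in
/-- an antihomomorphism up to scalars -/
structure Arp (P : Γ → Matrix (Fin n) (Fin n) k) : Prop where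
  det : ∀ g, (P g).det ≠ 0
  mul : ∀ g h, ∃ c : k, c ≠ 0 ∧ P (g * h) = c • (P h * P g)

omit [MeasurableSpace k] [BorelSpace k] in
theorem Arp.one {P : Γ → Matrix (Fin n) (Fin n) k} (hP : Arp P) :
    ∃ c : k, c ≠ 0 ∧ P 1 = c • 1 := by
  obtain ⟨c, hc, h⟩ := hP.mul 1 1
  rw [mul_one] at h
  have hi := inv_of_det (hP.det 1)
  refine ⟨c⁻¹, inv_ne_zero hc, ?_⟩
  have h2 : (P 1)⁻¹ * P 1 = c • ((P 1)⁻¹ * P 1 * P 1) := by
    have h3 := congrArg (fun M => (P 1)⁻¹ * M) h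
    change (P 1)⁻¹ * P 1 = (P 1)⁻¹ * (c • (P 1 * P 1)) at h3
    refine h3.trans ?_
    rw [Matrix.mul_smul, Matrix.mul_assoc]
  rw [hi.1, Matrix.one_mul] at h2
  rw [h2, smul_smul, inv_mul_cancel₀ hc, one_smul]

omit [MeasurableSpace k] [BorelSpace k] in
theorem Arp.three {P : Γ → Matrix (Fin n) (Fin n) k} (hP : Arp P) (f g x : Γ) :
    ∃ c : k, c ≠ 0 ∧ P (f * g * x) = c • (P x * P g * P f) := by
  obtain ⟨c, hc, h1⟩ := hP.mul (f * g) x
  obtain ⟨d, hd, h2⟩ := hP.mul f g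
  refine ⟨c * d, mul_ne_zero hc hd, ?_⟩
  rw [h1, h2, Matrix.mul_smul, smul_smul, Matrix.mul_assoc]

omit [MeasurableSpace k] [BorelSpace k] in
theorem lg_sum (a : Fin n → k) (i : ℕ) (hi : i < n) :
    Real.log ‖a ⟨0, by omega⟩‖ - Real.log ‖a ⟨i, hi⟩‖ =
      ∑ x : Fin i, lg a ⟨x, by have := x.2; omega⟩ := by
  induction i with
  | zero => simp
  | succ i ih =>
    rw [Fin.sum_univ_castSucc]
    have := ih (by omega)
    simp only [Fin.val_castSucc, Fin.val_last]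
    rw [← this, lg]
    ring

/-- **One side.** -/
theorem side {hj : j ≤ n} {m : Measure (Fin n → Fin j → k)} (hm : Frm hj m)
    {μ : Measure (Fin j → k)} [μ.IsAddHaarMeasure] {t : k} {α : ℝ}
    (h : Sc μ t α) {P : Γ → Matrix (Fin n) (Fin n) k} (hP : Arp P) {gap : Fin (n - 1) → Γ → ℝ}
    {c C : ℝ} (hc : 0 < c)
    (hcrt : ∀ g, ∃ a U U' V V', Crt (P g⁻¹) a U U' V V' ∧
      ∀ i : Fin (n - 1), |gap i g - c * lg a i| ≤ C) (i₀ : Fin (n - 1)) (hi : (i₀ : ℕ) + 1 = j) :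
    Sd gap i₀ {x | x < i₀} fun p g g' => kl μ t α m (fr k n j) p (P g) (P g') := by
  classical
  haveI : Nonempty (Fin j) := ⟨⟨0, by omega⟩⟩
  have hprob := hm.prob
  have hrf := rf hj hm
  have hPI : ∀ g, Inj (P g) := fun g => inj_of_det (hP.det g)
  have h1I : Inj (1 : Matrix (Fin n) (Fin n) k) := inj_of_inv (Matrix.mul_one 1)
  obtain ⟨c1, hc1, hP1⟩ := hP.one
  have hU : ∀ q g, UU (fun p g g' => kl μ t α m (fr k n j) p (P g) (P g')) q g =
      um μ t α m (fr k n j) q (P g⁻¹) 1 := by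
    intro q g
    rw [um_eq hrf h (hPI _) h1I, UU]
    refine Finset.sum_congr rfl fun p _ => ?_
    congr 1
    change kl μ t α m (fr k n j) p (P g⁻¹) (P 1) = _
    rw [hP1]
    have := kl_smul (μ := μ) (t := t) (α := α) m (one_ne_zero (α := k)) hc1 p (P g⁻¹) 1
    rwa [one_smul] at this
  have hn : (i₀ : ℕ) + 1 < n := by have := i₀.2; omega
  refine ⟨fun p => ⟨kl_pk hrf h P hPI p, fun g => (kl_self hrf h (hPI g) p).le, ?_⟩, ?_, ?_, ?_, ?_⟩
  · intro f x y δ hδ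
    obtain ⟨T, hT, H⟩ := ri1 hm h (hP.det x) (hP.det y) (hP.det f⁻¹) p hδ
    refine ⟨c * Real.log T + C, fun g hg => ?_⟩
    obtain ⟨a, U, U', V, V', hcr, hga⟩ := hcrt g
    have hane := hcr.ne (hP.det _)
    have e1 : c * Real.log T ≤ c * lg a i₀ := by
      have := (abs_le.1 (hga i₀)).2
      linarith
    have e2 : Real.log T ≤ lg a i₀ := le_of_mul_le_mul_left e1 hc
    have hgap : ∀ i l : Fin n, (i : ℕ) < j → j ≤ (l : ℕ) → T * ‖a l‖ ≤ ‖a i‖ := by
      intro i l hij hjl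
      have p1 : 0 < ‖a ⟨(i₀ : ℕ) + 1, hn⟩‖ := norm_pos_iff.2 (hane _)
      have p0 : 0 < ‖a ⟨(i₀ : ℕ), by omega⟩‖ := norm_pos_iff.2 (hane _)
      have e3 : Real.log (T * ‖a ⟨(i₀ : ℕ) + 1, hn⟩‖) ≤ Real.log ‖a ⟨(i₀ : ℕ), by omega⟩‖ := by
        rw [Real.log_mul hT.ne' p1.ne']
        unfold H221.GapsC.lg at e2
        linarith
      have e4 := (Real.log_le_log_iff (by positivity) p0).1 e3
      have a1 : ‖a l‖ ≤ ‖a ⟨(i₀ : ℕ) + 1, hn⟩‖ := hcr.anti (Fin.mk_le_of_le_val (by omega))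
      have a2 : ‖a ⟨(i₀ : ℕ), by omega⟩‖ ≤ ‖a i‖ := hcr.anti (by
        rw [Fin.le_def]; change (i : ℕ) ≤ (i₀ : ℕ); omega)
      calc T * ‖a l‖ ≤ T * ‖a ⟨(i₀ : ℕ) + 1, hn⟩‖ := by gcongr
        _ ≤ _ := e4
        _ ≤ _ := a2
    have key := H (P g⁻¹) a U U' V V' hcr (hP.det _) hgap
    obtain ⟨s1, hs1, q1⟩ := hP.three f⁻¹ g⁻¹ x
    obtain ⟨s2, hs2, q2⟩ := hP.three f⁻¹ g⁻¹ y
    obtain ⟨s3, hs3, q3⟩ := hP.mul g⁻¹ x
    obtain ⟨s4, hs4, q4⟩ := hP.mul g⁻¹ y
    change |kl μ t α m (fr k n j) p (P (f⁻¹ * g⁻¹ * x)) (P (f⁻¹ * g⁻¹ * y)) -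
      kl μ t α m (fr k n j) p (P (g⁻¹ * x)) (P (g⁻¹ * y))| ≤ δ
    rw [q1, q2, q3, q4, kl_smul m hs1 hs2, kl_smul m hs3 hs4]
    exact key
  · intro q g
    rw [hU]
    exact um_nonneg hrf h (hPI _) h1I q
  · intro q g
    rw [hU]
    exact um_le_one hrf h (hPI _) h1I q
  · intro ε hε R0
    obtain ⟨ρ, hρ⟩ : ∃ ρ : ℝ, ρ = max ((R0 + C) / c) 0 := ⟨_, rfl⟩
    have hρ0 : 0 ≤ ρ := hρ ▸ le_max_right _ _
    obtain ⟨δ, hδ, H⟩ := H87.Contr.lower hm h 1 (Real.exp (n * ρ)) (half_pos hε)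
    obtain ⟨δ', hδ'⟩ : ∃ δ' : ℝ, δ' = min δ (1 / 2) := ⟨_, rfl⟩
    have hδ'0 : 0 < δ' := by rw [hδ']; exact lt_min hδ (by norm_num)
    have hδ'1 : δ' ≤ 1 / 2 := hδ' ▸ min_le_right _ _
    have ht : Tendsto (fun q : ℕ => (1 - δ') ^ q) atTop (𝓝 0) :=
      tendsto_pow_atTop_nhds_zero_of_lt_one (by linarith) (by linarith)
    obtain ⟨q0, hq0⟩ := eventually_atTop.1 (ht.eventually_lt_const (half_pos hε))
    refine ⟨q0, fun q hq g hg => ?_⟩
    rw [hU]
    obtain ⟨a, U, U', V, V', hcr, hga⟩ := hcrt g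
    have hane := hcr.ne (hP.det _)
    have hsm : ‖a ⟨0, by omega⟩‖ ≤ Real.exp (n * ρ) * ‖a ⟨(i₀ : ℕ), by omega⟩‖ := by
      have p1 : 0 < ‖a ⟨(i₀ : ℕ), by omega⟩‖ := norm_pos_iff.2 (hane _)
      have p0 : 0 < ‖a ⟨0, by omega⟩‖ := norm_pos_iff.2 (hane _)
      refine (Real.log_le_log_iff p0 (by positivity)).1 ?_
      rw [Real.log_mul (Real.exp_pos _).ne' p1.ne', Real.log_exp]
      have e1 := lg_sum a (i₀ : ℕ) (by omega)
      have e2 : ∑ x : Fin (i₀ : ℕ), lg a ⟨x, by have := x.2; omega⟩ ≤ ∑ x : Fin (i₀ : ℕ), ρ := by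
        refine Finset.sum_le_sum fun x _ => ?_
        have hx : (⟨x, by have := x.2; omega⟩ : Fin (n - 1)) < i₀ := by
          rw [Fin.lt_def]; exact x.2
        have h1 := hg _ hx
        have h2 := (abs_le.1 (hga ⟨x, by have := x.2; omega⟩)).1
        have h3 : c * lg a ⟨x, by have := x.2; omega⟩ ≤ R0 + C := by linarith
        have h4 : lg a ⟨x, by have := x.2; omega⟩ ≤ (R0 + C) / c := by
          rw [le_div_iff₀ hc]; linarith
        exact h4.trans (hρ ▸ le_max_left _ _)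
      rw [Finset.sum_const, Finset.card_univ, Fintype.card_fin, nsmul_eq_mul] at e2
      have e3 : ((i₀ : ℕ) : ℝ) * ρ ≤ n * ρ := by
        refine mul_le_mul_of_nonneg_right ?_ hρ0
        exact_mod_cast (by omega : (i₀ : ℕ) ≤ n)
      linarith
    have hmz := H (P g⁻¹) a U U' V V' hcr.hU hcr.hU' hcr.hV hcr.hV' hcr.uu hcr.vv hane
      (fun i l hil => hcr.anti hil) hcr.eq ⟨0, by omega⟩ ⟨(i₀ : ℕ), by omega⟩ rfl hi hsm
    have hmz' : m {Y | KY μ t α (P g⁻¹ * Matrix.of Y) (Matrix.of Y) < δ'} ≤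
        ENNReal.ofReal (ε / 2) := by
      refine (measure_mono fun Y hY => ?_).trans hmz
      exact lt_of_lt_of_le hY (hδ' ▸ min_le_left _ _)
    have := um_small hm h (hP.det _) hδ'0 (by linarith) (half_pos hε).le hmz' q
    have h5 := hq0 q hq
    linarith
  · intro ε hε q
    obtain ⟨e, he⟩ : ∃ e : ℝ, e = ε / (2 * ((q : ℝ) + 1)) := ⟨_, rfl⟩
    have he0 : 0 < e := by rw [he]; positivity
    obtain ⟨R, hR, H⟩ := upper_m hm h 1 he0 he0
    refine ⟨c * Real.log R + C, fun g hg => ?_⟩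
    rw [hU]
    obtain ⟨x, hx, hgx⟩ := hg
    obtain ⟨a, U, U', V, V', hcr, hga⟩ := hcrt g
    have hane := hcr.ne (hP.det _)
    have hx' : (x : ℕ) < (i₀ : ℕ) := hx
    have e1 : c * Real.log R ≤ c * lg a x := by
      have := (abs_le.1 (hga x)).2
      linarith
    have e2 : Real.log R ≤ lg a x := le_of_mul_le_mul_left e1 hc
    have hbig : R * ‖a ⟨(i₀ : ℕ), by omega⟩‖ ≤ ‖a ⟨0, by omega⟩‖ := by
      have hxn : (x : ℕ) + 1 < n := by omega
      have p1 : 0 < ‖a ⟨(x : ℕ) + 1, hxn⟩‖ := norm_pos_iff.2 (hane _)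
      have p0 : 0 < ‖a ⟨(x : ℕ), by omega⟩‖ := norm_pos_iff.2 (hane _)
      have e3 : Real.log (R * ‖a ⟨(x : ℕ) + 1, hxn⟩‖) ≤ Real.log ‖a ⟨(x : ℕ), by omega⟩‖ := by
        rw [Real.log_mul hR.ne' p1.ne']
        unfold H221.GapsC.lg at e2
        linarith
      have e4 := (Real.log_le_log_iff (by positivity) p0).1 e3
      have a1 : ‖a ⟨(i₀ : ℕ), by omega⟩‖ ≤ ‖a ⟨(x : ℕ) + 1, hxn⟩‖ := hcr.anti (by
        rw [Fin.le_def]; change (x : ℕ) + 1 ≤ (i₀ : ℕ); omega)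
      have a2 : ‖a ⟨(x : ℕ), by omega⟩‖ ≤ ‖a ⟨0, by omega⟩‖ := hcr.anti (by
        rw [Fin.le_def]; exact Nat.zero_le _)
      calc R * ‖a ⟨(i₀ : ℕ), by omega⟩‖ ≤ R * ‖a ⟨(x : ℕ) + 1, hxn⟩‖ := by gcongr
        _ ≤ _ := e4
        _ ≤ _ := a2
    have hmz := H (P g⁻¹) a U U' V V' hcr.hU hcr.hU' hcr.hV hcr.hV' hcr.uu hcr.vv hane
      (fun i l hil => hcr.anti hil) hcr.eq ⟨0, by omega⟩ ⟨(i₀ : ℕ), by omega⟩ rfl hi hbig
    have hkl := kl_small hm h (hP.det _) he0.le he0.le hmz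
    have hum := um_ge hrf h (hPI g⁻¹) h1I q
    have h6 : (q : ℝ) * kl μ t α m (fr k n j) 1 (P g⁻¹) 1 ≤ ε := by
      have h7 : (0 : ℝ) ≤ q := Nat.cast_nonneg q
      calc (q : ℝ) * kl μ t α m (fr k n j) 1 (P g⁻¹) 1 ≤ (q : ℝ) * (e + e) := by gcongr
        _ ≤ ((q : ℝ) + 1) * (e + e) := by nlinarith
        _ = ε := by rw [he]; field_simp; ring
    linarith

end group

end Vale.Agent.P092.H100.Ker
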