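import Vale.Agent.P092.H100.Ker5

/-!
P092 (helper100), Team N, block [N-GAPB]: the kernels and the test functions of the middle gaps, for a
homomorphism up to scalars `M : Γ → GL_n(k)`, `k` any local field.
-/

set_option linter.all false

open MeasureTheory Filter Topology Set Matrix
open scoped ENNReal NNReal

namespace Vale.Agent.P092.H100.Ker

open Vale.Agent.P092.H541.Hel (Sc exists_sc)
open Vale.Agent.P092.H87.Contr (Frm mY frm_mY)
open Vale.Agent.P092.H534.GK (Crt)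
open Vale.Agent.P092.H221.GapsC (lg lg_da crt_dual da)

/-- exchange of the order of the gaps -/
theorem Sd.rev {Γ : Type} [Group Γ] {r : ℕ} {gap : Fin r → Γ → ℝ} {i₀ : Fin r}
    {e : ℕ → Γ → Γ → ℝ} (h : Sd (fun i => gap i.rev) i₀.rev {x | x < i₀.rev} e) :
    Sd gap i₀ {x | i₀ < x} e where
  ad p := ⟨(h.ad p).pk, (h.ad p).one, fun f x y δ hδ => by
    obtain ⟨T, hT⟩ := (h.ad p).ri f x y δ hδ
    refine ⟨T, fun g hg => hT g ?_⟩
    simpa using hg⟩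
  u0 := h.u0
  u1 := h.u1
  lo ε hε R0 := by
    obtain ⟨q0, hq0⟩ := h.lo ε hε R0
    refine ⟨q0, fun q hq g hg => hq0 q hq g fun x hx => hg x.rev ?_⟩
    have hx' : x < i₀.rev := hx
    change i₀ < x.rev
    rw [← Fin.rev_lt_rev, Fin.rev_rev]
    exact hx'
  up ε hε q := by
    obtain ⟨R1, hR1⟩ := h.up ε hε q
    refine ⟨R1, fun g hg => hR1 g ?_⟩
    obtain ⟨x, hx, hgx⟩ := hg
    refine ⟨x.rev, ?_, ?_⟩
    · have hx' : i₀ < x := hx
      change x.rev < i₀.rev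
      rwa [Fin.rev_lt_rev]
    · simpa using hgx

variable {k : Type} [NontriviallyNormedField k] [ProperSpace k] {n : ℕ}

theorem crt_smul {h : Matrix (Fin n) (Fin n) k} {a : Fin n → k}
    {U U' V V' : Matrix (Fin n) (Fin n) k} (H : Crt h a U U' V V') (s : k) :
    Crt (s • h) (fun i => s * a i) U U' V V' where
  hU := H.hU
  hU' := H.hU'
  hV := H.hV
  hV' := H.hV'
  uu := H.uu
  vv := H.vv
  anti i j hij := by
    change ‖s * a j‖ ≤ ‖s * a i‖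
    rw [norm_mul, norm_mul]
    exact mul_le_mul_of_nonneg_left (H.anti hij) (norm_nonneg _)
  eq := by
    have e : diagonal (fun i => s * a i) = s • diagonal a := by
      rw [← diagonal_smul]
      rfl
    rw [H.eq, e, Matrix.mul_smul, Matrix.smul_mul]

theorem lg_smul {a : Fin n → k} (ha : ∀ i, a i ≠ 0) {s : k} (hs : s ≠ 0) (i : Fin (n - 1)) :
    lg (fun i => s * a i) i = lg a i := by
  have h1 : ∀ i, Real.log ‖s * a i‖ = Real.log ‖s‖ + Real.log ‖a i‖ := fun i => by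
    rw [norm_mul, Real.log_mul (norm_ne_zero_iff.2 hs) (norm_ne_zero_iff.2 (ha i))]
  unfold H221.GapsC.lg
  rw [h1, h1]
  ring

section main

variable {Γ : Type} [Group Γ]

/-- a homomorphism up to scalars -/
structure Mrp (M : Γ → Matrix (Fin n) (Fin n) k) : Prop where
  det : ∀ g, (M g).det ≠ 0
  mul : ∀ g h, ∃ c : k, c ≠ 0 ∧ M (g * h) = c • (M g * M h)

theorem mrp_sl (q : Γ →* SpecialLinearGroup (Fin n) k) : Mrp fun g => (q g).1 where
  det g := by rw [(q g).2]; exact one_ne_zero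
  mul g h := ⟨1, one_ne_zero, by rw [one_smul, map_mul]; rfl⟩

theorem Mrp.left {M : Γ → Matrix (Fin n) (Fin n) k} (hM : Mrp M) : Arp fun g => M g⁻¹ where
  det g := hM.det _
  mul g h := by
    obtain ⟨c, hc, h1⟩ := hM.mul h⁻¹ g⁻¹
    refine ⟨c, hc, ?_⟩
    rw [_root_.mul_inv_rev]
    exact h1

theorem Mrp.right {M : Γ → Matrix (Fin n) (Fin n) k} (hM : Mrp M) : Arp fun g => (M g)ᵀ where
  det g := by rw [det_transpose]; exact hM.det _
  mul g h := by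
    obtain ⟨c, hc, h1⟩ := hM.mul g h
    refine ⟨c, hc, ?_⟩
    rw [h1, transpose_smul, transpose_mul]

theorem Mrp.inv {M : Γ → Matrix (Fin n) (Fin n) k} (hM : Mrp M) (g : Γ) :
    ∃ c : k, c ≠ 0 ∧ M g⁻¹ = c • (M g)⁻¹ := by
  obtain ⟨c, hc, h1⟩ := hM.left.one
  obtain ⟨d, hd, h2⟩ := hM.mul g⁻¹ g
  have h1' : M (1 : Γ) = c • 1 := by simpa using h1
  rw [inv_mul_cancel, h1'] at h2
  have hi := inv_of_det (hM.det g)
  refine ⟨d⁻¹ * c, mul_ne_zero (inv_ne_zero hd) hc, ?_⟩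
  have h3 : (c • (1 : Matrix (Fin n) (Fin n) k)) * (M g)⁻¹ = (d • (M g⁻¹ * M g)) * (M g)⁻¹ := by
    rw [h2]
  rw [Matrix.smul_mul, Matrix.smul_mul, Matrix.one_mul, Matrix.mul_assoc, hi.2, Matrix.mul_one] at h3
  rw [mul_smul, h3, smul_smul, inv_mul_cancel₀ hd, one_smul]

/-- **The two sides.** -/
theorem exists_sides [MeasurableSpace k] [BorelSpace k] {M : Γ → Matrix (Fin n) (Fin n) k}
    (hM : Mrp M) {gap : Fin (n - 1) → Γ → ℝ} {c C : ℝ} (hc : 0 < c)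
    (hcrt : ∀ g, ∃ a U U' V V', Crt (M g) a U U' V V' ∧
      ∀ i : Fin (n - 1), |gap i g - c * lg a i| ≤ C) (i₀ : Fin (n - 1)) :
    (∃ e, Sd gap i₀ {x | x < i₀} e) ∧ ∃ e, Sd gap i₀ {x | i₀ < x} e := by
  have hi := i₀.2
  obtain ⟨t, ht⟩ := NormedField.exists_one_lt_norm k
  constructor
  · have hj : (i₀ : ℕ) + 1 ≤ n := by omega
    haveI : Nonempty (Fin ((i₀ : ℕ) + 1)) := ⟨0⟩
    obtain ⟨α, hα⟩ := exists_sc (κ := Fin ((i₀ : ℕ) + 1))
      (Measure.addHaar : Measure (Fin ((i₀ : ℕ) + 1) → k)) ht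
    refine ⟨_, side (frm_mY hj) hα hM.left hc (C := C) (fun g => ?_) i₀ rfl⟩
    rw [inv_inv]
    exact hcrt g
  · have hj : (i₀.rev : ℕ) + 1 ≤ n := by have := i₀.rev.2; omega
    haveI : Nonempty (Fin ((i₀.rev : ℕ) + 1)) := ⟨0⟩
    obtain ⟨α, hα⟩ := exists_sc (κ := Fin ((i₀.rev : ℕ) + 1))
      (Measure.addHaar : Measure (Fin ((i₀.rev : ℕ) + 1) → k)) ht
    refine ⟨_, Sd.rev (side (frm_mY hj) hα hM.right hc (C := C) (fun g => ?_) i₀.rev rfl)⟩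
    obtain ⟨a, U, U', V, V', hcr, hga⟩ := hcrt g
    have hane := hcr.ne (hM.det g)
    obtain ⟨s, hs, hsg⟩ := hM.inv g
    have hd := crt_smul (crt_dual hcr hane (inv_of_det (hM.det g)).1) s
    rw [← transpose_smul, ← hsg] at hd
    refine ⟨_, _, _, _, _, hd, fun i => ?_⟩
    have hda : ∀ i, da a i ≠ 0 := fun i => inv_ne_zero (hane _)
    rw [lg_smul hda hs, lg_da hane]
    exact hga i.rev

/-- **[N-GAPB] (2): kernels and test functions of a middle gap.** -/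
theorem kernels {M : Γ → Matrix (Fin n) (Fin n) k}
    (hM : Mrp M) {gap : Fin (n - 1) → Γ → ℝ} {c C : ℝ} (hc : 0 < c)
    (hcrt : ∀ g, ∃ a U U' V V', Crt (M g) a U U' V V' ∧
      ∀ i : Fin (n - 1), |gap i g - c * lg a i| ≤ C) (i₀ : Fin (n - 1)) (h1 : 0 < (i₀ : ℕ))
    (h2 : (i₀ : ℕ) + 1 < n - 1) {ε : ℝ} (hε : 0 < ε) (R0 : ℝ) :
    ∃ (I : Type) (_ : Fintype I) (c : I → ℝ) (K : I → Γ → Γ → ℝ), (∀ i, Ad gap i₀ (K i)) ∧
      (∀ g, 0 ≤ ∑ i, c i * K i g⁻¹ 1 ∧ ∑ i, c i * K i g⁻¹ 1 ≤ 1) ∧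
      (∀ g, ((∀ x, x < i₀ → gap x g < R0) ∨ (∀ x, i₀ < x → gap x g < R0)) →
        1 - ε ≤ ∑ i, c i * K i g⁻¹ 1) ∧
      ∃ R1 : ℝ, ∀ g, (∀ x, R1 ≤ gap x g) → ∑ i, c i * K i g⁻¹ 1 ≤ ε := by
  letI : MeasurableSpace k := borel k
  haveI : BorelSpace k := ⟨rfl⟩
  obtain ⟨⟨e, he⟩, e', he'⟩ := exists_sides hM hc hcrt i₀
  exact test he he' ⟨⟨0, by omega⟩, h1⟩ ⟨⟨(i₀ : ℕ) + 1, h2⟩, by
    rw [mem_setOf_eq, Fin.lt_def]; exact Nat.lt_succ_self _⟩ hε R0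

end main

end Vale.Agent.P092.H100.Ker
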