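import Vale.Agent.P092.H100.Ker6
import Vale.Agent.P092.H618.HMI

/-!
P092 (helper100), Team N, block [N-GAPB]: the test functions in the letters of helper618 / helper218.
-/

set_option linter.all false

open Filter Topology Set Matrix

namespace Vale.Agent.P092.H100.Ker

open Vale.Agent.P092.H534.GK (Crt)
open Vale.Agent.P092.H221.GapsC (lg)
open Vale.Agent.P092.H618.HMK (Tests KerG Psd)
open Vale.Agent.P092.H761 (big mem_big)

variable {k : Type} [NontriviallyNormedField k] [ProperSpace k] {n : ℕ} {Γ J : Type} [Group Γ]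

theorem Ad.kerG {gap : J → Γ → ℝ} {i₀ : J} {e : Γ → Γ → ℝ} (h : Ad gap i₀ e) : KerG gap i₀ e where
  psd := ⟨h.pk.symm, h.pk.sum⟩
  le := h.one
  ri := h.ri

/-- **The test functions of a middle gap**, general form: `e` enumerates the gaps of one
coordinate of the target. -/
theorem tests_of [Fintype J] {M : Γ → Matrix (Fin n) (Fin n) k} (hM : Mrp M) {r : ℕ} {gap : J → Γ → ℝ}
    {cl : J → Fin r} {A : Finset (Fin r)} (e : Fin (n - 1) → J)
    (hmono : ∀ x y, x < y → cl (e x) < cl (e y)) (huniq : ∀ j y, cl j = cl (e y) → j = e y)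
    (hA : ∀ y, cl (e y) ∈ A) {c C : ℝ} (hc : 0 < c)
    (hcrt : ∀ g, ∃ a U U' V V', Crt (M g) a U U' V V' ∧
      ∀ i : Fin (n - 1), |gap (e i) g - c * lg a i| ≤ C) (i₀ : Fin (n - 1)) (h1 : 0 < (i₀ : ℕ))
    (h2 : (i₀ : ℕ) + 1 < n - 1) : Tests gap cl A (e i₀) := by
  classical
  intro ε hε R0
  obtain ⟨I, hI, c', K, hK, h01, ht1, R1, ht2⟩ := kernels hM (gap := fun i => gap (e i)) hc hcrt i₀
    h1 h2 hε R0
  refine ⟨I, Finset.univ, c', K, fun g => ∑ i, c' i * K i g⁻¹ 1, fun i => ?_, fun g => rfl, h01,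
    ⟨0, fun g _ hg => ht1 g ?_⟩, R1, fun g hg => ht2 g fun y => ?_⟩
  · exact ⟨⟨(hK i).pk.symm, (hK i).pk.sum⟩, (hK i).one, (hK i).ri⟩
  · rcases hg with hg | hg
    · refine Or.inl fun x hx => ?_
      have := hg _ (hA x) (hmono _ _ hx)
      rw [mem_big] at this
      push Not at this
      exact this _ rfl
    · refine Or.inr fun x hx => ?_
      have := hg _ (hA x) (hmono _ _ hx)
      rw [mem_big] at this
      push Not at this
      exact this _ rfl
  · have := hg _ (hA y)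
    rw [mem_big] at this
    obtain ⟨j, hj, hj2⟩ := this
    rwa [huniq j y hj] at hj2

/-- one factor: `cl = id`, all the classes -/
theorem tests_id {M : Γ → Matrix (Fin n) (Fin n) k} (hM : Mrp M) {gap : Fin (n - 1) → Γ → ℝ}
    {c C : ℝ} (hc : 0 < c) (hcrt : ∀ g, ∃ a U U' V V', Crt (M g) a U U' V V' ∧
      ∀ i : Fin (n - 1), |gap i g - c * lg a i| ≤ C) (A : Finset (Fin (n - 1))) (hA : ∀ y, y ∈ A)
    (i₀ : Fin (n - 1)) (h1 : 0 < (i₀ : ℕ)) (h2 : (i₀ : ℕ) + 1 < n - 1) : Tests gap id A i₀ :=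
  tests_of hM (cl := id) id (fun _ _ h => h) (fun _ _ h => h) hA hc hcrt i₀ h1 h2

end Vale.Agent.P092.H100.Ker
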