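import Vale.Agent.P092.H100.Ker7

/-!
P092 (helper100): the kernels of one side in general letters: any group `Γ` with an
antihomomorphism up to scalars `P : Γ → GL_n(k)` (for example a fundamental representation of the
target group, or its dual), any block size `d`, any family of gap functions which controls the
Cartan numbers of `P`. For the middle types of other groups (`Sp_2n`, orthogonal groups, ..).
-/

set_option linter.all false

open MeasureTheory Filter Topology Set Matrix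
open scoped ENNReal NNReal

namespace Vale.Agent.P092.H100.Ker

open Vale.Agent.P092.H541.Hel (Sc exists_sc)
open Vale.Agent.P092.H87.Contr (Frm mY frm_mY upper_m)
open Vale.Agent.P092.H534.GK (Crt)
open Vale.Agent.P092.H618.HMK (Tests KerG Psd)
open Vale.Agent.P092.H761 (big mem_big)

section abs

variable {Γ J : Type} [Group Γ]

/-- one side, general form -/
structure Sw (gap : J → Γ → ℝ) (i₀ : J) (X : Set J) (e : ℕ → Γ → Γ → ℝ) : Prop where
  ad : ∀ p, Ad gap i₀ (e p)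
  u0 : ∀ q g, 0 ≤ UU e q g
  u1 : ∀ q g, UU e q g ≤ 1
  lo : ∀ ε : ℝ, 0 < ε → ∀ R0 : ℝ, ∃ (q0 : ℕ) (T : ℝ), ∀ q, q0 ≤ q → ∀ g, T ≤ gap i₀ g →
    (∀ x ∈ X, gap x g < R0) → UU e q g ≤ ε
  up : ∀ ε : ℝ, 0 < ε → ∀ q : ℕ, ∃ R1 : ℝ, ∀ g, (∀ x, R1 ≤ gap x g) → 1 - ε ≤ UU e q g

theorem Sd.sw {gap : J → Γ → ℝ} {i₀ : J} {X : Set J} {e : ℕ → Γ → Γ → ℝ} (h : Sd gap i₀ X e)
    (hX : X.Nonempty) : Sw gap i₀ X e where
  ad := h.ad
  u0 := h.u0
  u1 := h.u1
  lo ε hε R0 := by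
    obtain ⟨q0, hq0⟩ := h.lo ε hε R0
    exact ⟨q0, 0, fun q hq g _ hg => hq0 q hq g hg⟩
  up ε hε q := by
    obtain ⟨R1, hR1⟩ := h.up ε hε q
    obtain ⟨x, hx⟩ := hX
    exact ⟨R1, fun g hg => hR1 g ⟨x, hx, hg x⟩⟩

/-- **The test functions** -/
theorem testw {gap : J → Γ → ℝ} {i₀ : J} {X X' : Set J} {e e' : ℕ → Γ → Γ → ℝ}
    (hL : Sw gap i₀ X e) (hR : Sw gap i₀ X' e') {ε : ℝ} (hε : 0 < ε) (R0 : ℝ) :
    ∃ (I : Type) (_ : Fintype I) (c : I → ℝ) (K : I → Γ → Γ → ℝ), (∀ i, Ad gap i₀ (K i)) ∧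
      (∀ g, 0 ≤ ∑ i, c i * K i g⁻¹ 1 ∧ ∑ i, c i * K i g⁻¹ 1 ≤ 1) ∧
      (∃ T : ℝ, ∀ g, T ≤ gap i₀ g → ((∀ x ∈ X, gap x g < R0) ∨ (∀ x ∈ X', gap x g < R0)) →
        1 - ε ≤ ∑ i, c i * K i g⁻¹ 1) ∧
      ∃ R1 : ℝ, ∀ g, (∀ x, R1 ≤ gap x g) → ∑ i, c i * K i g⁻¹ 1 ≤ ε := by
  obtain ⟨q1, T1, hq1⟩ := hL.lo ε hε R0
  obtain ⟨q2, T2, hq2⟩ := hR.lo ε hε R0
  obtain ⟨q, hq⟩ : ∃ q, q = max q1 q2 := ⟨_, rfl⟩
  obtain ⟨R1, hR1⟩ := hL.up (ε / 2) (half_pos hε) q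
  obtain ⟨R2, hR2⟩ := hR.up (ε / 2) (half_pos hε) q
  have key : ∀ g, ∑ i : Option (Fin (q + 1) × Fin (q + 1)),
      (match i with
        | none => (1 : ℝ)
        | some p => -((-1) ^ (p.1 : ℕ) * (q.choose p.1 : ℝ) * ((-1) ^ (p.2 : ℕ) *
          (q.choose p.2 : ℝ)))) *
      (match i with
        | none => fun _ _ => (1 : ℝ)
        | some p => fun a b => e p.1 a b * e' p.2 a b : Γ → Γ → ℝ) g⁻¹ 1 =
      1 - UU e q g * UU e' q g := by
    intro g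
    rw [Fintype.sum_option, Fintype.sum_prod_type]
    simp only [mul_one]
    rw [UU, UU, Finset.sum_range, Finset.sum_range, Finset.sum_mul_sum, sub_eq_add_neg,
      ← Finset.sum_neg_distrib]
    congr 1
    refine Finset.sum_congr rfl fun a _ => ?_
    rw [← Finset.sum_neg_distrib]
    refine Finset.sum_congr rfl fun b _ => ?_
    ring
  refine ⟨Option (Fin (q + 1) × Fin (q + 1)), inferInstance, fun i => match i with
    | none => (1 : ℝ)
    | some p => -((-1) ^ (p.1 : ℕ) * (q.choose p.1 : ℝ) * ((-1) ^ (p.2 : ℕ) *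
      (q.choose p.2 : ℝ))), fun i => match i with
    | none => fun _ _ => (1 : ℝ)
    | some p => fun a b => e p.1 a b * e' p.2 a b, ?_, ?_, ?_, ?_⟩
  · intro i
    match i with
    | none => exact Ad.const gap i₀
    | some p => exact (hL.ad _).mul (hR.ad _)
  · intro g
    rw [key g]
    have a0 := hL.u0 q g
    have a1 := hL.u1 q g
    have b0 := hR.u0 q g
    have b1 := hR.u1 q g
    constructor <;> nlinarith
  · refine ⟨max T1 T2, fun g hT hg => ?_⟩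
    rw [key g]
    have a0 := hL.u0 q g
    have a1 := hL.u1 q g
    have b0 := hR.u0 q g
    have b1 := hR.u1 q g
    rcases hg with h | h
    · have := hq1 q (hq ▸ le_max_left _ _) g ((le_max_left _ _).trans hT) h
      nlinarith
    · have := hq2 q (hq ▸ le_max_right _ _) g ((le_max_right _ _).trans hT) h
      nlinarith
  · refine ⟨max R1 R2, fun g hg => ?_⟩
    rw [key g]
    have a := hR1 g fun x => (le_max_left _ _).trans (hg x)
    have b := hR2 g fun x => (le_max_right _ _).trans (hg x)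
    have a1 := hL.u1 q g
    have b1 := hR.u1 q g
    have a0 := hL.u0 q g
    nlinarith

end abs

section side

variable {k : Type} [NontriviallyNormedField k] [ProperSpace k] [MeasurableSpace k]
  [BorelSpace k] {n d : ℕ} {Γ J : Type} [Group Γ]

/-- **One side, general form.** `a g` = the Cartan numbers of `P g⁻¹`; `p0`, `pd` = the first
index and the last index of the top block of size `d`. -/
theorem side_gen (hd : d ≤ n) {P : Γ → Matrix (Fin n) (Fin n) k} (hP : Arp P) {gap : J → Γ → ℝ}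
    {i₀ : J} {X : Set J} {a : Γ → Fin n → k} {U U' V V' : Γ → Matrix (Fin n) (Fin n) k}
    (hcrt : ∀ g, Crt (P g⁻¹) (a g) (U g) (U' g) (V g) (V' g)) {p0 pd : Fin n}
    (h0 : (p0 : ℕ) = 0) (hpd : (pd : ℕ) + 1 = d)
    (hri : ∀ T : ℝ, ∃ T' : ℝ, ∀ g, T' ≤ gap i₀ g → ∀ i l : Fin n, (i : ℕ) < d → d ≤ (l : ℕ) →
      T * ‖a g l‖ ≤ ‖a g i‖)
    (hlo : ∀ R0 : ℝ, ∃ R T : ℝ, ∀ g, T ≤ gap i₀ g → (∀ x ∈ X, gap x g < R0) →
      ‖a g p0‖ ≤ R * ‖a g pd‖)
    (hup : ∀ R : ℝ, ∃ R1 : ℝ, ∀ g, (∀ x, R1 ≤ gap x g) → R * ‖a g pd‖ ≤ ‖a g p0‖) :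
    ∃ e, Sw gap i₀ X e := by
  classical
  haveI : Nonempty (Fin d) := ⟨⟨0, by omega⟩⟩
  obtain ⟨t, ht⟩ := NormedField.exists_one_lt_norm k
  obtain ⟨α, h⟩ := exists_sc (κ := Fin d) (Measure.addHaar : Measure (Fin d → k)) ht
  obtain ⟨μ, hμ⟩ : ∃ μ : Measure (Fin d → k), μ = Measure.addHaar := ⟨_, rfl⟩
  rw [← hμ] at h
  haveI : μ.IsAddHaarMeasure := by rw [hμ]; infer_instance
  have hm := frm_mY (k := k) hd
  obtain ⟨m, hmm⟩ : ∃ m : Measure (Fin n → Fin d → k), m = mY k n d := ⟨_, rfl⟩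
  rw [← hmm] at hm
  have hprob := hm.prob
  have hrf := rf hd hm
  have hPI : ∀ g, H85.Ker.Inj (P g) := fun g => inj_of_det (hP.det g)
  have h1I : H85.Ker.Inj (1 : Matrix (Fin n) (Fin n) k) := inj_of_inv (Matrix.mul_one 1)
  obtain ⟨c1, hc1, hP1⟩ := hP.one
  have hU : ∀ q g, UU (fun p g g' => kl μ t α m (fr k n d) p (P g) (P g')) q g =
      um μ t α m (fr k n d) q (P g⁻¹) 1 := by
    intro q g
    rw [um_eq hrf h (hPI _) h1I, UU]
    refine Finset.sum_congr rfl fun p _ => ?_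
    congr 1
    change kl μ t α m (fr k n d) p (P g⁻¹) (P 1) = _
    rw [hP1]
    have := kl_smul (μ := μ) (t := t) (α := α) m (one_ne_zero (α := k)) hc1 p (P g⁻¹) 1
    rwa [one_smul] at this
  refine ⟨fun p g g' => kl μ t α m (fr k n d) p (P g) (P g'),
    fun p => ⟨kl_pk hrf h P hPI p, fun g => (kl_self hrf h (hPI g) p).le, ?_⟩, ?_, ?_, ?_, ?_⟩
  · intro f x y δ hδ
    obtain ⟨T, hT, H⟩ := ri1 hm h (hP.det x) (hP.det y) (hP.det f⁻¹) p hδ
    obtain ⟨T', hT'⟩ := hri T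
    refine ⟨T', fun g hg => ?_⟩
    have key := H (P g⁻¹) (a g) (U g) (U' g) (V g) (V' g) (hcrt g) (hP.det _) (hT' g hg)
    obtain ⟨s1, hs1, q1⟩ := hP.three f⁻¹ g⁻¹ x
    obtain ⟨s2, hs2, q2⟩ := hP.three f⁻¹ g⁻¹ y
    obtain ⟨s3, hs3, q3⟩ := hP.mul g⁻¹ x
    obtain ⟨s4, hs4, q4⟩ := hP.mul g⁻¹ y
    change |kl μ t α m (fr k n d) p (P (f⁻¹ * g⁻¹ * x)) (P (f⁻¹ * g⁻¹ * y)) -
      kl μ t α m (fr k n d) p (P (g⁻¹ * x)) (P (g⁻¹ * y))| ≤ δ
    rw [q1, q2, q3, q4, kl_smul m hs1 hs2, kl_smul m hs3 hs4]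
    exact key
  · intro q g
    rw [hU]
    exact um_nonneg hrf h (hPI _) h1I q
  · intro q g
    rw [hU]
    exact um_le_one hrf h (hPI _) h1I q
  · intro ε hε R0
    obtain ⟨R, T, hRT⟩ := hlo R0
    obtain ⟨δ, hδ, H⟩ := H87.Contr.lower hm h 1 R (half_pos hε)
    obtain ⟨δ', hδ'⟩ : ∃ δ' : ℝ, δ' = min δ (1 / 2) := ⟨_, rfl⟩
    have hδ'0 : 0 < δ' := by rw [hδ']; exact lt_min hδ (by norm_num)
    have hδ'1 : δ' ≤ 1 / 2 := hδ' ▸ min_le_right _ _
    have ht : Tendsto (fun q : ℕ => (1 - δ') ^ q) atTop (𝓝 0) :=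
      tendsto_pow_atTop_nhds_zero_of_lt_one (by linarith) (by linarith)
    obtain ⟨q0, hq0⟩ := eventually_atTop.1 (ht.eventually_lt_const (half_pos hε))
    refine ⟨q0, T, fun q hq g hgT hg => ?_⟩
    rw [hU]
    have hcr := hcrt g
    have hane := hcr.ne (hP.det _)
    have hmz := H (P g⁻¹) (a g) (U g) (U' g) (V g) (V' g) hcr.hU hcr.hU' hcr.hV hcr.hV' hcr.uu
      hcr.vv hane (fun i l hil => hcr.anti hil) hcr.eq p0 pd h0 hpd (hRT g hgT hg)
    have hmz' : m {Y | H541.Hel.KY μ t α (P g⁻¹ * Matrix.of Y) (Matrix.of Y) < δ'} ≤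
        ENNReal.ofReal (ε / 2) := by
      refine (measure_mono fun Y hY => ?_).trans hmz
      exact lt_of_lt_of_le hY (hδ' ▸ min_le_left _ _)
    have := um_small hm h (hP.det _) hδ'0 (by linarith) (half_pos hε).le hmz' q
    have h5 := hq0 q hq
    linarith
  · intro ε hε q
    obtain ⟨e, he⟩ : ∃ e : ℝ, e = ε / (2 * ((q : ℝ) + 1)) := ⟨_, rfl⟩
    have he0 : 0 < e := by rw [he]; positivity
    obtain ⟨R, hR, H⟩ := upper_m hm h 1 he0 he0
    obtain ⟨R1, hR1⟩ := hup R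
    refine ⟨R1, fun g hg => ?_⟩
    rw [hU]
    have hcr := hcrt g
    have hane := hcr.ne (hP.det _)
    have hmz := H (P g⁻¹) (a g) (U g) (U' g) (V g) (V' g) hcr.hU hcr.hU' hcr.hV hcr.hV' hcr.uu
      hcr.vv hane (fun i l hil => hcr.anti hil) hcr.eq p0 pd h0 hpd (hR1 g hg)
    have hkl := kl_small hm h (hP.det _) he0.le he0.le hmz
    have hum := um_ge hrf h (hPI g⁻¹) h1I q
    have h6 : (q : ℝ) * kl μ t α m (fr k n d) 1 (P g⁻¹) 1 ≤ ε := by
      have h7 : (0 : ℝ) ≤ q := Nat.cast_nonneg q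
      calc (q : ℝ) * kl μ t α m (fr k n d) 1 (P g⁻¹) 1 ≤ (q : ℝ) * (e + e) := by gcongr
        _ ≤ ((q : ℝ) + 1) * (e + e) := by nlinarith
        _ = ε := by rw [he]; field_simp; ring
    linarith

/-- `Tests` from two sides in general letters -/
theorem tests_sw [Fintype J] {gap : J → Γ → ℝ} {i₀ : J} {X X' : Set J} {e e' : ℕ → Γ → Γ → ℝ}
    (hL : Sw gap i₀ X e) (hR : Sw gap i₀ X' e') {r : ℕ} {cl : J → Fin r}
    (hcl : ∀ i j, cl i = cl j → i = j) {A : Finset (Fin r)} (hA : ∀ j, cl j ∈ A)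
    (hX : ∀ x ∈ X, cl x < cl i₀) (hX' : ∀ x ∈ X', cl i₀ < cl x) : Tests gap cl A i₀ := by
  classical
  intro ε hε R0
  obtain ⟨I, hI, c', K, hK, h01, ⟨T, ht1⟩, R1, ht2⟩ := testw hL hR hε R0
  refine ⟨I, Finset.univ, c', K, fun g => ∑ i, c' i * K i g⁻¹ 1, fun i => (hK i).kerG,
    fun g => rfl, h01, ⟨T, fun g hT hg => ht1 g hT ?_⟩, R1, fun g hg => ht2 g fun y => ?_⟩
  · rcases hg with hg | hg
    · refine Or.inl fun x hx => ?_
      have := hg _ (hA x) (hX _ hx)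
      rw [mem_big] at this
      push Not at this
      exact this _ rfl
    · refine Or.inr fun x hx => ?_
      have := hg _ (hA x) (hX' _ hx)
      rw [mem_big] at this
      push Not at this
      exact this _ rfl
  · have := hg _ (hA y)
    rw [mem_big] at this
    obtain ⟨j, hj, hj2⟩ := this
    rwa [hcl j y hj] at hj2

end side

end Vale.Agent.P092.H100.Ker
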