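import Vale.Agent.P092.H87.Contr

/-!
P092 (helper100), [P2-MID] 1: the minors `zeta X` of a frame `X` with columns `α ⊕ β`: all the
minors with the columns `α` and one column of `β`. For classical groups: the norm
`v ↦ ‖zeta X *ᵥ v‖` is the norm of `X v` modulo the span of the columns `α`.
-/

set_option linter.all false

open Matrix

namespace Vale.Agent.P092.H100.Mid

section alg

variable {k : Type} [Field k] {α β ι ι' ι'' : Type} [Fintype α] [DecidableEq α] [Fintype β]
  [DecidableEq β] [Fintype ι] [DecidableEq ι] [Fintype ι'] [DecidableEq ι'] [Fintype ι'']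
  [DecidableEq ι'']

/-- the tensor power -/
def ten (α : Type) [Fintype α] (U : Matrix ι ι' k) :
    Matrix (α ⊕ Unit → ι) (α ⊕ Unit → ι') k := fun s l => ∏ r, U (s r) (l r)

theorem ten_mul (U : Matrix ι ι' k) (V : Matrix ι' ι'' k) :
    ten α (U * V) = ten α U * ten α V := by
  classical
  ext s l
  change ∏ r, ∑ y, U (s r) y * V y (l r) = ∑ x : α ⊕ Unit → ι', (∏ r, U (s r) (x r)) *
    ∏ r, V (x r) (l r)
  rw [Finset.prod_univ_sum]
  simp only [Fintype.piFinset_univ, Finset.prod_mul_distrib]

theorem ten_diag (d : ι → k) : ten α (diagonal d) = diagonal fun s => ∏ r, d (s r) := by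
  classical
  ext s l
  by_cases h : s = l
  · subst h
    simp [ten, diagonal_apply_eq]
  · rw [diagonal_apply_ne _ h]
    obtain ⟨r, hr⟩ := Function.ne_iff.1 h
    exact Finset.prod_eq_zero (Finset.mem_univ r) (diagonal_apply_ne _ hr)

theorem ten_one : ten α (1 : Matrix ι ι k) = 1 := by
  rw [← diagonal_one, ten_diag]
  simp

/-- the column selection -/
def col (α : Type) (i : β) : α ⊕ Unit → α ⊕ β := Sum.map id fun _ => i

/-- the minors -/
def zeta (X : Matrix ι (α ⊕ β) k) : Matrix (α ⊕ Unit → ι) β k :=
  fun s i => (X.submatrix s (col α i)).det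

theorem zeta_mul (U : Matrix ι' ι k) (X : Matrix ι (α ⊕ β) k) :
    zeta (U * X) = ten α U * zeta X := by
  classical
  ext s i
  have e : ((U * X).submatrix s (col α i)) =
      fun r => ∑ y : ι, U (s r) y • fun c => X y (col α i c) := by
    ext r c
    simp [Matrix.mul_apply, Finset.sum_apply]
  change ((U * X).submatrix s (col α i)).det = ∑ x : α ⊕ Unit → ι, (∏ r, U (s r) (x r)) *
    (X.submatrix x (col α i)).det
  have h := (Matrix.detRowAlternating (R := k) (n := α ⊕ Unit)).toMultilinearMap.map_sum
    (fun r (y : ι) => U (s r) y • fun c => X y (col α i c))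
  rw [e]
  refine (show _ = _ from h).trans ?_
  refine Finset.sum_congr rfl fun x _ => ?_
  have h2 := (Matrix.detRowAlternating (R := k) (n := α ⊕ Unit)).toMultilinearMap.map_smul_univ
    (fun r => U (s r) (x r)) (fun r c => X (x r) (col α i c))
  exact h2

theorem det_updateCol_fsum {n : Type} [Fintype n] [DecidableEq n] (M : Matrix n n k) (j : n)
    {γ : Type} (t : Finset γ) (c : γ → k) (u : γ → n → k) :
    (M.updateCol j (∑ l ∈ t, c l • u l)).det = ∑ l ∈ t, c l * (M.updateCol j (u l)).det := by
  classical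
  induction t using Finset.induction with
  | empty =>
    have := det_updateCol_smul M j 0 (0 : n → k)
    rw [zero_smul, zero_mul] at this
    simpa using this
  | insert a t ha ih =>
    rw [Finset.sum_insert ha, Finset.sum_insert ha, det_updateCol_add, det_updateCol_smul, ih]

theorem zeta_mul_right (X : Matrix ι (α ⊕ β) k) (g11 : Matrix α α k) (g12 : Matrix α β k)
    (g22 : Matrix β β k) :
    zeta (X * fromBlocks g11 g12 0 g22) = g11.det • (zeta X * g22) := by
  classical
  ext s i
  -- the matrix with last column the combination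
  obtain ⟨Y, hY1, hY2⟩ : ∃ Y : Matrix (α ⊕ Unit) (α ⊕ Unit) k,
      (∀ r a, Y r (Sum.inl a) = X (s r) (Sum.inl a)) ∧
      ∀ r u, Y r (Sum.inr u) = ∑ l, X (s r) (Sum.inr l) * g22 l i :=
    ⟨fun r c => Sum.elim (fun a => X (s r) (Sum.inl a))
      (fun _ => ∑ l, X (s r) (Sum.inr l) * g22 l i) c, fun _ _ => rfl, fun _ _ => rfl⟩
  have e1 : (X * fromBlocks g11 g12 0 g22).submatrix s (col α i) =
      Y * fromBlocks g11 (Matrix.of fun a (_ : Unit) => g12 a i) (0 : Matrix Unit α k)
        (1 : Matrix Unit Unit k) := by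
    ext r c
    rcases c with c | c
    · rw [submatrix_apply, Matrix.mul_apply, Matrix.mul_apply]
      simp [col, Fintype.sum_sum_type, hY1]
    · rw [submatrix_apply, Matrix.mul_apply, Matrix.mul_apply]
      simp [col, Fintype.sum_sum_type, hY1, hY2]
  have e2 : Y.det = ∑ l, g22 l i * (X.submatrix s (col α l)).det := by
    have e3 : Y = Y.updateCol (Sum.inr ()) (∑ l : β, g22 l i • fun r => X (s r) (Sum.inr l)) := by
      ext r c
      rcases c with c | c
      · rw [updateCol_ne (by simp)]
      · rw [show (Sum.inr c : α ⊕ Unit) = Sum.inr () from rfl, updateCol_self, hY2]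
        simp [Finset.sum_apply, mul_comm]
    rw [e3, det_updateCol_fsum]
    refine Finset.sum_congr rfl fun l _ => ?_
    congr 2
    ext r c
    rcases c with c | c
    · rw [updateCol_ne (by simp), hY1]
      rfl
    · rw [show (Sum.inr c : α ⊕ Unit) = Sum.inr () from rfl, updateCol_self]
      rfl
  change ((X * fromBlocks g11 g12 0 g22).submatrix s (col α i)).det =
    g11.det * ∑ l, (X.submatrix s (col α l)).det * g22 l i
  rw [e1, det_mul, det_fromBlocks_zero₂₁, det_one, mul_one, e2, mul_comm]
  congr 1
  exact Finset.sum_congr rfl fun l _ => mul_comm _ _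

/-- the top minors of a lower triangular frame -/
theorem zeta_top {X : Matrix ι (α ⊕ β) k} {e : α ⊕ β → ι} {τ : Matrix β α k}
    (h : X.submatrix e id = fromBlocks 1 0 τ 1) (l i : β) :
    zeta X (e ∘ col α l) i = (1 : Matrix β β k) l i := by
  classical
  have e1 : X.submatrix (e ∘ col α l) (col α i) =
      fromBlocks (1 : Matrix α α k) (0 : Matrix α Unit k) (Matrix.of fun (_ : Unit) x => τ l x)
        (Matrix.of fun (_ _ : Unit) => (1 : Matrix β β k) l i) := by
    have : X.submatrix (e ∘ col α l) (col α i) = (X.submatrix e id).submatrix (col α l) (col α i) := by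
      rw [submatrix_submatrix]; rfl
    rw [this, h]
    ext r c
    rcases r with r | r <;> rcases c with c | c <;> simp [col]
  change (X.submatrix (e ∘ col α l) (col α i)).det = _
  rw [e1, det_fromBlocks_zero₁₂, det_one, one_mul, det_unique]
  rfl

theorem zeta_col {X : Matrix ι (α ⊕ β) k} {s : α ⊕ Unit → ι} {i : β}
    (h : ∀ r, X (s r) (Sum.inr i) = 0) : zeta X s i = 0 :=
  det_eq_zero_of_column_eq_zero (Sum.inr ()) fun r => h r

theorem zeta_inj {X : Matrix ι (α ⊕ β) k} {s : α ⊕ Unit → ι} {i : β}
    (h : ¬ Function.Injective s) : zeta X s i = 0 := by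
  rw [Function.Injective] at h
  push Not at h
  obtain ⟨x, y, hxy, hne⟩ := h
  refine det_zero_of_row_eq hne ?_
  ext c
  simp [submatrix, hxy]

end alg

end Vale.Agent.P092.H100.Mid
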