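import Vale.Agent.P092.H100.Mid1

/-!
P092 (helper100), [P2-MID] 2: normal form of a frame modulo the parabolic subgroup, bounds.
-/

set_option linter.all false

open Matrix

namespace Vale.Agent.P092.H100.Mid

section gen

variable {k : Type} [NontriviallyNormedField k] {σ α β γ : Type} [Fintype σ] [DecidableEq σ]
  [Fintype α] [Fintype β] [Fintype γ]

theorem norm_det_le {B : ℝ} (hB : 0 ≤ B) (M : Matrix σ σ k)
    (h : ∀ a b, ‖M a b‖ ≤ B) : ‖M.det‖ ≤ (Fintype.card σ).factorial * B ^ Fintype.card σ := by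
  rw [det_apply]
  refine (norm_sum_le _ _).trans ?_
  have h1 : ∀ τ ∈ (Finset.univ : Finset (Equiv.Perm σ)),
      ‖Equiv.Perm.sign τ • ∏ i, M (τ i) i‖ ≤ B ^ Fintype.card σ := by
    intro τ _
    have e : ‖Equiv.Perm.sign τ • ∏ i, M (τ i) i‖ = ‖∏ i, M (τ i) i‖ := by
      rcases Int.units_eq_one_or (Equiv.Perm.sign τ) with h | h <;> rw [h] <;> simp
    rw [e, norm_prod]
    calc ∏ i, ‖M (τ i) i‖ ≤ ∏ _i : σ, B :=
          Finset.prod_le_prod (fun _ _ => norm_nonneg _) fun i _ => h _ _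
      _ = B ^ Fintype.card σ := by simp
  refine (Finset.sum_le_sum h1).trans ?_
  simp [Finset.card_univ, Fintype.card_perm]

theorem norm_adj_le {B : ℝ} (hB : 1 ≤ B) (M : Matrix σ σ k)
    (h : ∀ a b, ‖M a b‖ ≤ B) (a b : σ) :
    ‖M.adjugate a b‖ ≤ (Fintype.card σ).factorial * B ^ Fintype.card σ := by
  rw [adjugate_apply]
  refine norm_det_le (by linarith) _ fun a' b' => ?_
  rw [updateRow_apply]
  split_ifs with e
  · rw [Pi.single_apply]
    split_ifs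
    · rw [norm_one]; exact hB
    · rw [norm_zero]; linarith
  · exact h _ _

theorem norm_inv_le {B c : ℝ} (hB : 1 ≤ B) (hc : 0 < c) (P : Matrix σ σ k)
    (h : ∀ a b, ‖P a b‖ ≤ B) (hdet : c ≤ ‖P.det‖) (a b : σ) :
    ‖P⁻¹ a b‖ ≤ (Fintype.card σ).factorial * B ^ Fintype.card σ / c := by
  rw [inv_def, Ring.inverse_eq_inv', Matrix.smul_apply, smul_eq_mul, norm_mul, norm_inv]
  rw [div_eq_inv_mul]
  refine mul_le_mul ?_ (norm_adj_le hB P h a b) (norm_nonneg _) (inv_nonneg.2 hc.le)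
  exact inv_anti₀ hc hdet

theorem mul_le' {C D : ℝ} (hC : 0 ≤ C) {M : Matrix α β k}
    {N : Matrix β γ k} (hM : ∀ x y, ‖M x y‖ ≤ C) (hN : ∀ x y, ‖N x y‖ ≤ D)
    (x : α) (y : γ) : ‖(M * N) x y‖ ≤ Fintype.card β * (C * D) := by
  rw [Matrix.mul_apply]
  refine (norm_sum_le _ _).trans ?_
  refine (Finset.sum_le_card_nsmul _ _ (C * D) fun z _ => ?_).trans ?_
  · rw [norm_mul]
    exact mul_le_mul (hM x z) (hN z y) (norm_nonneg _) hC
  · simp

theorem mv_le {B : ℝ} (hB : 0 ≤ B) {M : Matrix α β k}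
    (h : ∀ x y, ‖M x y‖ ≤ B) (v : β → k) : ‖M *ᵥ v‖ ≤ Fintype.card β * B * ‖v‖ := by
  refine (pi_norm_le_iff_of_nonneg (by positivity)).2 fun x => ?_
  calc ‖(M *ᵥ v) x‖ = ‖∑ y, M x y * v y‖ := rfl
    _ ≤ ∑ y, ‖M x y * v y‖ := norm_sum_le _ _
    _ ≤ ∑ _y : β, B * ‖v‖ := Finset.sum_le_sum fun y _ => by
        rw [norm_mul]
        exact mul_le_mul (h x y) (norm_le_pi_norm v y) (norm_nonneg _) hB
    _ = Fintype.card β * B * ‖v‖ := by
        rw [Finset.sum_const, Finset.card_univ, nsmul_eq_mul]; ring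

end gen

/-! ### The normal form -/

section form

variable {k : Type} [NontriviallyNormedField k] {j m n : ℕ}

/-- the first `j + m` rows -/
def em (hd : j + m ≤ n) : Fin j ⊕ Fin m → Fin n := fun x => Fin.castLE hd (finSumFinEquiv x)

theorem em_inl (hd : j + m ≤ n) (x : Fin j) : (em hd (Sum.inl x) : ℕ) = x := rfl

theorem em_inr (hd : j + m ≤ n) (x : Fin m) : (em hd (Sum.inr x) : ℕ) = j + x := rfl

theorem em_inj (hd : j + m ≤ n) : Function.Injective (em hd) :=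
  (Fin.castLE_injective hd).comp finSumFinEquiv.injective

theorem exists_em (hd : j + m ≤ n) (x : Fin n) (hx : (x : ℕ) < j + m) : ∃ y, em hd y = x :=
  ⟨finSumFinEquiv.symm ⟨x, hx⟩, by
    rw [em, Equiv.apply_symm_apply]; rfl⟩

/-- the top block -/
def tp (hd : j + m ≤ n) (W : Matrix (Fin n) (Fin j ⊕ Fin m) k) :
    Matrix (Fin j ⊕ Fin m) (Fin j ⊕ Fin m) k := W.submatrix (em hd) id

theorem tp_mul (hd : j + m ≤ n) (W : Matrix (Fin n) (Fin j ⊕ Fin m) k)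
    (g : Matrix (Fin j ⊕ Fin m) (Fin j ⊕ Fin m) k) : tp hd (W * g) = tp hd W * g := rfl

/-- the normal frames -/
structure Nice (hd : j + m ≤ n) (B : ℝ) (W : Matrix (Fin n) (Fin j ⊕ Fin m) k) : Prop where
  le : ∀ x y, ‖W x y‖ ≤ B
  tp : ∃ τ, tp hd W = fromBlocks 1 0 τ 1

/-- **Normal form modulo the parabolic subgroup.** -/
theorem exists_nice (j m : ℕ) {B c : ℝ} (hB : 1 ≤ B) (hc : 0 < c) : ∃ B' : ℝ, 1 ≤ B' ∧
    ∀ (n : ℕ) (hd : j + m ≤ n) (W : Matrix (Fin n) (Fin j ⊕ Fin m) k), (∀ x y, ‖W x y‖ ≤ B) →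
      c ≤ ‖(tp hd W).det‖ → c ≤ ‖(tp hd W).toBlocks₁₁.det‖ →
      ∃ (g11 : Matrix (Fin j) (Fin j) k) (g12 : Matrix (Fin j) (Fin m) k)
        (g22 g22' : Matrix (Fin m) (Fin m) k), g11.det ≠ 0 ∧ g22 * g22' = 1 ∧
        Nice hd B' (W * fromBlocks g11 g12 0 g22) := by
  obtain ⟨K1, hK1⟩ : ∃ K1 : ℝ, K1 = j.factorial * B ^ j / c := ⟨_, rfl⟩
  obtain ⟨K2, hK2⟩ : ∃ K2 : ℝ, K2 = (j + m).factorial * B ^ (j + m) / c := ⟨_, rfl⟩
  have hK10 : 0 ≤ K1 := by rw [hK1]; positivity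
  have hK20 : 0 ≤ K2 := by rw [hK2]; positivity
  obtain ⟨K3, hK3⟩ : ∃ K3 : ℝ, K3 = max 1 (j * (B * K1)) := ⟨_, rfl⟩
  have hK30 : 1 ≤ K3 := hK3 ▸ le_max_left _ _
  obtain ⟨K4, hK4⟩ : ∃ K4 : ℝ, K4 = ((j + m : ℕ) : ℝ) * (K2 * K3) := ⟨_, rfl⟩
  refine ⟨max 1 (((j + m : ℕ) : ℝ) * (B * K4)), le_max_left _ _, fun n hd W hW hdet h11 => ?_⟩
  obtain ⟨T, hT⟩ : ∃ T, T = tp hd W := ⟨_, rfl⟩
  rw [← hT] at hdet h11
  have hTB : ∀ x y, ‖T x y‖ ≤ B := fun x y => by rw [hT]; exact hW _ _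
  obtain ⟨T11, hT11⟩ : ∃ T11, T11 = T.toBlocks₁₁ := ⟨_, rfl⟩
  obtain ⟨T12, hT12⟩ : ∃ T12, T12 = T.toBlocks₁₂ := ⟨_, rfl⟩
  obtain ⟨T21, hT21⟩ : ∃ T21, T21 = T.toBlocks₂₁ := ⟨_, rfl⟩
  obtain ⟨T22, hT22⟩ : ∃ T22, T22 = T.toBlocks₂₂ := ⟨_, rfl⟩
  have hTe : T = fromBlocks T11 T12 T21 T22 := by
    rw [hT11, hT12, hT21, hT22, fromBlocks_toBlocks]
  rw [← hT11] at h11
  have h0 : T.det ≠ 0 := norm_pos_iff.1 (hc.trans_le hdet)
  have h110 : T11.det ≠ 0 := norm_pos_iff.1 (hc.trans_le h11)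
  have hu11 : IsUnit T11.det := isUnit_iff_ne_zero.2 h110
  letI hinv : Invertible T11 := Matrix.invertibleOfIsUnitDet _ hu11
  obtain ⟨S, hS⟩ : ∃ S, S = T22 - T21 * T11⁻¹ * T12 := ⟨_, rfl⟩
  have hSdet : S.det ≠ 0 := by
    intro h1
    apply h0
    rw [hTe, det_fromBlocks₁₁, invOf_eq_nonsing_inv, ← hS, h1, mul_zero]
  have huS : IsUnit S.det := isUnit_iff_ne_zero.2 hSdet
  refine ⟨T11⁻¹, -(T11⁻¹ * T12 * S⁻¹), S⁻¹, S, ?_, nonsing_inv_mul _ huS, ?_⟩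
  · have : T11⁻¹.det * T11.det = 1 := by rw [← det_mul, nonsing_inv_mul _ hu11, det_one]
    intro h1
    rw [h1, zero_mul] at this
    exact zero_ne_one this
  obtain ⟨τ, hτ⟩ : ∃ τ, τ = T21 * T11⁻¹ := ⟨_, rfl⟩
  obtain ⟨g, hg⟩ : ∃ g, g = fromBlocks T11⁻¹ (-(T11⁻¹ * T12 * S⁻¹)) 0 S⁻¹ := ⟨_, rfl⟩
  rw [← hg]
  have hTg : T * g = fromBlocks 1 0 τ 1 := by
    rw [hTe, hg, fromBlocks_multiply]
    congr 1
    · rw [mul_nonsing_inv _ hu11, Matrix.mul_zero, add_zero]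
    · rw [Matrix.mul_neg, ← Matrix.mul_assoc, ← Matrix.mul_assoc, mul_nonsing_inv _ hu11,
        Matrix.one_mul, neg_add_cancel]
    · rw [Matrix.mul_zero, add_zero, hτ]
    · rw [Matrix.mul_neg, ← Matrix.mul_assoc, ← Matrix.mul_assoc, neg_add_eq_sub, ← Matrix.sub_mul,
        ← hS, mul_nonsing_inv _ huS]
  refine ⟨?_, τ, ?_⟩
  · have hτB : ∀ x y, ‖τ x y‖ ≤ j * (B * K1) := by
      intro x y
      have h1 : ∀ x y, ‖T21 x y‖ ≤ B := fun x y => by rw [hT21]; exact hTB _ _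
      have h2 : ∀ x y, ‖T11⁻¹ x y‖ ≤ K1 := fun x y => by
        have := norm_inv_le hB hc T11 (fun x y => by rw [hT11]; exact hTB _ _) h11 x y
        rwa [Fintype.card_fin, ← hK1] at this
      have := mul_le' (by linarith) h1 h2 x y
      rwa [Fintype.card_fin, ← hτ] at this
    have hL : ∀ x y, ‖(fromBlocks 1 0 τ 1 : Matrix (Fin j ⊕ Fin m) (Fin j ⊕ Fin m) k) x y‖ ≤ K3 := by
      intro x y
      rcases x with x | x <;> rcases y with y | y
      · rw [fromBlocks_apply₁₁, one_apply]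
        split_ifs
        · rw [norm_one]; exact hK30
        · rw [norm_zero]; linarith
      · rw [fromBlocks_apply₁₂, Matrix.zero_apply, norm_zero]; linarith
      · rw [fromBlocks_apply₂₁]
        exact (hτB x y).trans (hK3 ▸ le_max_right _ _)
      · rw [fromBlocks_apply₂₂, one_apply]
        split_ifs
        · rw [norm_one]; exact hK30
        · rw [norm_zero]; linarith
    have hge : g = T⁻¹ * fromBlocks 1 0 τ 1 := by
      rw [← hTg, ← Matrix.mul_assoc, nonsing_inv_mul _ (isUnit_iff_ne_zero.2 h0), Matrix.one_mul]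
    have hgB : ∀ x y, ‖g x y‖ ≤ K4 := by
      intro x y
      have h2 : ∀ x y, ‖T⁻¹ x y‖ ≤ K2 := fun x y => by
        have := norm_inv_le hB hc T hTB hdet x y
        rwa [Fintype.card_sum, Fintype.card_fin, Fintype.card_fin, ← hK2] at this
      have := mul_le' hK20 h2 hL x y
      rwa [Fintype.card_sum, Fintype.card_fin, Fintype.card_fin, ← hK4, ← hge] at this
    intro x y
    have := mul_le' (by linarith) hW hgB x y
    rw [Fintype.card_sum, Fintype.card_fin, Fintype.card_fin] at this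
    exact this.trans (le_max_right _ _)
  · rw [tp_mul, ← hT, hTg]

end form

end Vale.Agent.P092.H100.Mid
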