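import Vale.Agent.P092.H100.Mid2
import Vale.Agent.P092.H85.KerI

/-!
P092 (helper100), [P2-MID] 3: the contraction lemma for flags of frames (after H87/Contr): if the
gaps `j` and `j + m` are large, almost all frames go to `U J` modulo the parabolic subgroup.
-/

set_option linter.all false

open Matrix MeasureTheory Topology Filter

namespace Vale.Agent.P092.H100.Mid

open Vale.Agent.P092.H87.Contr (gbox box isCompact_gbox gbox_inv Dec)
open Vale.Agent.P092.H85.Ker (Inj)

/-! ### General position -/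

section gen

variable {k : Type} [NontriviallyNormedField k] [ProperSpace k] [MeasurableSpace k]
  [BorelSpace k] {n : ℕ} {κ : Type} [Fintype κ] [DecidableEq κ]

/-- General position of one minor, for Haar measure. -/
theorem gen_sub {σ : Type} [Fintype σ] [DecidableEq σ] {e : σ → Fin n} {f : σ → κ}
    (he : Function.Injective e) (hf : Function.Injective f)
    (ν : Measure (Fin n → κ → k)) [SFinite ν] [ν.IsAddLeftInvariant]
    (V V' : Matrix (Fin n) (Fin n) k) (hV : V * V' = 1) :
    ∀ᵐ Y ∂ν, ((V * Matrix.of Y).submatrix e f).det ≠ 0 := by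
  classical
  set A : Set (Fin n → κ → k) := {Y | ((V * Matrix.of Y).submatrix e f).det = 0} with hA
  let μ : Measure k := Measure.addHaar
  obtain ⟨J', hJ'⟩ : ∃ J' : Matrix (Fin n) κ k, J' =
    Matrix.of fun a b => if ∃ s, e s = a ∧ f s = b then (1 : k) else 0 := ⟨_, rfl⟩
  have hJs : J'.submatrix e f = 1 := by
    ext a b
    rw [submatrix_apply, hJ', Matrix.of_apply, one_apply]
    by_cases h : a = b
    · subst h
      rw [if_pos ⟨a, rfl, rfl⟩, if_pos rfl]
    · rw [if_neg h, if_neg]
      rintro ⟨s, h1, h2⟩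
      exact h ((he h1).symm.trans (hf h2))
  let Y1 : Fin n → κ → k := V' * J'
  have hcont : Continuous fun z : (Fin n → κ → k) =>
      ((V * Matrix.of z).submatrix e f).det :=
    ((continuous_const.matrix_mul continuous_id).matrix_submatrix e f).matrix_det
  have hcl : IsClosed A := isClosed_eq hcont continuous_const
  let S : Set ((Fin n → κ → k) × k) := {z | z.2 • Y1 + z.1 ∈ A}
  have hS : MeasurableSet S := by
    have : Continuous fun z : (Fin n → κ → k) × k => z.2 • Y1 + z.1 :=
      (continuous_snd.smul continuous_const).add continuous_fst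
    exact (hcl.preimage this).measurableSet
  have h1 : (ν.prod μ) S = 0 := by
    rw [Measure.measure_prod_null hS]
    refine Eventually.of_forall fun Y => ?_
    have hfin : (Prod.mk Y ⁻¹' S).Finite := by
      set M : Matrix σ σ k := (V * Matrix.of Y).submatrix e f with hM
      have hsub : Prod.mk Y ⁻¹' S ⊆ {s : k | (-M).charpoly.IsRoot s} := by
        intro s hs
        have e1 : ((V * Matrix.of (s • Y1 + Y)).submatrix e f).det = 0 := hs
        have e2 : V * Matrix.of (s • Y1 + Y) = s • J' + V * Matrix.of Y := by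
          have : (Matrix.of (s • Y1 + Y) : Matrix (Fin n) κ k)
              = s • (V' * J') + Matrix.of Y := rfl
          rw [this, Matrix.mul_add, Matrix.mul_smul, ← Matrix.mul_assoc, hV, Matrix.one_mul]
        have e3 : (s • J' + V * Matrix.of Y).submatrix e f = s • (1 : Matrix σ σ k) + M := by
          rw [← hJs]; rfl
        rw [e2, e3] at e1
        show (-M).charpoly.eval s = 0
        rw [eval_charpoly, sub_neg_eq_add, ← e1]
        congr 2
        ext a b
        simp [Matrix.one_apply, Matrix.diagonal_apply]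
      refine Set.Finite.subset ?_ hsub
      exact Polynomial.finite_setOf_isRoot (charpoly_monic _).ne_zero
    exact hfin.measure_zero μ
  have h2 : (μ.prod ν) (Prod.swap ⁻¹' S) = 0 := by
    rw [← Measure.prod_swap (μ := μ) (ν := ν), Measure.map_apply measurable_swap hS] at h1
    exact h1
  rw [Measure.measure_prod_null (measurable_swap hS)] at h2
  have h3 : ∀ s : k, ν (Prod.mk s ⁻¹' (Prod.swap ⁻¹' S)) = ν A := fun s =>
    measure_preimage_add ν (s • Y1) A
  have h4 : ∀ᵐ s ∂μ, ν A = 0 := by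
    filter_upwards [h2] with s hs
    rw [← h3 s]; exact hs
  have h5 : ν A = 0 := by
    by_contra hne
    have : μ Set.univ = 0 := by
      rw [ae_iff] at h4
      simpa [hne] using h4
    have h6 : μ (Metric.closedBall (0 : k) 1) = 0 := measure_mono_null (Set.subset_univ _) this
    exact (Metric.measure_closedBall_pos μ (0 : k) one_pos).ne' h6
  rw [ae_iff]
  convert h5 using 2
  ext Y
  simp [hA]

/-- Haar measure on the unit ball, normalised -/
noncomputable def mF (k : Type) [NontriviallyNormedField k] [ProperSpace k] [MeasurableSpace k]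
    [BorelSpace k] (n : ℕ) (κ : Type) [Fintype κ] : Measure (Fin n → κ → k) :=
  ((Measure.addHaar : Measure (Fin n → κ → k)) (Metric.closedBall 0 1))⁻¹ •
    (Measure.addHaar : Measure (Fin n → κ → k)).restrict (Metric.closedBall 0 1)

variable {j m : ℕ}

/-- the conditions on the measure -/
structure Frf (hd : j + m ≤ n) (ν : Measure (Fin n → (Fin j ⊕ Fin m) → k)) : Prop where
  prob : IsProbabilityMeasure ν
  bd : ∀ᵐ Y ∂ν, ∀ a b, ‖Y a b‖ ≤ 1
  gen : ∀ V V' : Matrix (Fin n) (Fin n) k, V * V' = 1 → ∀ᵐ Y ∂ν,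
    (tp hd (V * Matrix.of Y)).det ≠ 0 ∧ (tp hd (V * Matrix.of Y)).toBlocks₁₁.det ≠ 0

theorem frf_mF (hd : j + m ≤ n) : Frf hd (mF k n (Fin j ⊕ Fin m)) where
  prob := by
    constructor
    rw [mF, Measure.smul_apply, Measure.restrict_apply_univ, smul_eq_mul]
    exact ENNReal.inv_mul_cancel (Metric.measure_closedBall_pos _ _ one_pos).ne'
      (isCompact_closedBall _ _).measure_lt_top.ne
  bd := by
    have h1 : ∀ᵐ Y ∂(Measure.addHaar : Measure (Fin n → (Fin j ⊕ Fin m) → k)).restrict
        (Metric.closedBall 0 1),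
        Y ∈ Metric.closedBall (0 : Fin n → (Fin j ⊕ Fin m) → k) 1 :=
      ae_restrict_mem Metric.isClosed_closedBall.measurableSet
    refine Measure.ae_smul_measure ?_ _
    filter_upwards [h1] with Y hY a b
    rw [mem_closedBall_zero_iff] at hY
    exact (norm_le_pi_norm (Y a) b).trans ((norm_le_pi_norm Y a).trans hY)
  gen V V' hV := by
    refine Measure.ae_smul_measure (ae_restrict_of_ae ?_) _
    have h1 := gen_sub (k := k) (em_inj hd) (Function.injective_id (α := Fin j ⊕ Fin m))
      (Measure.addHaar) V V' hV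
    have h2 := gen_sub (k := k) (κ := Fin j ⊕ Fin m) ((em_inj hd).comp Sum.inl_injective)
      (Sum.inl_injective (β := Fin m)) (Measure.addHaar) V V' hV
    filter_upwards [h1, h2] with Y hY hY2
    exact ⟨hY, hY2⟩

/-- the size of the two minors -/
noncomputable def tf (hd : j + m ≤ n) (V : Matrix (Fin n) (Fin n) k)
    (Y : Fin n → (Fin j ⊕ Fin m) → k) : ℝ :=
  ‖(tp hd (V * Matrix.of Y)).det‖ * ‖(tp hd (V * Matrix.of Y)).toBlocks₁₁.det‖

theorem continuous_tf (hd : j + m ≤ n) : Continuous fun z : Matrix (Fin n) (Fin n) k ×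
    (Fin n → (Fin j ⊕ Fin m) → k) => tf hd z.1 z.2 := by
  have h1 : Continuous fun z : Matrix (Fin n) (Fin n) k × (Fin n → (Fin j ⊕ Fin m) → k) =>
      z.1 * Matrix.of z.2 := continuous_fst.matrix_mul continuous_snd
  refine Continuous.mul ?_ ?_
  · exact (h1.matrix_submatrix (em hd) id).matrix_det.norm
  · exact (h1.matrix_submatrix (em hd ∘ Sum.inl) Sum.inl).matrix_det.norm

theorem tf_local {hd : j + m ≤ n} {ν : Measure (Fin n → (Fin j ⊕ Fin m) → k)}
    [IsFiniteMeasure ν] {V : Matrix (Fin n) (Fin n) k} (hV : ∀ᵐ Y ∂ν, tf hd V Y ≠ 0)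
    {η : ENNReal} (hη : 0 < η) :
    ∀ᶠ z : ℝ × Matrix (Fin n) (Fin n) k in 𝓝 ((0 : ℝ), V), ν {Y | tf hd z.2 Y < z.1} < η := by
  have h2 : Tendsto (fun z : ℝ × Matrix (Fin n) (Fin n) k => ν {Y | tf hd z.2 Y < z.1})
      (𝓝 ((0 : ℝ), V)) (𝓝 (ν ∅)) := by
    haveI : FirstCountableTopology (Matrix (Fin n) (Fin n) k) :=
      inferInstanceAs (FirstCountableTopology (Fin n → Fin n → k))
    refine tendsto_measure_of_ae_tendsto_indicator_of_isFiniteMeasure _
      MeasurableSet.empty (fun z => ?_) ?_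
    · have : Continuous fun Y : Fin n → (Fin j ⊕ Fin m) → k => tf hd z.2 Y :=
        (continuous_tf hd).comp (Continuous.prodMk continuous_const continuous_id)
      exact (isOpen_Iio.preimage this).measurableSet
    · filter_upwards [hV] with Y hY
      have hc2 : Continuous fun z : ℝ × Matrix (Fin n) (Fin n) k => tf hd z.2 Y - z.1 :=
        ((continuous_tf hd).comp (Continuous.prodMk continuous_snd continuous_const)).sub
          continuous_fst
      have h3 : ∀ᶠ z : ℝ × Matrix (Fin n) (Fin n) k in 𝓝 ((0 : ℝ), V),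
          0 < tf hd z.2 Y - z.1 := by
        refine (hc2.tendsto _).eventually (lt_mem_nhds ?_)
        show 0 < tf hd V Y - 0
        rw [sub_zero]
        exact lt_of_le_of_ne (by unfold tf; positivity) (Ne.symm hY)
      filter_upwards [h3] with z hz
      simp only [Set.mem_setOf_eq, Set.mem_empty_iff_false, iff_false, not_lt]
      linarith
  rw [measure_empty] at h2
  exact h2.eventually (gt_mem_nhds hη)

/-- **Uniform general position.** -/
theorem null_tf {hd : j + m ≤ n} {ν : Measure (Fin n → (Fin j ⊕ Fin m) → k)} (hm : Frf hd ν)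
    (C : ℝ) {η : ℝ} (hη : 0 < η) : ∃ c : ℝ, 0 < c ∧ ∀ V V' : Matrix (Fin n) (Fin n) k,
      (∀ a b, ‖V a b‖ ≤ C) → (∀ a b, ‖V' a b‖ ≤ C) → V * V' = 1 →
        ν {Y | tf hd V Y < c} < ENNReal.ofReal η := by
  have := hm.prob
  have hK : IsCompact (Prod.fst '' gbox k n C) := (isCompact_gbox C).image continuous_fst
  have h := hK.eventually_forall_of_forall_eventually (x₀ := (0 : ℝ))
    (P := fun c V => ν {Y | tf hd V Y < c} < ENNReal.ofReal η) (by
      rintro V ⟨p, hp, rfl⟩
      refine tf_local ?_ (ENNReal.ofReal_pos.2 hη)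
      filter_upwards [hm.gen p.1 p.2 hp.2] with Y hY
      exact mul_ne_zero (norm_pos_iff.2 hY.1).ne' (norm_pos_iff.2 hY.2).ne')
  obtain ⟨δ, hδ, hh⟩ := Metric.eventually_nhds_iff.1 h
  refine ⟨δ / 2, half_pos hδ, fun V V' hV hV' e => ?_⟩
  refine hh (y := δ / 2) ?_ V ⟨(V, V'), ⟨⟨hV, hV'⟩, e⟩, rfl⟩
  rw [Real.dist_eq, sub_zero, abs_of_pos (half_pos hδ)]
  linarith

/-- both minors are bounded below where `tf` is -/
theorem tf_ge (j m : ℕ) {B c : ℝ} (hB : 1 ≤ B) (hc : 0 < c) : ∃ c' : ℝ, 0 < c' ∧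
    ∀ (n : ℕ) (hd : j + m ≤ n) (V : Matrix (Fin n) (Fin n) k) (Y : Fin n → (Fin j ⊕ Fin m) → k),
      (∀ x y, ‖(V * Matrix.of Y) x y‖ ≤ B) → c ≤ tf hd V Y →
        c' ≤ ‖(tp hd (V * Matrix.of Y)).det‖ ∧ c' ≤ ‖(tp hd (V * Matrix.of Y)).toBlocks₁₁.det‖ := by
  obtain ⟨K1, hK1⟩ : ∃ K1 : ℝ, K1 = (j + m).factorial * B ^ (j + m) := ⟨_, rfl⟩
  obtain ⟨K2, hK2⟩ : ∃ K2 : ℝ, K2 = j.factorial * B ^ j := ⟨_, rfl⟩
  have f1 : (0 : ℝ) < (j + m).factorial := by exact_mod_cast Nat.factorial_pos _
  have f2 : (0 : ℝ) < j.factorial := by exact_mod_cast Nat.factorial_pos _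
  have hB0 : 0 < B := by linarith
  have hK10 : 0 < K1 := by rw [hK1]; positivity
  have hK20 : 0 < K2 := by rw [hK2]; positivity
  refine ⟨min (c / K2) (c / K1), lt_min (by positivity) (by positivity),
    fun n hd V Y hW h => ⟨?_, ?_⟩⟩
  · have h2 : ‖(tp hd (V * Matrix.of Y)).toBlocks₁₁.det‖ ≤ K2 := by
      have := norm_det_le hB0.le (tp hd (V * Matrix.of Y)).toBlocks₁₁ fun x y => hW _ _
      rwa [Fintype.card_fin, ← hK2] at this
    refine (min_le_left _ _).trans ?_
    rw [div_le_iff₀ hK20]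
    exact h.trans (mul_le_mul_of_nonneg_left h2 (norm_nonneg _))
  · have h2 : ‖(tp hd (V * Matrix.of Y)).det‖ ≤ K1 := by
      have := norm_det_le hB0.le (tp hd (V * Matrix.of Y)) fun x y => hW _ _
      rwa [Fintype.card_sum, Fintype.card_fin, Fintype.card_fin, ← hK1] at this
    refine (min_le_right _ _).trans ?_
    rw [div_le_iff₀ hK10, mul_comm]
    exact h.trans (mul_le_mul_of_nonneg_right h2 (norm_nonneg _))

end gen

end Vale.Agent.P092.H100.Mid
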