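import Vale.Agent.P092.H100.Mid3
import Vale.Agent.P092.H100.Ker3

/-!
P092 (helper100), [P2-MID] 4: the contraction lemma for flags of frames.
-/

set_option linter.all false

open Matrix MeasureTheory Topology Filter

namespace Vale.Agent.P092.H100.Mid

open Vale.Agent.P092.H87.Contr (gbox box isCompact_gbox gbox_inv Dec)
open Vale.Agent.P092.H85.Ker (Inj)
open Vale.Agent.P092.H100.Ker (inj_mul inj_of_inv isOpen_inj)

section alg

variable {k : Type} [NontriviallyNormedField k] {n j m : ℕ}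

/-- the first columns of `1` -/
def JJ (k : Type) [NontriviallyNormedField k] (hd : j + m ≤ n) : Matrix (Fin n) (Fin j ⊕ Fin m) k :=
  (1 : Matrix (Fin n) (Fin n) k).submatrix id (em hd)

theorem JJ_em (hd : j + m ≤ n) (r c : Fin j ⊕ Fin m) :
    JJ k hd (em hd r) c = (1 : Matrix (Fin j ⊕ Fin m) (Fin j ⊕ Fin m) k) r c := by
  rw [JJ, submatrix_apply, id, one_apply, one_apply]
  simp [(em_inj hd).eq_iff]

theorem inj_of_tp (hd : j + m ≤ n) {W : Matrix (Fin n) (Fin j ⊕ Fin m) k}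
    (h : (tp hd W).det ≠ 0) : Inj W := by
  intro v hv
  refine Matrix.eq_zero_of_mulVec_eq_zero h ?_
  ext x
  exact congrFun hv (em hd x)

theorem tp_JJ (hd : j + m ≤ n) : tp hd (JJ k hd) = 1 := by
  ext r c
  exact JJ_em hd r c

theorem inj_JJ (hd : j + m ≤ n) : Inj (JJ k hd) :=
  inj_of_tp hd (by rw [tp_JJ, det_one]; exact one_ne_zero)

/-- **The pointwise contraction.** -/
theorem contr2 (hd : j + m ≤ n) {B T : ℝ} (hB : 1 ≤ B) (hT0 : 0 < T) {d : Fin n → k}
    (hd0 : ∀ i, d i ≠ 0)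
    (hT : ∀ i l : Fin n, (i : ℕ) < j → j ≤ (l : ℕ) → T * ‖d l‖ ≤ ‖d i‖)
    (hT2 : ∀ i l : Fin n, (i : ℕ) < j + m → j + m ≤ (l : ℕ) → T * ‖d l‖ ≤ ‖d i‖)
    {W : Matrix (Fin n) (Fin j ⊕ Fin m) k} (h : Nice hd B W) :
    ∃ E : Matrix (Fin n) (Fin j ⊕ Fin m) k,
      diagonal d * W * diagonal (fun c => (d (em hd c))⁻¹) = JJ k hd + E ∧
      ∀ x c, ‖E x c‖ ≤ B / T := by
  refine ⟨diagonal d * W * diagonal (fun c => (d (em hd c))⁻¹) - JJ k hd,
    (add_sub_cancel _ _).symm, fun x c => ?_⟩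
  have e1 : (diagonal d * W * diagonal (fun c => (d (em hd c))⁻¹)) x c =
      d x * W x c * (d (em hd c))⁻¹ := by rw [mul_diagonal, diagonal_mul]
  rw [Matrix.sub_apply, e1]
  have hBT : 0 ≤ B / T := by positivity
  obtain ⟨τ, hτ⟩ := h.tp
  have hW : ∀ r, W (em hd r) c = (fromBlocks 1 0 τ 1 : Matrix (Fin j ⊕ Fin m) (Fin j ⊕ Fin m) k) r c :=
    fun r => by rw [← hτ]; rfl
  -- the contracted entries
  have key : ∀ x, T * ‖d x‖ ≤ ‖d (em hd c)‖ → ‖d x * W x c * (d (em hd c))⁻¹‖ ≤ B / T := by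
    intro x hx
    have hb : 0 < ‖d (em hd c)‖ := norm_pos_iff.2 (hd0 _)
    rw [norm_mul, norm_mul, norm_inv]
    have h3 : ‖d x‖ * ‖d (em hd c)‖⁻¹ ≤ 1 / T := by
      rw [← div_eq_mul_inv, div_le_div_iff₀ hb hT0]
      linarith
    calc ‖d x‖ * ‖W x c‖ * ‖d (em hd c)‖⁻¹ = (‖d x‖ * ‖d (em hd c)‖⁻¹) * ‖W x c‖ := by ring
      _ ≤ 1 / T * B := mul_le_mul h3 (h.le x c) (norm_nonneg _) (by positivity)
      _ = _ := by ring
  by_cases hx : (x : ℕ) < j + m
  · obtain ⟨r, rfl⟩ := exists_em hd x hx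
    rw [hW, JJ_em]
    rcases r with r | r <;> rcases c with c | c
    · rw [fromBlocks_apply₁₁, one_apply, one_apply]
      by_cases hrc : r = c
      · subst hrc
        rw [if_pos rfl, if_pos rfl, mul_one, mul_inv_cancel₀ (hd0 _), sub_self, norm_zero]
        exact hBT
      · rw [if_neg hrc, if_neg (by simpa using hrc), mul_zero, zero_mul, sub_self, norm_zero]
        exact hBT
    · rw [fromBlocks_apply₁₂, Matrix.zero_apply, one_apply, if_neg (by simp), mul_zero, zero_mul,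
        sub_self, norm_zero]
      exact hBT
    · have h2 := key (em hd (Sum.inr r)) (hT _ _ (by rw [em_inl]; exact c.2)
        (by rw [em_inr]; exact Nat.le_add_right _ _))
      rw [hW] at h2
      rw [one_apply, if_neg (by simp), sub_zero]
      exact h2
    · rw [fromBlocks_apply₂₂, one_apply, one_apply]
      by_cases hrc : r = c
      · subst hrc
        rw [if_pos rfl, if_pos rfl, mul_one, mul_inv_cancel₀ (hd0 _), sub_self, norm_zero]
        exact hBT
      · rw [if_neg hrc, if_neg (by simpa using hrc), mul_zero, zero_mul, sub_self, norm_zero]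
        exact hBT
  · have hne : x ≠ em hd c := by
      rintro rfl
      exact hx (by rw [em]; exact (finSumFinEquiv c).2)
    have e2 : JJ k hd x c = 0 := by rw [JJ, submatrix_apply, id, one_apply_ne hne]
    rw [e2, sub_zero]
    exact key x (hT2 _ _ (by rw [em]; exact (finSumFinEquiv c).2) (not_lt.1 hx))

end alg

section meas

variable {k : Type} [NontriviallyNormedField k] [ProperSpace k] [MeasurableSpace k]
  [BorelSpace k] {n j m : ℕ}

/-- The functions of frames: bounded, continuous on the injective frames, invariant under the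
parabolic subgroup. -/
structure Fz (F : Matrix (Fin n) (Fin j ⊕ Fin m) k → ℝ) : Prop where
  le : ∀ X, Inj X → |F X| ≤ 1
  cont : ∀ X, Inj X → ContinuousAt F X
  inv : ∀ X, Inj X → ∀ (g11 : Matrix (Fin j) (Fin j) k) (g12 : Matrix (Fin j) (Fin m) k)
    (g22 g22' : Matrix (Fin m) (Fin m) k), g11.det ≠ 0 → g22 * g22' = 1 →
      F (X * fromBlocks g11 g12 0 g22) = F X

/-- Uniform continuity near the frames `U J`. -/
theorem Fz.unif (hd : j + m ≤ n) {F : Matrix (Fin n) (Fin j ⊕ Fin m) k → ℝ} (hF : Fz F) (C : ℝ)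
    {ε : ℝ} (hε : 0 < ε) : ∃ δ : ℝ, 0 < δ ∧ ∀ U U' : Matrix (Fin n) (Fin n) k,
      (∀ a b, ‖U a b‖ ≤ C) → (∀ a b, ‖U' a b‖ ≤ C) → U * U' = 1 →
      ∀ E : Matrix (Fin n) (Fin j ⊕ Fin m) k, (∀ a b, ‖E a b‖ ≤ δ) →
        |F (U * (JJ k hd + E)) - F (U * JJ k hd)| < ε := by
  have hK : IsCompact (Prod.fst '' gbox k n C) := (isCompact_gbox C).image continuous_fst
  have h := hK.eventually_forall_of_forall_eventually (x₀ := (0 : Fin n → (Fin j ⊕ Fin m) → k))
    (P := fun E U => |F (U * (JJ k hd + Matrix.of E)) - F (U * JJ k hd)| < ε) (by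
      intro U hU
      obtain ⟨U', -, -, -, e⟩ := gbox_inv hU
      have hmem : Inj (U * JJ k hd) := inj_mul (inj_of_inv e) (inj_JJ hd)
      have hcA := hF.cont _ hmem
      have f1 : ContinuousAt (fun z : (Fin n → (Fin j ⊕ Fin m) → k) × Matrix (Fin n) (Fin n) k =>
          F (z.2 * (JJ k hd + Matrix.of z.1))) ((0 : Fin n → (Fin j ⊕ Fin m) → k), U) := by
        have hc : Continuous fun z : (Fin n → (Fin j ⊕ Fin m) → k) × Matrix (Fin n) (Fin n) k =>
            z.2 * (JJ k hd + Matrix.of z.1) :=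
          continuous_snd.matrix_mul (continuous_const.add continuous_fst)
        refine ContinuousAt.comp (f := fun z : (Fin n → (Fin j ⊕ Fin m) → k) ×
            Matrix (Fin n) (Fin n) k => z.2 * (JJ k hd + Matrix.of z.1)) (g := F) ?_
            hc.continuousAt
        have e0 : U * (JJ k hd + Matrix.of (0 : Fin n → (Fin j ⊕ Fin m) → k)) = U * JJ k hd := by
          have : (Matrix.of (0 : Fin n → (Fin j ⊕ Fin m) → k) :
            Matrix (Fin n) (Fin j ⊕ Fin m) k) = 0 := rfl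
          rw [this, add_zero]
        simp only [e0]
        exact hcA
      have f2 : ContinuousAt (fun z : (Fin n → (Fin j ⊕ Fin m) → k) × Matrix (Fin n) (Fin n) k =>
          F (z.2 * JJ k hd)) ((0 : Fin n → (Fin j ⊕ Fin m) → k), U) := by
        have hc : Continuous fun z : (Fin n → (Fin j ⊕ Fin m) → k) × Matrix (Fin n) (Fin n) k =>
            z.2 * JJ k hd := continuous_snd.matrix_mul continuous_const
        exact ContinuousAt.comp (f := fun z : (Fin n → (Fin j ⊕ Fin m) → k) ×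
            Matrix (Fin n) (Fin n) k => z.2 * JJ k hd) (g := F) hcA hc.continuousAt
      have f3 := (f1.sub f2).abs
      refine f3.eventually (gt_mem_nhds ?_)
      have e0 : (Matrix.of (0 : Fin n → (Fin j ⊕ Fin m) → k) :
        Matrix (Fin n) (Fin j ⊕ Fin m) k) = 0 := rfl
      simp only [Pi.sub_apply, e0, add_zero, sub_self, abs_zero]
      exact hε)
  obtain ⟨δ, hδ, hh⟩ := Metric.eventually_nhds_iff.1 h
  refine ⟨δ / 2, half_pos hδ, fun U U' hU hU' e E hE => ?_⟩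
  have hE' : ∀ E : Fin n → (Fin j ⊕ Fin m) → k, (∀ a b, ‖E a b‖ ≤ δ / 2) → dist E 0 < δ := by
    intro E hE
    rw [dist_zero_right]
    refine lt_of_le_of_lt ?_ (half_lt_self hδ)
    rw [pi_norm_le_iff_of_nonneg (half_pos hδ).le]
    intro a
    rw [pi_norm_le_iff_of_nonneg (half_pos hδ).le]
    exact hE a
  exact hh (y := E) (hE' E hE) U ⟨(U, U'), ⟨⟨hU, hU'⟩, e⟩, rfl⟩

theorem ae_inj {hd : j + m ≤ n} {ν : Measure (Fin n → (Fin j ⊕ Fin m) → k)} (hm : Frf hd ν)
    {A : Matrix (Fin n) (Fin n) k} (hA : Inj A) : ∀ᵐ Y ∂ν, Inj (A * Matrix.of Y) := by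
  filter_upwards [hm.gen 1 1 (Matrix.mul_one 1)] with Y hY
  rw [Matrix.one_mul] at hY
  exact inj_mul hA (inj_of_tp hd hY.1)

theorem Fz.integrable {hd : j + m ≤ n} {ν : Measure (Fin n → (Fin j ⊕ Fin m) → k)}
    (hm : Frf hd ν) {F : Matrix (Fin n) (Fin j ⊕ Fin m) k → ℝ} (hF : Fz F)
    {A : Matrix (Fin n) (Fin n) k} (hA : Inj A) :
    Integrable (fun Y : Fin n → (Fin j ⊕ Fin m) → k => F (A * Matrix.of Y)) ν := by
  have := hm.prob
  have hc : Continuous fun Y : Fin n → (Fin j ⊕ Fin m) → k => A * Matrix.of Y :=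
    continuous_const.matrix_mul continuous_id
  have haes : AEStronglyMeasurable (fun Y : Fin n → (Fin j ⊕ Fin m) → k =>
      F (A * Matrix.of Y)) ν := by
    have hopen : IsOpen {Y : Fin n → (Fin j ⊕ Fin m) → k | Inj (A * Matrix.of Y)} :=
      isOpen_inj.preimage hc
    rw [← Measure.restrict_eq_self_of_ae_mem (ae_inj hm hA :
      ∀ᵐ Y ∂ν, Y ∈ {Y : Fin n → (Fin j ⊕ Fin m) → k | Inj (A * Matrix.of Y)})]
    refine ContinuousOn.aestronglyMeasurable ?_ hopen.measurableSet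
    intro Y hY
    exact (ContinuousAt.comp (f := fun Y : Fin n → (Fin j ⊕ Fin m) → k => A * Matrix.of Y)
      (hF.cont _ hY) hc.continuousAt).continuousWithinAt
  refine Integrable.of_bound haes 1 ?_
  filter_upwards [ae_inj hm hA] with Y hY
  exact hF.le _ hY

/-- the invariance, in the form of the contraction -/
theorem Fz.step (hd : j + m ≤ n) {F : Matrix (Fin n) (Fin j ⊕ Fin m) k → ℝ} (hF : Fz F)
    {h U V : Matrix (Fin n) (Fin n) k} {d : Fin n → k} (hh : h = U * diagonal d * V)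
    (hne : ∀ i, d i ≠ 0) {g11 : Matrix (Fin j) (Fin j) k} {g12 : Matrix (Fin j) (Fin m) k}
    {g22 g22' : Matrix (Fin m) (Fin m) k} (h11 : g11.det ≠ 0) (h22 : g22 * g22' = 1)
    {Y : Matrix (Fin n) (Fin j ⊕ Fin m) k} (hY : Inj (h * Y)) :
    F (U * (diagonal d * (V * Y * fromBlocks g11 g12 0 g22) *
      diagonal (fun c => (d (em hd c))⁻¹))) = F (h * Y) := by
  obtain ⟨D, hD⟩ : ∃ D : Fin j ⊕ Fin m → k, D = fun c => (d (em hd c))⁻¹ := ⟨_, rfl⟩
  have hDn : ∀ c, D c ≠ 0 := fun c => by rw [hD]; exact inv_ne_zero (hne _)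
  obtain ⟨D1, hD1⟩ : ∃ D1 : Matrix (Fin j) (Fin j) k, D1 = diagonal fun x => D (Sum.inl x) :=
    ⟨_, rfl⟩
  obtain ⟨D2, hD2⟩ : ∃ D2 : Matrix (Fin m) (Fin m) k, D2 = diagonal fun x => D (Sum.inr x) :=
    ⟨_, rfl⟩
  obtain ⟨D3, hD3⟩ : ∃ D3 : Matrix (Fin m) (Fin m) k, D3 = diagonal fun x => (D (Sum.inr x))⁻¹ :=
    ⟨_, rfl⟩
  have hDd : diagonal D = fromBlocks D1 0 0 D2 := by
    rw [hD1, hD2, fromBlocks_diagonal]
    congr 1
    funext c
    rcases c with c | c <;> rfl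
  have h1 : D1.det ≠ 0 := by
    rw [hD1, det_diagonal]
    exact Finset.prod_ne_zero_iff.2 fun x _ => hDn _
  have h2 : D2 * D3 = 1 := by
    rw [hD2, hD3, diagonal_mul_diagonal, ← diagonal_one]
    congr 1
    funext x
    exact mul_inv_cancel₀ (hDn _)
  have e2 : fromBlocks g11 g12 0 g22 * diagonal D =
      fromBlocks (g11 * D1) (g12 * D2) 0 (g22 * D2) := by
    rw [hDd, fromBlocks_multiply, Matrix.mul_zero, Matrix.mul_zero, Matrix.mul_zero,
      Matrix.zero_mul, Matrix.zero_mul, add_zero, zero_add, zero_add, zero_add]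
  have e3 : U * (diagonal d * (V * Y * fromBlocks g11 g12 0 g22) * diagonal D) =
      h * Y * fromBlocks (g11 * D1) (g12 * D2) 0 (g22 * D2) := by
    rw [← e2, hh]; simp only [Matrix.mul_assoc]
  rw [← hD, e3]
  refine hF.inv _ hY _ _ _ (D3 * g22') ?_ ?_
  · rw [det_mul]
    exact mul_ne_zero h11 h1
  · calc g22 * D2 * (D3 * g22') = g22 * (D2 * D3) * g22' := by simp only [Matrix.mul_assoc]
      _ = 1 := by rw [h2, Matrix.mul_one, h22]

/-- the contraction of one frame in general position -/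
theorem Fz.pt (hd : j + m ≤ n) {F : Matrix (Fin n) (Fin j ⊕ Fin m) k → ℝ} (hF : Fz F) (C : ℝ)
    {ε : ℝ} (hε : 0 < ε) {c : ℝ} (hc : 0 < c) :
    ∃ T : ℝ, 0 < T ∧ ∀ (h : Matrix (Fin n) (Fin n) k) (d : Fin n → k)
      (U U' V V' : Matrix (Fin n) (Fin n) k), Dec j C T h d U U' V V' →
        Dec (j + m) C T h d U U' V V' → ∀ Y : Fin n → (Fin j ⊕ Fin m) → k,
        (∀ a b, ‖Y a b‖ ≤ 1) → Inj (h * Matrix.of Y) → c ≤ tf hd V Y →
        |F (h * Matrix.of Y) - F (U * JJ k hd)| ≤ ε := by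
  obtain ⟨δ, hδ, hunif⟩ := hF.unif hd C hε
  obtain ⟨B, hB⟩ : ∃ B : ℝ, B = max 1 (n * (C * 1)) := ⟨_, rfl⟩
  have hB1 : 1 ≤ B := hB ▸ le_max_left _ _
  obtain ⟨c', hc', htf⟩ := tf_ge (k := k) j m hB1 hc
  obtain ⟨B', hB', hnice⟩ := exists_nice (k := k) j m hB1 hc'
  have hT0 : 0 < B' / δ := by positivity
  refine ⟨B' / δ, hT0, fun h d U U' V V' H H2 Y hY hYi hb' => ?_⟩
  have hW : ∀ a b, ‖(V * Matrix.of Y) a b‖ ≤ B := by
    intro a b
    have hC : 0 ≤ C := (norm_nonneg _).trans (H.hV a a)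
    have := mul_le' hC H.hV (N := Matrix.of Y) (fun x y => hY x y) a b
    rw [Fintype.card_fin] at this
    exact this.trans (hB ▸ le_max_right _ _)
  obtain ⟨t1, t2⟩ := htf n hd V Y hW hb'
  obtain ⟨g11, g12, g22, g22', h11, h22, hN⟩ := hnice n hd _ hW t1 t2
  obtain ⟨E, hE, hEb⟩ := contr2 hd hB' hT0 H.ne H.gap H2.gap hN
  have hE2 : ∀ a b, ‖E a b‖ ≤ δ := by
    intro a b
    refine (hEb a b).trans (le_of_eq ?_)
    field_simp
  have e1 : F (h * Matrix.of Y) = F (U * (JJ k hd + E)) := by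
    rw [← hE]
    exact (hF.step hd H.eq H.ne h11 h22 hYi).symm
  rw [e1]
  exact (hunif U U' H.hU H.hU' H.uu E hE2).le

theorem int_close {Ω : Type} [MeasurableSpace Ω] {ν : Measure Ω} [IsProbabilityMeasure ν]
    {f : Ω → ℝ} {a ε : ℝ} (hε : 0 < ε) (hf : Integrable f ν) {Bd : Set Ω}
    (hBdm : MeasurableSet Bd) (hmB : ν Bd ≤ ENNReal.ofReal (ε / 4))
    (hpt : ∀ᵐ Y ∂ν, ‖f Y - a‖ ≤ ε / 2 + Bd.indicator (fun _ => (2 : ℝ)) Y) :
    |(∫ Y, f Y ∂ν) - a| ≤ ε := by
  have e0 : (∫ Y, f Y ∂ν) - a = ∫ Y, (f Y - a) ∂ν := by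
    rw [integral_sub hf (integrable_const _)]
    simp
  have hind : Integrable (fun Y => ε / 2 + Bd.indicator (fun _ => (2 : ℝ)) Y) ν :=
    (integrable_const _).add ((integrable_const _).indicator hBdm)
  rw [e0]
  refine (norm_integral_le_of_norm_le hind hpt).trans ?_
  rw [integral_add (integrable_const _) ((integrable_const _).indicator hBdm),
    integral_indicator_const _ hBdm]
  have hmB' : ν.real Bd ≤ ε / 4 := ENNReal.toReal_le_of_le_ofReal (by linarith) hmB
  simp only [integral_const, probReal_univ, one_smul, smul_eq_mul]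
  linarith

/-- **The contraction: almost all frames go to `U J`.** -/
theorem con_pt2 {hd : j + m ≤ n} {ν : Measure (Fin n → (Fin j ⊕ Fin m) → k)} (hm : Frf hd ν)
    {F : Matrix (Fin n) (Fin j ⊕ Fin m) k → ℝ} (hF : Fz F) (C : ℝ) {ε : ℝ} (hε : 0 < ε) :
    ∃ T : ℝ, 0 < T ∧ ∀ (h : Matrix (Fin n) (Fin n) k) (d : Fin n → k)
      (U U' V V' : Matrix (Fin n) (Fin n) k), Dec j C T h d U U' V V' →
        Dec (j + m) C T h d U U' V V' →
        |(∫ Y, F (h * Matrix.of Y) ∂ν) - F (U * JJ k hd)| ≤ ε := by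
  have hprob := hm.prob
  obtain ⟨c, hc, hnull⟩ := null_tf hm C (η := ε / 4) (by linarith)
  obtain ⟨T, hT, hpt0⟩ := hF.pt hd C (half_pos hε) hc
  refine ⟨T, hT, fun h d U U' V V' H H2 => ?_⟩
  have hIh : Inj h := inj_of_inv H.inv
  have hUJ : Inj (U * JJ k hd) := inj_mul (inj_of_inv (mul_eq_one_comm.mp H.uu)) (inj_JJ hd)
  refine int_close hε (hF.integrable hm hIh) (Bd := {Y | tf hd V Y < c}) ?_
    (hnull V V' H.hV H.hV' H.vv).le ?_
  · have : Continuous fun Y : Fin n → (Fin j ⊕ Fin m) → k => tf hd V Y :=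
      (continuous_tf hd).comp (Continuous.prodMk continuous_const continuous_id)
    exact (isOpen_Iio.preimage this).measurableSet
  · filter_upwards [hm.bd, ae_inj hm hIh] with Y hY hYi
    by_cases hb : Y ∈ {Y | tf hd V Y < c}
    · rw [Set.indicator_of_mem hb, Real.norm_eq_abs]
      have h1 := hF.le _ hYi
      have h2 := hF.le _ hUJ
      have h3 := abs_sub (F (h * Matrix.of Y)) (F (U * JJ k hd))
      linarith
    · rw [Set.indicator_of_notMem hb, add_zero, Real.norm_eq_abs]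
      rw [Set.mem_setOf_eq, not_lt] at hb
      exact hpt0 h d U U' V V' H H2 Y hY hYi hb

/-- **The contraction lemma.** -/
theorem con2 {hd : j + m ≤ n} {ν : Measure (Fin n → (Fin j ⊕ Fin m) → k)} (hm : Frf hd ν)
    {F : Matrix (Fin n) (Fin j ⊕ Fin m) k → ℝ} (hF : Fz F) (C : ℝ)
    {f f' : Matrix (Fin n) (Fin n) k} (hf : f * f' = 1) {ε : ℝ} (hε : 0 < ε) :
    ∃ T : ℝ, 0 < T ∧ ∀ (h : Matrix (Fin n) (Fin n) k) (d : Fin n → k)
      (U U' V V' : Matrix (Fin n) (Fin n) k), Dec j C T h d U U' V V' →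
        Dec (j + m) C T h d U U' V V' →
        |(∫ Y, F (h * f * Matrix.of Y) ∂ν) - ∫ Y, F (h * Matrix.of Y) ∂ν| ≤ ε := by
  obtain ⟨Ff, hF0, hFf, hFf'⟩ : ∃ F : ℝ, 0 ≤ F ∧ (∀ a b, ‖f a b‖ ≤ F) ∧ ∀ a b, ‖f' a b‖ ≤ F := by
    refine ⟨∑ a, ∑ b, (‖f a b‖ + ‖f' a b‖), Finset.sum_nonneg fun a _ =>
      Finset.sum_nonneg fun b _ => by positivity, fun a b => ?_, fun a b => ?_⟩
    · have h1 := Finset.single_le_sum (f := fun b => ‖f a b‖ + ‖f' a b‖)
        (fun b _ => by positivity) (Finset.mem_univ b)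
      have h2 := Finset.single_le_sum (f := fun a => ∑ b, (‖f a b‖ + ‖f' a b‖))
        (fun a _ => Finset.sum_nonneg fun b _ => by positivity) (Finset.mem_univ a)
      have h3 := norm_nonneg (f' a b)
      linarith
    · have h1 := Finset.single_le_sum (f := fun b => ‖f a b‖ + ‖f' a b‖)
        (fun b _ => by positivity) (Finset.mem_univ b)
      have h2 := Finset.single_le_sum (f := fun a => ∑ b, (‖f a b‖ + ‖f' a b‖))
        (fun a _ => Finset.sum_nonneg fun b _ => by positivity) (Finset.mem_univ a)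
      have h3 := norm_nonneg (f a b)
      linarith
  obtain ⟨C', hC'⟩ : ∃ C' : ℝ, C' = max C (max (n * (C * Ff)) (n * (Ff * C))) := ⟨_, rfl⟩
  obtain ⟨T1, hT1, h1⟩ := con_pt2 hm hF C (half_pos hε)
  obtain ⟨T2, hT2, h2⟩ := con_pt2 hm hF C' (half_pos hε)
  refine ⟨max T1 T2, lt_max_of_lt_left hT1, fun h d U U' V V' H H' => ?_⟩
  have H1 : ∀ i, Dec i C (max T1 T2) h d U U' V V' → Dec i C T1 h d U U' V V' := fun i H =>
    { H with gap := fun i l hi hl => (mul_le_mul_of_nonneg_right (le_max_left _ _)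
        (norm_nonneg _)).trans (H.gap i l hi hl) }
  have H2 : ∀ i, Dec i C (max T1 T2) h d U U' V V' →
      Dec i C' T2 (h * f) d U U' (V * f) (f' * V') := fun i H =>
    { hU := fun a b => (H.hU a b).trans (hC' ▸ le_max_left _ _)
      hU' := fun a b => (H.hU' a b).trans (hC' ▸ le_max_left _ _)
      hV := fun a b => by
        have hC : 0 ≤ C := (norm_nonneg _).trans (H.hV a a)
        have := mul_le' hC H.hV hFf a b
        rw [Fintype.card_fin] at this
        exact this.trans ((le_max_left _ _).trans (hC' ▸ le_max_right _ _))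
      hV' := fun a b => by
        have := mul_le' hF0 hFf' H.hV' a b
        rw [Fintype.card_fin] at this
        exact this.trans ((le_max_right _ _).trans (hC' ▸ le_max_right _ _))
      uu := H.uu
      vv := by
        calc V * f * (f' * V') = V * (f * f') * V' := by simp only [Matrix.mul_assoc]
          _ = 1 := by rw [hf, Matrix.mul_one, H.vv]
      ne := H.ne
      gap := fun i l hi hl => (mul_le_mul_of_nonneg_right (le_max_right _ _)
        (norm_nonneg _)).trans (H.gap i l hi hl)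
      eq := by rw [H.eq]; simp only [Matrix.mul_assoc] }
  have a1 := h1 h d U U' V V' (H1 _ H) (H1 _ H')
  have a2 := h2 (h * f) d U U' (V * f) (f' * V') (H2 _ H) (H2 _ H')
  rw [abs_sub_le_iff] at a1 a2 ⊢
  constructor <;> linarith [a1.1, a1.2, a2.1, a2.2]

end meas

end Vale.Agent.P092.H100.Mid
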