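import Vale.Agent.P092.H100.Mid4
import Vale.Agent.P092.H541.Hel

/-!
P092 (helper100), [P2-MID] 5: bounds of the minors of the normal frames.
-/

set_option linter.all false

open Matrix MeasureTheory Topology Filter

namespace Vale.Agent.P092.H100.Mid

open Vale.Agent.P092.H85.Ker (Inj)
open Vale.Agent.P092.H100.Ker (inj_mul inj_of_inv isOpen_inj dat_of_sc KY_comp)
open Vale.Agent.P092.H541.Hel (Sc D KY KY_lower KY_upper' exists_zpow_D KY_smul KY_smul')

/-! ### Products of antitone sequences -/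

section prod

theorem prod_anti {f : ℕ → ℝ} (h0 : ∀ x, 0 ≤ f x) (hf : Antitone f) : ∀ (p : ℕ) (A : Finset ℕ),
    A.card = p → ∏ x ∈ A, f x ≤ ∏ x ∈ Finset.range p, f x := by
  intro p
  induction p with
  | zero =>
    intro A hA
    rw [Finset.card_eq_zero.1 hA]
    simp
  | succ p ih =>
    intro A hA
    have hne : A.Nonempty := Finset.card_pos.1 (by omega)
    have hM := A.max'_mem hne
    have hMp : p ≤ A.max' hne := by
      have h1 : A ⊆ Finset.range (A.max' hne + 1) := fun x hx =>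
        Finset.mem_range.2 (Nat.lt_succ_of_le (A.le_max' x hx))
      have := Finset.card_le_card h1
      rw [Finset.card_range, hA] at this
      omega
    rw [← Finset.mul_prod_erase A f hM, Finset.prod_range_succ, mul_comm]
    refine mul_le_mul (ih _ ?_) (hf hMp) (h0 _) (Finset.prod_nonneg fun x _ => h0 x)
    rw [Finset.card_erase_of_mem hM, hA]
    rfl

theorem prod_anti' {f : ℕ → ℝ} (h0 : ∀ x, 0 ≤ f x) (hf : Antitone f) {p q : ℕ} {A : Finset ℕ}
    (hA : A.card = p + 1) {x : ℕ} (hx : x ∈ A) (hq : q ≤ x) :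
    ∏ x ∈ A, f x ≤ (∏ x ∈ Finset.range p, f x) * f q := by
  rw [← Finset.mul_prod_erase A f hx, mul_comm]
  refine mul_le_mul (prod_anti h0 hf _ _ ?_) (hf hq) (h0 _) (Finset.prod_nonneg fun x _ => h0 x)
  rw [Finset.card_erase_of_mem hx, hA]
  rfl

end prod

section bounds

variable {k : Type} [NontriviallyNormedField k] {n j m : ℕ}

/-- the norms of `d` as a sequence -/
noncomputable def sq (d : Fin n → k) : ℕ → ℝ := fun x => if h : x < n then ‖d ⟨x, h⟩‖ else 0

theorem sq_of (d : Fin n → k) (x : Fin n) : sq d x = ‖d x‖ := by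
  rw [sq, dif_pos x.2]

theorem sq_nonneg' (d : Fin n → k) (x : ℕ) : 0 ≤ sq d x := by
  rw [sq]
  split_ifs
  · exact norm_nonneg _
  · exact le_rfl

theorem sq_anti {d : Fin n → k} (hd : ∀ i l : Fin n, i ≤ l → ‖d l‖ ≤ ‖d i‖) :
    Antitone (sq d) := by
  intro x y hxy
  by_cases hy : y < n
  · have hx : x < n := lt_of_le_of_lt hxy hy
    rw [sq, sq, dif_pos hx, dif_pos hy]
    exact hd _ _ hxy
  · rw [sq, dif_neg hy]
    exact sq_nonneg' d x

/-- the product of the first `j` -/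
noncomputable def P0 (j : ℕ) (d : Fin n → k) : ℝ := ∏ x ∈ Finset.range j, sq d x

theorem P0_pos {d : Fin n → k} (hd : ∀ i, d i ≠ 0) (hj : j ≤ n) : 0 < P0 j d :=
  Finset.prod_pos fun x hx => by
    have hx' : x < n := lt_of_lt_of_le (Finset.mem_range.1 hx) hj
    rw [sq, dif_pos hx']
    exact norm_pos_iff.2 (hd _)

theorem norm_D {d : Fin n → k} {s : Fin j ⊕ Unit → Fin n} (hs : Function.Injective s) :
    ‖∏ r, d (s r)‖ = ∏ x ∈ Finset.univ.image (fun r => (s r : ℕ)), sq d x := by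
  rw [Finset.prod_image fun a _ b _ h => hs (Fin.ext h), norm_prod]
  exact Finset.prod_congr rfl fun r _ => (sq_of d (s r)).symm

theorem card_im {s : Fin j ⊕ Unit → Fin n} (hs : Function.Injective s) :
    (Finset.univ.image (fun r => (s r : ℕ))).card = j + 1 := by
  rw [Finset.card_image_of_injective _ fun a b h => hs (Fin.ext h), Finset.card_univ,
    Fintype.card_sum, Fintype.card_fin, Fintype.card_unit]

theorem norm_D_le {d : Fin n → k} (hd : ∀ i l : Fin n, i ≤ l → ‖d l‖ ≤ ‖d i‖)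
    {s : Fin j ⊕ Unit → Fin n} (hs : Function.Injective s) :
    ‖∏ r, d (s r)‖ ≤ P0 j d * sq d j := by
  rw [norm_D hs, P0, ← Finset.prod_range_succ]
  exact prod_anti (sq_nonneg' d) (sq_anti hd) _ _ (card_im hs)

theorem norm_D_le' {d : Fin n → k} (hd : ∀ i l : Fin n, i ≤ l → ‖d l‖ ≤ ‖d i‖)
    {s : Fin j ⊕ Unit → Fin n} (hs : Function.Injective s) {q : ℕ} {r : Fin j ⊕ Unit}
    (hr : q ≤ (s r : ℕ)) : ‖∏ r, d (s r)‖ ≤ P0 j d * sq d q := by
  rw [norm_D hs]
  exact prod_anti' (sq_nonneg' d) (sq_anti hd) (card_im hs)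
    (Finset.mem_image_of_mem _ (Finset.mem_univ r)) hr

/-- the value at the top rows -/
theorem norm_D_top (hd : j + m ≤ n) (d : Fin n → k) (l : Fin m) :
    ‖∏ r, d ((em hd ∘ col (Fin j) l) r)‖ = P0 j d * sq d (j + l) := by
  rw [norm_prod, Fintype.prod_sum_type, P0]
  congr 1
  · rw [Finset.prod_range]
    refine Finset.prod_congr rfl fun x _ => ?_
    have : ((em hd (Sum.inl x) : Fin n) : ℕ) = x := rfl
    rw [← this, sq_of]
    rfl
  · rw [Fintype.prod_unique]
    have : ((em hd (Sum.inr l) : Fin n) : ℕ) = j + l := rfl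
    rw [← this, sq_of]
    rfl

/-- the bound of the minors -/
noncomputable def Bz (j : ℕ) (B : ℝ) : ℝ := (j + 1).factorial * B ^ (j + 1)

theorem Bz_pos {B : ℝ} (hB : 1 ≤ B) : 0 < Bz j B := by
  have : (0 : ℝ) < (j + 1).factorial := by exact_mod_cast Nat.factorial_pos _
  unfold Bz
  positivity

theorem zeta_le {B : ℝ} (hB : 1 ≤ B) {W : Matrix (Fin n) (Fin j ⊕ Fin m) k}
    (h : ∀ x y, ‖W x y‖ ≤ B) (s : Fin j ⊕ Unit → Fin n) (i : Fin m) :
    ‖zeta W s i‖ ≤ Bz j B := by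
  have := norm_det_le (by linarith) (W.submatrix s (col (Fin j) i)) fun x y => h _ _
  rwa [Fintype.card_sum, Fintype.card_fin, Fintype.card_unit] at this

variable {hd : j + m ≤ n} {B : ℝ} {W : Matrix (Fin n) (Fin j ⊕ Fin m) k}

theorem Nice.top (h : Nice hd B W) (l i : Fin m) :
    zeta W (em hd ∘ col (Fin j) l) i = (1 : Matrix (Fin m) (Fin m) k) l i := by
  obtain ⟨τ, hτ⟩ := h.tp
  exact zeta_top hτ l i

theorem Nice.zv (h : Nice hd B W) (v : Fin m → k) (l : Fin m) :
    (zeta W *ᵥ v) (em hd ∘ col (Fin j) l) = v l := by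
  change ∑ i, zeta W (em hd ∘ col (Fin j) l) i * v i = v l
  simp_rw [h.top]
  have : ((1 : Matrix (Fin m) (Fin m) k) *ᵥ v) l = v l := by rw [one_mulVec]
  exact this

theorem Nice.ge (h : Nice hd B W) (v : Fin m → k) : ‖v‖ ≤ ‖zeta W *ᵥ v‖ :=
  (pi_norm_le_iff_of_nonneg (norm_nonneg _)).2 fun l => by
    rw [← h.zv v l]
    exact norm_le_pi_norm _ _

theorem Nice.up (h : Nice hd B W) (hB : 1 ≤ B) (v : Fin m → k) :
    ‖zeta W *ᵥ v‖ ≤ m * Bz j B * ‖v‖ := by
  have := mv_le (Bz_pos hB).le (zeta_le hB h.le) v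
  rwa [Fintype.card_fin] at this

/-- the diagonal matrix of the products -/
noncomputable def DD (j : ℕ) (d : Fin n → k) : (Fin j ⊕ Unit → Fin n) → k := fun s => ∏ r, d (s r)

variable {d : Fin n → k}

theorem Nice.dv (h : Nice hd B W) (v : Fin m → k) (l : Fin m) :
    ((diagonal (DD j d) * zeta W) *ᵥ v) (em hd ∘ col (Fin j) l) =
      DD j d (em hd ∘ col (Fin j) l) * v l := by
  rw [← mulVec_mulVec, mulVec_diagonal, h.zv]

theorem Nice.d_up (h : Nice hd B W) (hB : 1 ≤ B)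
    (hda : ∀ i l : Fin n, i ≤ l → ‖d l‖ ≤ ‖d i‖) (v : Fin m → k) :
    ‖(diagonal (DD j d) * zeta W) *ᵥ v‖ ≤ m * (P0 j d * sq d j * Bz j B) * ‖v‖ := by
  have hP : 0 ≤ P0 j d := Finset.prod_nonneg fun x _ => sq_nonneg' d x
  have hs := sq_nonneg' d j
  have hz := (Bz_pos (j := j) hB).le
  have := mv_le (B := P0 j d * sq d j * Bz j B) (by positivity) (M := diagonal (DD j d) * zeta W)
    (fun s i => by
      rw [diagonal_mul, norm_mul]
      by_cases hs' : Function.Injective s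
      · exact mul_le_mul (norm_D_le hda hs') (zeta_le hB h.le s i) (norm_nonneg _)
          (by positivity)
      · rw [zeta_inj hs', norm_zero, mul_zero]
        positivity) v
  rwa [Fintype.card_fin] at this

theorem Nice.d_low (h : Nice hd B W) (hda : ∀ i l : Fin n, i ≤ l → ‖d l‖ ≤ ‖d i‖) {q : ℕ}
    (hq : q + 1 = j + m) (v : Fin m → k) :
    P0 j d * sq d q * ‖v‖ ≤ ‖(diagonal (DD j d) * zeta W) *ᵥ v‖ := by
  have hP : 0 ≤ P0 j d := Finset.prod_nonneg fun x _ => sq_nonneg' d x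
  have hs := sq_nonneg' d q
  obtain ⟨c, hc⟩ : ∃ c : ℝ, c = P0 j d * sq d q := ⟨_, rfl⟩
  have hc0 : 0 ≤ c := by rw [hc]; positivity
  rw [← hc]
  rcases hc0.eq_or_lt with h0 | h0
  · rw [← h0, zero_mul]
    exact norm_nonneg _
  rw [mul_comm, ← le_div_iff₀ h0]
  refine (pi_norm_le_iff_of_nonneg (by positivity)).2 fun l => ?_
  rw [le_div_iff₀ h0, mul_comm]
  have h1 := norm_le_pi_norm ((diagonal (DD j d) * zeta W) *ᵥ v) (em hd ∘ col (Fin j) l)
  rw [h.dv, norm_mul] at h1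
  refine (mul_le_mul_of_nonneg_right ?_ (norm_nonneg _)).trans h1
  rw [DD, norm_D_top, hc]
  exact mul_le_mul_of_nonneg_left (sq_anti hda (by have := l.2; omega)) hP

theorem Nice.long (h : Nice hd B W) (hm : 0 < m) :
    P0 j d * sq d j ≤ ‖(diagonal (DD j d) * zeta W) *ᵥ Pi.single (⟨0, hm⟩ : Fin m) (1 : k)‖ := by
  have h1 := norm_le_pi_norm ((diagonal (DD j d) * zeta W) *ᵥ Pi.single (⟨0, hm⟩ : Fin m) (1 : k))
    (em hd ∘ col (Fin j) ⟨0, hm⟩)
  rw [h.dv, Pi.single_eq_same, mul_one, DD, norm_D_top] at h1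
  exact h1

theorem Nice.short (h : Nice hd B W) (hB : 1 ≤ B)
    (hda : ∀ i l : Fin n, i ≤ l → ‖d l‖ ≤ ‖d i‖) {q : ℕ} (hq : q + 1 = j + m) (hm : 0 < m) :
    ‖(diagonal (DD j d) * zeta W) *ᵥ Pi.single (⟨m - 1, by omega⟩ : Fin m) (1 : k)‖ ≤
      P0 j d * sq d q * Bz j B := by
  have hP : 0 ≤ P0 j d := Finset.prod_nonneg fun x _ => sq_nonneg' d x
  have hs := sq_nonneg' d q
  have hz := (Bz_pos (j := j) hB).le
  refine (pi_norm_le_iff_of_nonneg (by positivity)).2 fun s => ?_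
  rw [← mulVec_mulVec, mulVec_diagonal, norm_mul, mulVec_single_one]
  change ‖DD j d s‖ * ‖zeta W s ⟨m - 1, by omega⟩‖ ≤ _
  by_cases hi : Function.Injective s
  · by_cases hr : ∃ r, q ≤ (s r : ℕ)
    · obtain ⟨r, hr⟩ := hr
      exact mul_le_mul (norm_D_le' hda hi hr) (zeta_le hB h.le s _) (norm_nonneg _)
        (by positivity)
    · push Not at hr
      rw [zeta_col, norm_zero, mul_zero]
      · positivity
      · intro r
        obtain ⟨y, hy⟩ := exists_em hd (s r) (by have := hr r; omega)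
        obtain ⟨τ, hτ⟩ := h.tp
        have e1 : W (s r) (Sum.inr ⟨m - 1, by omega⟩) =
            (fromBlocks 1 0 τ 1 : Matrix (Fin j ⊕ Fin m) (Fin j ⊕ Fin m) k) y
              (Sum.inr ⟨m - 1, by omega⟩) := by
          rw [← hy, ← hτ]; rfl
        rw [e1]
        rcases y with y | y
        · rfl
        · rw [fromBlocks_apply₂₂, one_apply_ne]
          intro h3
          have h2 := hr r
          rw [← hy, em_inr] at h2
          have h4 : (y : ℕ) = m - 1 := congrArg Fin.val h3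
          omega
  · rw [zeta_inj hi, norm_zero, mul_zero]
    positivity

end bounds

end Vale.Agent.P092.H100.Mid
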