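import Vale.Agent.P092.H100.Mid5

/-!
P092 (helper100), [P2-MID] 6: the kernel `KY` of the minors: invariance, bounds.
-/

set_option linter.all false

open Matrix MeasureTheory Topology Filter

namespace Vale.Agent.P092.H100.Mid

open Vale.Agent.P092.H85.Ker (Inj KY_cont)
open Vale.Agent.P092.H100.Ker (inj_mul inj_of_inv isOpen_inj dat_of_sc KY_comp)
open Vale.Agent.P092.H541.Hel (Sc D KY KY_lower KY_upper' exists_zpow_D KY_smul KY_smul'
  KY_nonneg)

section inj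

variable {k : Type} [NontriviallyNormedField k] {n j m : ℕ}

theorem exists_left {ι κ : Type} [Fintype ι] [DecidableEq ι] [Fintype κ] [DecidableEq κ]
    {X : Matrix ι κ k} (h : Inj X) : ∃ L : Matrix κ ι k, L * X = 1 := by
  have hinj : Function.Injective X.mulVecLin := by
    rw [← LinearMap.ker_eq_bot, LinearMap.ker_eq_bot']
    exact fun v hv => h v hv
  obtain ⟨g, hg⟩ := X.mulVecLin.exists_leftInverse_of_injective (LinearMap.ker_eq_bot.2 hinj)
  refine ⟨LinearMap.toMatrix' g, ?_⟩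
  have : LinearMap.toMatrix' (g ∘ₗ X.mulVecLin) = 1 := by rw [hg, LinearMap.toMatrix'_id]
  rwa [LinearMap.toMatrix'_comp, ← Matrix.toLin'_apply', LinearMap.toMatrix'_toLin'] at this

theorem inj_zeta {X : Matrix (Fin n) (Fin j ⊕ Fin m) k} (h : Inj X) : Inj (zeta X) := by
  obtain ⟨L, hL⟩ := exists_left h
  intro v hv
  have h1 : zeta (L * X) *ᵥ v = 0 := by
    rw [zeta_mul, ← mulVec_mulVec, hv, mulVec_zero]
  rw [hL] at h1
  ext l
  have h2 : ∀ i, zeta (1 : Matrix (Fin j ⊕ Fin m) (Fin j ⊕ Fin m) k) (id ∘ col (Fin j) l) i =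
      (1 : Matrix (Fin m) (Fin m) k) l i := fun i =>
    zeta_top (e := id) (τ := 0) (by rw [submatrix_id_id, fromBlocks_one]) l i
  have h3 := congrFun h1 (id ∘ col (Fin j) l)
  have h4 : ∑ i, zeta (1 : Matrix (Fin j ⊕ Fin m) (Fin j ⊕ Fin m) k) (id ∘ col (Fin j) l) i * v i
      = 0 := h3
  simp_rw [h2] at h4
  have h5 : ((1 : Matrix (Fin m) (Fin m) k) *ᵥ v) l = 0 := h4
  rwa [one_mulVec] at h5

theorem continuous_zeta : Continuous fun X : Matrix (Fin n) (Fin j ⊕ Fin m) k => zeta X :=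
  continuous_matrix fun s i => (continuous_id.matrix_submatrix s (col (Fin j) i)).matrix_det

end inj

section ky

variable {k : Type} [NontriviallyNormedField k] [ProperSpace k] [MeasurableSpace k]
  [BorelSpace k] {n j m : ℕ} {μ : Measure (Fin m → k)} [μ.IsAddHaarMeasure] {t : k} {α : ℝ}

theorem inj_ten {α : Type} [Fintype α] [DecidableEq α] {A A' : Matrix (Fin n) (Fin n) k}
    (h : A' * A = 1) : Inj (ten α A) :=
  inj_of_inv (A' := ten α A') (by rw [← ten_mul, h, ten_one])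

/-- the kernel of two frames -/
noncomputable def KZ (μ : Measure (Fin m → k)) (t : k) (α : ℝ)
    (X X' : Matrix (Fin n) (Fin j ⊕ Fin m) k) : ℝ := KY μ t α (zeta X) (zeta X')

theorem KZ_mul (h : Sc μ t α) {g11 : Matrix (Fin j) (Fin j) k} {g12 : Matrix (Fin j) (Fin m) k}
    {g22 g22' : Matrix (Fin m) (Fin m) k} (h11 : g11.det ≠ 0) (h22 : g22 * g22' = 1)
    (X X' : Matrix (Fin n) (Fin j ⊕ Fin m) k) :
    KZ μ t α (X * fromBlocks g11 g12 0 g22) (X' * fromBlocks g11 g12 0 g22) = KZ μ t α X X' := by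
  unfold KZ
  rw [zeta_mul_right, zeta_mul_right, KY_smul h11, KY_smul' h11, KY_comp (dat_of_sc h) h22]

theorem fz (h : Sc μ t α) [Nonempty (Fin m)] {A A' B B' : Matrix (Fin n) (Fin n) k}
    (hA : A' * A = 1) (hB : B' * B = 1) (p : ℕ) :
    Fz fun X : Matrix (Fin n) (Fin j ⊕ Fin m) k => KZ μ t α (A * X) (B * X) ^ p where
  le X hX := by
    have h0 := KY_nonneg (μ := μ) (t := t) (α := α) (zeta (A * X)) (zeta (B * X))
    have h1 := Ker.KY_le_one (dat_of_sc h) (inj_zeta (inj_mul (inj_of_inv hA) hX))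
      (inj_zeta (inj_mul (inj_of_inv hB) hX))
    change |KY μ t α (zeta (A * X)) (zeta (B * X)) ^ p| ≤ 1
    rw [abs_of_nonneg (pow_nonneg h0 _)]
    exact pow_le_one₀ h0 h1
  cont X hX := by
    have h1 : ContinuousAt (fun Z : Matrix (Fin n) (Fin j ⊕ Fin m) k =>
        (zeta (A * Z), zeta (B * Z))) X :=
      ((continuous_zeta.comp (continuous_const.matrix_mul continuous_id)).prodMk
        (continuous_zeta.comp (continuous_const.matrix_mul continuous_id))).continuousAt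
    exact (ContinuousAt.comp (f := fun Z : Matrix (Fin n) (Fin j ⊕ Fin m) k =>
      (zeta (A * Z), zeta (B * Z))) (KY_cont μ h (inj_zeta (inj_mul (inj_of_inv hA) hX))
        (inj_zeta (inj_mul (inj_of_inv hB) hX))) h1).pow p
  inv X hX g11 g12 g22 g22' h11 h22 := by
    change KZ μ t α (A * (X * fromBlocks g11 g12 0 g22)) (B * (X * fromBlocks g11 g12 0 g22)) ^ p
      = KZ μ t α (A * X) (B * X) ^ p
    rw [← Matrix.mul_assoc, ← Matrix.mul_assoc, KZ_mul h h11 h22]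

/-- the bound of the tensor power -/
noncomputable def Ct (n j : ℕ) (C : ℝ) : ℝ := (n : ℝ) ^ (j + 1) * C ^ (j + 1)

theorem ten_le {C : ℝ} (hC : 0 ≤ C) {U : Matrix (Fin n) (Fin n) k} (hU : ∀ x y, ‖U x y‖ ≤ C)
    (x : (Fin j ⊕ Unit → Fin n) → k) : ‖ten (Fin j) U *ᵥ x‖ ≤ Ct n j C * ‖x‖ := by
  have h1 : ∀ s l, ‖ten (Fin j) U s l‖ ≤ C ^ (j + 1) := fun s l => by
    rw [ten, norm_prod]
    calc ∏ r, ‖U (s r) (l r)‖ ≤ ∏ _r : Fin j ⊕ Unit, C :=
          Finset.prod_le_prod (fun _ _ => norm_nonneg _) fun r _ => hU _ _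
      _ = C ^ (j + 1) := by simp [Fintype.card_sum]
  have h2 := mv_le (by positivity) h1 x
  have e : ((Fintype.card (Fin j ⊕ Unit → Fin n) : ℕ) : ℝ) = (n : ℝ) ^ (j + 1) := by
    simp [Fintype.card_sum]
  rw [e] at h2
  exact h2

theorem ten_ge {C : ℝ} (hC : 0 ≤ C) {U U' : Matrix (Fin n) (Fin n) k}
    (hU' : ∀ x y, ‖U' x y‖ ≤ C) (h : U' * U = 1) (x : (Fin j ⊕ Unit → Fin n) → k) :
    ‖x‖ ≤ Ct n j C * ‖ten (Fin j) U *ᵥ x‖ := by
  have := ten_le (j := j) hC hU' (ten (Fin j) U *ᵥ x)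
  rwa [mulVec_mulVec, ← ten_mul, h, ten_one, one_mulVec] at this

/-- the data of a frame in general position, in normal form -/
structure Gd (hd : j + m ≤ n) (C B : ℝ) (d : Fin n → k)
    (U U' V V' : Matrix (Fin n) (Fin n) k) (W : Matrix (Fin n) (Fin j ⊕ Fin m) k) : Prop where
  one_le : 1 ≤ C
  n1 : 1 ≤ n
  m1 : 0 < m
  hU : ∀ x y, ‖U x y‖ ≤ C
  hU' : ∀ x y, ‖U' x y‖ ≤ C
  hV : ∀ x y, ‖V x y‖ ≤ C
  hV' : ∀ x y, ‖V' x y‖ ≤ C
  uu : U' * U = 1
  vv : V * V' = 1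
  ne : ∀ i, d i ≠ 0
  anti : ∀ i l : Fin n, i ≤ l → ‖d l‖ ≤ ‖d i‖
  hB : 1 ≤ B
  nice : Nice hd B W

variable {hd : j + m ≤ n} {C B : ℝ} {d : Fin n → k}
    {U U' V V' : Matrix (Fin n) (Fin n) k} {W : Matrix (Fin n) (Fin j ⊕ Fin m) k}

theorem Gd.ct (H : Gd hd C B d U U' V V' W) : 0 < Ct n j C := by
  have h1 := H.one_le
  have h2 : (1 : ℝ) ≤ n := by exact_mod_cast H.n1
  unfold Ct
  positivity

theorem Gd.P (H : Gd hd C B d U U' V V' W) : 0 < P0 j d := P0_pos H.ne (by omega)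

theorem Gd.sqp (H : Gd hd C B d U U' V V' W) {q : ℕ} (hq : q < n) : 0 < sq d q := by
  rw [sq, dif_pos hq]
  exact norm_pos_iff.2 (H.ne _)

theorem Gd.mR (H : Gd hd C B d U U' V V' W) : (0 : ℝ) < m := by exact_mod_cast H.m1

theorem Gd.A_up (H : Gd hd C B d U U' V V' W) (v : Fin m → k) :
    ‖(ten (Fin j) U * (diagonal (DD j d) * zeta W)) *ᵥ v‖ ≤
      Ct n j C * (m * (P0 j d * sq d j * Bz j B) * ‖v‖) := by
  rw [← mulVec_mulVec]
  exact (ten_le (by linarith [H.one_le]) H.hU _).trans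
    (mul_le_mul_of_nonneg_left (H.nice.d_up H.hB H.anti v) H.ct.le)

theorem Gd.A_low (H : Gd hd C B d U U' V V' W) {q : ℕ} (hq : q + 1 = j + m) (v : Fin m → k) :
    P0 j d * sq d q * ‖v‖ ≤
      Ct n j C * ‖(ten (Fin j) U * (diagonal (DD j d) * zeta W)) *ᵥ v‖ := by
  rw [← mulVec_mulVec]
  exact (H.nice.d_low H.anti hq v).trans (ten_ge (by linarith [H.one_le]) H.hU' H.uu _)

theorem Gd.B_up (H : Gd hd C B d U U' V V' W) (v : Fin m → k) :
    ‖(ten (Fin j) V' * zeta W) *ᵥ v‖ ≤ Ct n j C * (m * Bz j B * ‖v‖) := by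
  rw [← mulVec_mulVec]
  exact (ten_le (by linarith [H.one_le]) H.hV' _).trans
    (mul_le_mul_of_nonneg_left (H.nice.up H.hB v) H.ct.le)

theorem Gd.B_low (H : Gd hd C B d U U' V V' W) (v : Fin m → k) :
    ‖v‖ ≤ Ct n j C * ‖(ten (Fin j) V' * zeta W) *ᵥ v‖ := by
  rw [← mulVec_mulVec]
  exact (H.nice.ge v).trans (ten_ge (by linarith [H.one_le]) H.hV H.vv _)

theorem Gd.injA (H : Gd hd C B d U U' V V' W) :
    Inj (ten (Fin j) U * (diagonal (DD j d) * zeta W)) := by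
  intro v hv
  obtain ⟨q, hq⟩ : ∃ q, q + 1 = j + m := ⟨j + m - 1, by have := H.m1; omega⟩
  have h1 := H.A_low hq v
  rw [hv, norm_zero, mul_zero] at h1
  have h2 := mul_pos H.P (H.sqp (q := q) (by omega))
  by_contra hne
  have h3 := mul_pos h2 (norm_pos_iff.2 hne)
  linarith

theorem Gd.injB (H : Gd hd C B d U U' V V' W) : Inj (ten (Fin j) V' * zeta W) := by
  intro v hv
  have h1 := H.B_low v
  rw [hv, norm_zero, mul_zero] at h1
  exact norm_le_zero_iff.1 h1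

theorem KZ_eq (d : Fin n → k) (U V' : Matrix (Fin n) (Fin n) k)
    (W : Matrix (Fin n) (Fin j ⊕ Fin m) k) :
    KZ μ t α (U * (diagonal d * W)) (V' * W) =
      KY μ t α (ten (Fin j) U * (diagonal (DD j d) * zeta W)) (ten (Fin j) V' * zeta W) := by
  rw [KZ, zeta_mul, zeta_mul, zeta_mul, ten_diag]
  rfl

/-- the constant -/
noncomputable def Kc (n j m : ℕ) (C B : ℝ) : ℝ :=
  Ct n j C * (m * Bz j B) * Ct n j C * (Ct n j C * (Ct n j C * (m * Bz j B)))

theorem Gd.kc (H : Gd hd C B d U U' V V' W) : 0 < Kc n j m C B := by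
  have h1 := H.ct
  have h2 := H.mR
  have h3 := Bz_pos (j := j) H.hB
  unfold Kc
  positivity

/-- **the kernel is bounded below** -/
theorem Gd.ge (hs : Sc μ t α) (H : Gd hd C B d U U' V V' W) {q : ℕ} (hq : q + 1 = j + m)
    {R : ℝ} (hR : sq d j ≤ R * sq d q) :
    (1 / (Kc n j m C B * R)) ^ α ≤ KZ μ t α (U * (diagonal d * W)) (V' * W) := by
  haveI : Nonempty (Fin m) := ⟨⟨0, H.m1⟩⟩
  have hc := H.ct
  have hm := H.mR
  have hz := Bz_pos (j := j) H.hB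
  have hP := H.P
  have hsj := H.sqp (q := j) (by have := H.m1; omega)
  have hsq := H.sqp (q := q) (by omega)
  have hR0 : 0 < R := by
    by_contra hcon
    push Not at hcon
    have : R * sq d q ≤ 0 := mul_nonpos_of_nonpos_of_nonneg hcon hsq.le
    linarith
  have hk := H.kc
  rw [KZ_eq]
  obtain ⟨c₁, hc₁⟩ : ∃ c₁ : ℝ, c₁ = P0 j d * sq d q / (Ct n j C * (Ct n j C * (m * Bz j B))) :=
    ⟨_, rfl⟩
  obtain ⟨c₂, hc₂⟩ : ∃ c₂ : ℝ, c₂ = Ct n j C * (m * (P0 j d * sq d j * Bz j B)) * Ct n j C :=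
    ⟨_, rfl⟩
  have h1 := KY_lower hs H.injA H.injB (c₁ := c₁) (c₂ := c₂) (by rw [hc₁]; positivity)
    (by rw [hc₂]; positivity) (fun v _ => ?_) (fun v _ => ?_)
  · refine le_trans (Real.rpow_le_rpow (by positivity) ?_ hs.pos.le) h1
    rw [hc₁, hc₂, div_div, div_le_div_iff₀ (by positivity) (by positivity), one_mul]
    calc Ct n j C * (Ct n j C * (m * Bz j B)) * (Ct n j C * (m * (P0 j d * sq d j * Bz j B)) *
          Ct n j C) = P0 j d * Kc n j m C B * sq d j := by unfold Kc; ring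
      _ ≤ P0 j d * Kc n j m C B * (R * sq d q) := by gcongr
      _ = _ := by ring
  · rw [hc₁, div_mul_eq_mul_div, div_le_iff₀ (by positivity)]
    calc P0 j d * sq d q * ‖(ten (Fin j) V' * zeta W) *ᵥ v‖
        ≤ P0 j d * sq d q * (Ct n j C * (m * Bz j B * ‖v‖)) := by
          gcongr
          exact H.B_up v
      _ = Ct n j C * (m * Bz j B) * (P0 j d * sq d q * ‖v‖) := by ring
      _ ≤ Ct n j C * (m * Bz j B) * (Ct n j C *
          ‖(ten (Fin j) U * (diagonal (DD j d) * zeta W)) *ᵥ v‖) :=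
          mul_le_mul_of_nonneg_left (H.A_low hq v) (by positivity)
      _ = _ := by ring
  · calc ‖(ten (Fin j) U * (diagonal (DD j d) * zeta W)) *ᵥ v‖
        ≤ Ct n j C * (m * (P0 j d * sq d j * Bz j B) * ‖v‖) := H.A_up v
      _ ≤ Ct n j C * (m * (P0 j d * sq d j * Bz j B) *
          (Ct n j C * ‖(ten (Fin j) V' * zeta W) *ᵥ v‖)) := by
          gcongr
          exact H.B_low v
      _ = _ := by rw [hc₂]; ring

/-- **the kernel is small** -/
theorem KZ_small (hs : Sc μ t α) (n j : ℕ) (hm0 : 0 < m) {C B : ℝ} (hC : 1 ≤ C) (hB : 1 ≤ B)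
    (hn : 1 ≤ n) {ε : ℝ} (hε : 0 < ε) : ∃ R : ℝ, 0 < R ∧ ∀ (hd : j + m ≤ n) (d : Fin n → k)
      (U U' V V' : Matrix (Fin n) (Fin n) k) (W : Matrix (Fin n) (Fin j ⊕ Fin m) k),
      Gd hd C B d U U' V V' W → ∀ q, q + 1 = j + m → R * sq d q ≤ sq d j →
        KZ μ t α (U * (diagonal d * W)) (V' * W) ≤ ε := by
  haveI : Nonempty (Fin m) := ⟨⟨0, hm0⟩⟩
  have ht1 := hs.one_lt
  have ht0 : 0 < ‖t‖ := by linarith
  have hc : 0 < Ct n j C := by
    have h2 : (1 : ℝ) ≤ n := by exact_mod_cast hn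
    unfold Ct
    positivity
  have hmR : (0 : ℝ) < m := by exact_mod_cast hm0
  have hz := Bz_pos (j := j) hB
  obtain ⟨ρ, hρ, hup⟩ := KY_upper' (ι := Fin j ⊕ Unit → Fin n) hs hε
    (b₁ := 1 / Ct n j C) (b₂ := Ct n j C * (m * Bz j B * ‖t‖)) (by positivity) (by positivity)
  refine ⟨Ct n j C * (Bz j B * ‖t‖) * Ct n j C / ρ, by positivity,
    fun hd d U U' V V' W H q hq hR => ?_⟩
  rw [div_mul_eq_mul_div, div_le_iff₀ hρ] at hR
  have hP := H.P
  have hsq := H.sqp (q := q) (by omega)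
  have hsj := H.sqp (q := j) (by omega)
  obtain ⟨e0, he0⟩ : ∃ e0 : Fin m → k, e0 = Pi.single (⟨0, hm0⟩ : Fin m) (1 : k) := ⟨_, rfl⟩
  obtain ⟨e1, he1⟩ : ∃ e1 : Fin m → k, e1 = Pi.single (⟨m - 1, by omega⟩ : Fin m) (1 : k) :=
    ⟨_, rfl⟩
  have hn0 : ‖e0‖ = 1 := by rw [he0, Pi.norm_single, norm_one]
  have hn1 : ‖e1‖ = 1 := by rw [he1, Pi.norm_single, norm_one]
  have hne0 : e0 ≠ 0 := fun h => by rw [h, norm_zero] at hn0; exact zero_ne_one hn0
  have hne1 : e1 ≠ 0 := fun h => by rw [h, norm_zero] at hn1; exact zero_ne_one hn1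
  obtain ⟨a1, ha1⟩ := exists_zpow_D ht1 hne1
  obtain ⟨a2, ha2⟩ := exists_zpow_D ht1 hne0
  rw [KZ_eq]
  have hlong : P0 j d * sq d j ≤
      Ct n j C * ‖(ten (Fin j) U * (diagonal (DD j d) * zeta W)) *ᵥ e0‖ := by
    rw [← mulVec_mulVec, he0]
    exact (H.nice.long hm0).trans (ten_ge (by linarith) H.hU' H.uu _)
  have hshort : ‖(ten (Fin j) U * (diagonal (DD j d) * zeta W)) *ᵥ e1‖ ≤
      Ct n j C * (P0 j d * sq d q * Bz j B) := by
    rw [← mulVec_mulVec, he1]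
    exact (ten_le (by linarith) H.hU _).trans
      (mul_le_mul_of_nonneg_left (H.nice.short H.hB H.anti hq hm0) hc.le)
  refine hup _ _ H.injA H.injB (fun x hx => ?_) (fun x hx => ?_) ⟨_, ha1, _, ha2, ?_⟩
  · have h1 := H.B_low x
    have h2 : 1 ≤ ‖x‖ := hx.1
    rw [div_le_iff₀ hc, mul_comm]
    linarith
  · have h1 := H.B_up x
    have h2 : ‖x‖ < ‖t‖ := hx.2
    refine h1.trans (mul_le_mul_of_nonneg_left ?_ hc.le)
    exact mul_le_mul_of_nonneg_left h2.le (by positivity)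
  · have b1 : ‖(ten (Fin j) U * (diagonal (DD j d) * zeta W)) *ᵥ (t ^ a1 • e1)‖ ≤
        Ct n j C * (P0 j d * sq d q * Bz j B) * ‖t‖ := by
      rw [mulVec_smul, norm_smul]
      have h3 : ‖t ^ a1‖ ≤ ‖t‖ := by
        have := ha1.2.le
        rwa [norm_smul, hn1, mul_one] at this
      calc ‖t ^ a1‖ * ‖(ten (Fin j) U * (diagonal (DD j d) * zeta W)) *ᵥ e1‖
          ≤ ‖t‖ * (Ct n j C * (P0 j d * sq d q * Bz j B)) :=
            mul_le_mul h3 hshort (norm_nonneg _) ht0.le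
        _ = _ := mul_comm _ _
    have b2 : P0 j d * sq d j ≤
        Ct n j C * ‖(ten (Fin j) U * (diagonal (DD j d) * zeta W)) *ᵥ (t ^ a2 • e0)‖ := by
      rw [mulVec_smul, norm_smul]
      have h3 : 1 ≤ ‖t ^ a2‖ := by
        have := ha2.1
        rwa [norm_smul, hn0, mul_one] at this
      refine hlong.trans (mul_le_mul_of_nonneg_left ?_ hc.le)
      exact le_mul_of_one_le_left (norm_nonneg _) h3
    refine b1.trans (le_of_mul_le_mul_right ?_ hc)
    calc Ct n j C * (P0 j d * sq d q * Bz j B) * ‖t‖ * Ct n j C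
        = P0 j d * (Ct n j C * (Bz j B * ‖t‖) * Ct n j C * sq d q) := by ring
      _ ≤ P0 j d * (sq d j * ρ) := mul_le_mul_of_nonneg_left hR hP.le
      _ = ρ * (P0 j d * sq d j) := by ring
      _ ≤ ρ * (Ct n j C *
          ‖(ten (Fin j) U * (diagonal (DD j d) * zeta W)) *ᵥ (t ^ a2 • e0)‖) :=
          mul_le_mul_of_nonneg_left b2 hρ.le
      _ = _ := by ring

end ky

end Vale.Agent.P092.H100.Mid
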