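import Vale.Agent.P092.H100.Mid6
import Vale.Agent.P092.H100.Ker8

/-!
P092 (helper100), [P2-MID] 7: the kernels of a middle block `j .. j + m - 1` of the Cartan numbers.
-/

set_option linter.all false

open Matrix MeasureTheory Topology Filter Set
open scoped ENNReal NNReal

namespace Vale.Agent.P092.H100.Mid

open Vale.Agent.P092.H85.Ker (Inj KY_cont)
open Vale.Agent.P092.H100.Ker (inj_mul inj_of_inv inj_of_det inv_of_det isOpen_inj dat_of_sc
  RF kl um kl_pk kl_self um_eq um_ge um_nonneg um_le_one KY_aesm KY_int KY_int' Ad UU Arp)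
open Vale.Agent.P092.H541.Hel (Sc D KY KY_smul KY_smul' exists_sc)
open Vale.Agent.P092.H534.GK (Crt)
open Vale.Agent.P092.H87.Contr (Dec)
open Vale.Agent.P092.H618.HMK (Tests KerG Psd)
open Vale.Agent.P092.H761 (big mem_big)

section small

variable {k : Type} [NontriviallyNormedField k] [ProperSpace k] {ι κ : Type} [Fintype ι]
  [Fintype κ] [MeasurableSpace k] [BorelSpace k] {Ω : Type} [MeasurableSpace Ω]
  [TopologicalSpace Ω] [OpensMeasurableSpace Ω] [SecondCountableTopology Ω] {m : Measure Ω}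
  {Y : Ω → Matrix ι κ k} {μ : Measure (κ → k)} [μ.IsAddHaarMeasure] [Nonempty κ] {t : k} {α : ℝ}

/-- `um` is small when `κ ≥ δ` off a small set -/
theorem um_small (hrf : RF m Y) [IsProbabilityMeasure m] (h : Sc μ t α) {x y : Matrix ι ι k}
    (hx : Inj x) (hy : Inj y) {δ η : ℝ} (hδ1 : δ ≤ 1) (hη : 0 ≤ η)
    (hs : m {ω | KY μ t α (x * Y ω) (y * Y ω) < δ} ≤ ENNReal.ofReal η) (q : ℕ) :
    um μ t α m Y q x y ≤ η + (1 - δ) ^ q := by
  have haes := KY_aesm hrf h hx hy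
  obtain ⟨S, hS⟩ : ∃ S, S = {ω | KY μ t α (x * Y ω) (y * Y ω) < δ} := ⟨_, rfl⟩
  have hSn : NullMeasurableSet S m := by
    rw [hS]
    exact nullMeasurableSet_lt haes.aemeasurable aemeasurable_const
  have hle : um μ t α m Y q x y ≤ ∫ ω, (S.indicator (fun _ => (1 : ℝ)) ω + (1 - δ) ^ q) ∂m := by
    unfold um
    refine integral_mono_ae (KY_int' hrf h hx hy q) ?_ ?_
    · exact ((integrable_const (1 : ℝ)).indicator₀ hSn).add (integrable_const _)
    · filter_upwards [hrf.inj] with ω hω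
      have b0 := Ker.KY_nonneg μ t α (x * Y ω) (y * Y ω)
      have b1 := Ker.KY_le_one (dat_of_sc h) (inj_mul hx hω) (inj_mul hy hω)
      change (1 - KY μ t α (x * Y ω) (y * Y ω)) ^ q ≤ _
      by_cases hYS : ω ∈ S
      · rw [indicator_of_mem hYS]
        have : (1 - KY μ t α (x * Y ω) (y * Y ω)) ^ q ≤ 1 :=
          pow_le_one₀ (by linarith) (by linarith)
        have h3 : 0 ≤ (1 - δ) ^ q := pow_nonneg (by linarith) _
        linarith
      · rw [indicator_of_notMem hYS, zero_add]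
        have hge : δ ≤ KY μ t α (x * Y ω) (y * Y ω) := by
          rw [hS, mem_setOf_eq, not_lt] at hYS
          exact hYS
        exact pow_le_pow_left₀ (by linarith) (by linarith) _
  refine hle.trans ?_
  rw [integral_add ((integrable_const (1 : ℝ)).indicator₀ hSn) (integrable_const _),
    integral_indicator₀ hSn, integral_const, integral_const]
  simp only [smul_eq_mul, mul_one, probReal_univ, one_mul]
  rw [measureReal_restrict_apply_univ]
  have : m.real S ≤ η := by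
    rw [Measure.real]
    refine ENNReal.toReal_le_of_le_ofReal hη ?_
    rw [hS]
    exact hs
  linarith

/-- `∫ κ` is small when `κ ≤ ε` off a small set -/
theorem kl_small (hrf : RF m Y) [IsProbabilityMeasure m] (h : Sc μ t α) {x y : Matrix ι ι k}
    (hx : Inj x) (hy : Inj y) {ε η : ℝ} (hε : 0 ≤ ε) (hη : 0 ≤ η)
    (hs : m {ω | ε < KY μ t α (x * Y ω) (y * Y ω)} ≤ ENNReal.ofReal η) :
    kl μ t α m Y 1 x y ≤ η + ε := by
  have haes := KY_aesm hrf h hx hy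
  obtain ⟨S, hS⟩ : ∃ S, S = {ω | ε < KY μ t α (x * Y ω) (y * Y ω)} := ⟨_, rfl⟩
  have hSn : NullMeasurableSet S m := by
    rw [hS]
    exact nullMeasurableSet_lt aemeasurable_const haes.aemeasurable
  have hle : kl μ t α m Y 1 x y ≤ ∫ ω, (S.indicator (fun _ => (1 : ℝ)) ω + ε) ∂m := by
    unfold kl
    refine integral_mono_ae (KY_int hrf h hx hy 1) ?_ ?_
    · exact ((integrable_const (1 : ℝ)).indicator₀ hSn).add (integrable_const _)
    · filter_upwards [hrf.inj] with ω hω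
      have b0 := Ker.KY_nonneg μ t α (x * Y ω) (y * Y ω)
      have b1 := Ker.KY_le_one (dat_of_sc h) (inj_mul hx hω) (inj_mul hy hω)
      change KY μ t α (x * Y ω) (y * Y ω) ^ 1 ≤ _
      rw [pow_one]
      by_cases hYS : ω ∈ S
      · rw [indicator_of_mem hYS]
        linarith
      · rw [indicator_of_notMem hYS, zero_add]
        rw [hS, mem_setOf_eq, not_lt] at hYS
        exact hYS
  refine hle.trans ?_
  rw [integral_add ((integrable_const (1 : ℝ)).indicator₀ hSn) (integrable_const _),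
    integral_indicator₀ hSn, integral_const, integral_const]
  simp only [smul_eq_mul, mul_one, probReal_univ, one_mul]
  rw [measureReal_restrict_apply_univ]
  have : m.real S ≤ η := by
    rw [Measure.real]
    refine ENNReal.toReal_le_of_le_ofReal hη ?_
    rw [hS]
    exact hs
  linarith

end small

section mid

variable {k : Type} [NontriviallyNormedField k] [ProperSpace k] [MeasurableSpace k]
  [BorelSpace k] {n j m : ℕ}

/-- the minors of the random frame -/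
abbrev zf (k : Type) [NontriviallyNormedField k] (n j m : ℕ) :
    (Fin n → (Fin j ⊕ Fin m) → k) → Matrix (Fin j ⊕ Unit → Fin n) (Fin m) k :=
  fun Y => zeta (Matrix.of Y)

theorem rf_zf {hd : j + m ≤ n} {ν : Measure (Fin n → (Fin j ⊕ Fin m) → k)} (hm : Frf hd ν) :
    RF ν (zf k n j m) := by
  refine ⟨continuous_zeta.comp continuous_id, ?_⟩
  filter_upwards [ae_inj hm (A := 1) (inj_of_inv (Matrix.mul_one 1))] with Y hY
  rw [Matrix.one_mul] at hY
  exact inj_zeta hY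

omit [ProperSpace k] [MeasurableSpace k] [BorelSpace k] in
theorem ten_smul (c : k) (A : Matrix (Fin n) (Fin n) k) :
    ten (Fin j) (c • A) = c ^ (j + 1) • ten (Fin j) A := by
  ext s l
  change ∏ r, c * A (s r) (l r) = c ^ (j + 1) * ∏ r, A (s r) (l r)
  rw [Finset.prod_mul_distrib, Finset.prod_const, Finset.card_univ, Fintype.card_sum,
    Fintype.card_fin, Fintype.card_unit]

variable {μ : Measure (Fin m → k)} [μ.IsAddHaarMeasure] {t : k} {α : ℝ}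

theorem kl_ten (ν : Measure (Fin n → (Fin j ⊕ Fin m) → k)) {c d : k} (hc : c ≠ 0) (hd : d ≠ 0)
    (p : ℕ) (A B : Matrix (Fin n) (Fin n) k) :
    kl μ t α ν (zf k n j m) p (ten (Fin j) (c • A)) (ten (Fin j) (d • B)) =
      kl μ t α ν (zf k n j m) p (ten (Fin j) A) (ten (Fin j) B) := by
  unfold kl
  refine integral_congr_ae (Eventually.of_forall fun Y => ?_)
  change KY μ t α (ten (Fin j) (c • A) * zf k n j m Y) (ten (Fin j) (d • B) * zf k n j m Y) ^ p = _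
  rw [ten_smul, ten_smul, Matrix.smul_mul, Matrix.smul_mul, KY_smul (pow_ne_zero _ hc),
    KY_smul' (pow_ne_zero _ hd)]

/-- asymptotic invariance -/
theorem ri_mid {hd : j + m ≤ n} {ν : Measure (Fin n → (Fin j ⊕ Fin m) → k)} (hm : Frf hd ν)
    (h : Sc μ t α) [Nonempty (Fin m)] {A B f : Matrix (Fin n) (Fin n) k} (hA : A.det ≠ 0)
    (hB : B.det ≠ 0) (hf : f.det ≠ 0) (p : ℕ) {δ : ℝ} (hδ : 0 < δ) : ∃ T : ℝ, 0 < T ∧
      ∀ (g : Matrix (Fin n) (Fin n) k) (a : Fin n → k)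
      (U U' V V' : Matrix (Fin n) (Fin n) k), Crt g a U U' V V' → g.det ≠ 0 →
        (∀ i l : Fin n, (i : ℕ) < j → j ≤ (l : ℕ) → T * ‖a l‖ ≤ ‖a i‖) →
        (∀ i l : Fin n, (i : ℕ) < j + m → j + m ≤ (l : ℕ) → T * ‖a l‖ ≤ ‖a i‖) →
        |kl μ t α ν (zf k n j m) p (ten (Fin j) (A * g * f)) (ten (Fin j) (B * g * f)) -
          kl μ t α ν (zf k n j m) p (ten (Fin j) (A * g)) (ten (Fin j) (B * g))| ≤ δ := by
  obtain ⟨T, hT, H⟩ := con2 hm (fz h (inv_of_det hA).1 (inv_of_det hB).1 p) 1 (inv_of_det hf).2 hδ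
  refine ⟨T, hT, fun g a U U' V V' hc hdt hg1 hg2 => ?_⟩
  have := H g a U U' V V' ⟨hc.hU, hc.hU', hc.hV, hc.hV', hc.uu, hc.vv, hc.ne hdt, hg1, hc.eq⟩
    ⟨hc.hU, hc.hU', hc.hV, hc.hV', hc.uu, hc.vv, hc.ne hdt, hg2, hc.eq⟩
  convert this using 3
  · unfold kl
    refine integral_congr_ae (Eventually.of_forall fun Y => ?_)
    change KY μ t α (ten (Fin j) (A * g * f) * zeta (Matrix.of Y))
        (ten (Fin j) (B * g * f) * zeta (Matrix.of Y)) ^ p =
      KY μ t α (zeta (A * (g * f * Matrix.of Y))) (zeta (B * (g * f * Matrix.of Y))) ^ p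
    rw [← zeta_mul, ← zeta_mul]
    simp only [Matrix.mul_assoc]
  · unfold kl
    refine integral_congr_ae (Eventually.of_forall fun Y => ?_)
    change KY μ t α (ten (Fin j) (A * g) * zeta (Matrix.of Y))
        (ten (Fin j) (B * g) * zeta (Matrix.of Y)) ^ p =
      KY μ t α (zeta (A * (g * Matrix.of Y))) (zeta (B * (g * Matrix.of Y))) ^ p
    rw [← zeta_mul, ← zeta_mul]
    simp only [Matrix.mul_assoc]

/-- the normal form of a frame in general position -/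
theorem good (hm0 : 0 < m) (hd : j + m ≤ n) (hs : Sc μ t α) {c : ℝ} (hc : 0 < c) :
    ∃ B' : ℝ, 1 ≤ B' ∧ ∀ (g : Matrix (Fin n) (Fin n) k) (a : Fin n → k)
      (U U' V V' : Matrix (Fin n) (Fin n) k), Crt g a U U' V V' → (∀ i, a i ≠ 0) →
      ∀ Y : Fin n → (Fin j ⊕ Fin m) → k, (∀ x y, ‖Y x y‖ ≤ 1) → c ≤ tf hd V Y →
      ∃ W, Gd hd 1 B' a U U' V V' W ∧ KZ μ t α (g * Matrix.of Y) (Matrix.of Y) =
        KZ μ t α (U * (diagonal a * W)) (V' * W) := by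
  obtain ⟨B, hB⟩ : ∃ B : ℝ, B = max 1 ((n : ℝ) * (1 * 1)) := ⟨_, rfl⟩
  have hB1 : 1 ≤ B := hB ▸ le_max_left _ _
  obtain ⟨c', hc', htf⟩ := tf_ge (k := k) j m hB1 hc
  obtain ⟨B', hB', hnice⟩ := exists_nice (k := k) j m hB1 hc'
  refine ⟨B', hB', fun g a U U' V V' H hane Y hY hb' => ?_⟩
  have hW : ∀ a b, ‖(V * Matrix.of Y) a b‖ ≤ B := by
    intro a b
    have := mul_le' zero_le_one H.hV (N := Matrix.of Y) (fun x y => hY x y) a b
    rw [Fintype.card_fin] at this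
    exact this.trans (hB ▸ le_max_right _ _)
  obtain ⟨t1, t2⟩ := htf n hd V Y hW hb'
  obtain ⟨g11, g12, g22, g22', h11, h22, hN⟩ := hnice n hd _ hW t1 t2
  refine ⟨_, ⟨le_rfl, by omega, hm0, H.hU, H.hU', H.hV, H.hV', H.uu', H.vv, hane,
    fun i l hil => H.anti hil, hB', hN⟩, ?_⟩
  rw [← KZ_mul hs (g12 := g12) h11 h22]
  congr 1
  · rw [H.eq]
    simp only [Matrix.mul_assoc]
  · rw [← Matrix.mul_assoc, ← Matrix.mul_assoc, H.vv', Matrix.one_mul]

theorem lower_mid (hm0 : 0 < m) {hd : j + m ≤ n} {ν : Measure (Fin n → (Fin j ⊕ Fin m) → k)}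
    (hm : Frf hd ν) (hs : Sc μ t α) (R : ℝ) {η : ℝ} (hη : 0 < η) : ∃ δ : ℝ, 0 < δ ∧
    ∀ (g : Matrix (Fin n) (Fin n) k) (a : Fin n → k) (U U' V V' : Matrix (Fin n) (Fin n) k),
      Crt g a U U' V V' → (∀ i, a i ≠ 0) → ∀ q, q + 1 = j + m → sq a j ≤ R * sq a q →
      ν {Y | KZ μ t α (g * Matrix.of Y) (Matrix.of Y) < δ} ≤ ENNReal.ofReal η := by
  obtain ⟨c, hc, hnull⟩ := null_tf hm 1 hη
  obtain ⟨B', hB', H⟩ := good hm0 hd hs hc
  obtain ⟨R', hR'⟩ : ∃ R' : ℝ, R' = max R 1 := ⟨_, rfl⟩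
  have hR0 : 0 < R' := by rw [hR']; exact lt_max_of_lt_right one_pos
  have hn : (1 : ℝ) ≤ n := by exact_mod_cast (by omega : 1 ≤ n)
  have hmR : (0 : ℝ) < m := by exact_mod_cast hm0
  have hK : 0 < Kc n j m 1 B' := by
    have h3 := Bz_pos (j := j) hB'
    unfold Kc Ct
    positivity
  refine ⟨(1 / (Kc n j m 1 B' * R')) ^ α, by positivity,
    fun g a U U' V V' hcr hane q hq hR => ?_⟩
  refine le_trans (measure_mono_ae ?_) (hnull V V' hcr.hV hcr.hV' hcr.vv).le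
  filter_upwards [hm.bd] with Y hY hlt
  change tf hd V Y < c
  by_contra hcon
  rw [not_lt] at hcon
  obtain ⟨W, hG, he⟩ := H g a U U' V V' hcr hane Y hY hcon
  have hlt' : KZ μ t α (g * Matrix.of Y) (Matrix.of Y) < (1 / (Kc n j m 1 B' * R')) ^ α := hlt
  rw [he] at hlt'
  refine absurd (hG.ge hs hq (R := R') (hR.trans ?_)) (not_le.2 hlt')
  exact mul_le_mul_of_nonneg_right (hR' ▸ le_max_left _ _) (sq_nonneg' _ _)

theorem upper_mid (hm0 : 0 < m) {hd : j + m ≤ n} {ν : Measure (Fin n → (Fin j ⊕ Fin m) → k)}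
    (hm : Frf hd ν) (hs : Sc μ t α) {ε η : ℝ} (hε : 0 < ε) (hη : 0 < η) : ∃ R : ℝ, 0 < R ∧
    ∀ (g : Matrix (Fin n) (Fin n) k) (a : Fin n → k) (U U' V V' : Matrix (Fin n) (Fin n) k),
      Crt g a U U' V V' → (∀ i, a i ≠ 0) → ∀ q, q + 1 = j + m → R * sq a q ≤ sq a j →
      ν {Y | ε < KZ μ t α (g * Matrix.of Y) (Matrix.of Y)} ≤ ENNReal.ofReal η := by
  obtain ⟨c, hc, hnull⟩ := null_tf hm 1 hη
  obtain ⟨B', hB', H⟩ := good hm0 hd hs hc
  obtain ⟨R, hR, H2⟩ := KZ_small hs n j hm0 le_rfl hB' (by omega) hε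
  refine ⟨R, hR, fun g a U U' V V' hcr hane q hq hR => ?_⟩
  refine le_trans (measure_mono_ae ?_) (hnull V V' hcr.hV hcr.hV' hcr.vv).le
  filter_upwards [hm.bd] with Y hY hlt
  change tf hd V Y < c
  by_contra hcon
  rw [not_lt] at hcon
  obtain ⟨W, hG, he⟩ := H g a U U' V V' hcr hane Y hY hcon
  have hlt' : ε < KZ μ t α (g * Matrix.of Y) (Matrix.of Y) := hlt
  rw [he] at hlt'
  exact absurd (H2 hd a U U' V V' W hG q hq hR) (not_le.2 hlt')

end mid

section abs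

variable {Γ J : Type} [Group Γ]

/-- one side, in general letters: `S R` = the gaps of this side are bounded, `B R` = large -/
structure Sg (gap : J → Γ → ℝ) (i₀ : J) (S B : ℝ → Γ → Prop) (e : ℕ → Γ → Γ → ℝ) : Prop where
  ad : ∀ p, Ad gap i₀ (e p)
  u0 : ∀ q g, 0 ≤ UU e q g
  u1 : ∀ q g, UU e q g ≤ 1
  lo : ∀ ε : ℝ, 0 < ε → ∀ R0 : ℝ, ∃ (q0 : ℕ) (T : ℝ), ∀ q, q0 ≤ q → ∀ g, T ≤ gap i₀ g →
    S R0 g → UU e q g ≤ ε
  up : ∀ ε : ℝ, 0 < ε → ∀ q : ℕ, ∃ R1 : ℝ, ∀ g, B R1 g → 1 - ε ≤ UU e q g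

variable {k : Type} [NontriviallyNormedField k] [ProperSpace k] [MeasurableSpace k]
  [BorelSpace k] {n j m : ℕ}

/-- **One side, block `j .. j + m - 1`.** `a g` = the Cartan numbers of `P g⁻¹`; `pj`, `pq` = the
first index and the last index of the block. -/
theorem side_mid (hd : j + m ≤ n) (hm0 : 0 < m) {P : Γ → Matrix (Fin n) (Fin n) k} (hP : Arp P)
    {gap : J → Γ → ℝ} {i₀ : J} {S B : ℝ → Γ → Prop} {a : Γ → Fin n → k}
    {U U' V V' : Γ → Matrix (Fin n) (Fin n) k}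
    (hcrt : ∀ g, Crt (P g⁻¹) (a g) (U g) (U' g) (V g) (V' g)) {pj pq : Fin n}
    (h0 : (pj : ℕ) = j) (hpq : (pq : ℕ) + 1 = j + m)
    (hri : ∀ T : ℝ, ∃ T' : ℝ, ∀ g, T' ≤ gap i₀ g →
      (∀ i l : Fin n, (i : ℕ) < j → j ≤ (l : ℕ) → T * ‖a g l‖ ≤ ‖a g i‖) ∧
      ∀ i l : Fin n, (i : ℕ) < j + m → j + m ≤ (l : ℕ) → T * ‖a g l‖ ≤ ‖a g i‖)
    (hlo : ∀ R0 : ℝ, ∃ R T : ℝ, ∀ g, T ≤ gap i₀ g → S R0 g → ‖a g pj‖ ≤ R * ‖a g pq‖)
    (hup : ∀ R : ℝ, ∃ R1 : ℝ, ∀ g, B R1 g → R * ‖a g pq‖ ≤ ‖a g pj‖) :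
    ∃ e, Sg gap i₀ S B e := by
  classical
  haveI : Nonempty (Fin m) := ⟨⟨0, hm0⟩⟩
  obtain ⟨t, ht⟩ := NormedField.exists_one_lt_norm k
  obtain ⟨α, h⟩ := exists_sc (κ := Fin m) (Measure.addHaar : Measure (Fin m → k)) ht
  obtain ⟨μ, hμ⟩ : ∃ μ : Measure (Fin m → k), μ = Measure.addHaar := ⟨_, rfl⟩
  rw [← hμ] at h
  haveI : μ.IsAddHaarMeasure := by rw [hμ]; infer_instance
  have hm := frf_mF (k := k) hd
  obtain ⟨ν, hν⟩ : ∃ ν : Measure (Fin n → (Fin j ⊕ Fin m) → k), ν = mF k n (Fin j ⊕ Fin m) :=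
    ⟨_, rfl⟩
  rw [← hν] at hm
  have hprob := hm.prob
  have hrf := rf_zf hm
  have hPI : ∀ g, Inj (ten (Fin j) (P g)) := fun g => inj_ten (inv_of_det (hP.det g)).1
  have h1I : Inj (ten (Fin j) (1 : Matrix (Fin n) (Fin n) k)) := inj_ten (Matrix.mul_one 1)
  obtain ⟨c1, hc1, hP1⟩ := hP.one
  have hsj : ∀ g, sq (a g) j = ‖a g pj‖ := fun g => by rw [← h0, sq_of]
  have hsq : ∀ g, sq (a g) (pq : ℕ) = ‖a g pq‖ := fun g => sq_of _ _
  have hKZ : ∀ (g : Matrix (Fin n) (Fin n) k) (Y : Fin n → (Fin j ⊕ Fin m) → k),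
      KY μ t α (ten (Fin j) g * zf k n j m Y)
        (ten (Fin j) (1 : Matrix (Fin n) (Fin n) k) * zf k n j m Y) =
      KZ μ t α (g * Matrix.of Y) (Matrix.of Y) := fun g Y => by
    rw [KZ, ← zeta_mul, ← zeta_mul, Matrix.one_mul]
  have hU : ∀ q g, UU (fun p g g' => kl μ t α ν (zf k n j m) p (ten (Fin j) (P g))
      (ten (Fin j) (P g'))) q g =
      um μ t α ν (zf k n j m) q (ten (Fin j) (P g⁻¹)) (ten (Fin j) 1) := by
    intro q g
    rw [um_eq hrf h (hPI _) h1I, UU]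
    refine Finset.sum_congr rfl fun p _ => ?_
    congr 1
    change kl μ t α ν (zf k n j m) p (ten (Fin j) (P g⁻¹)) (ten (Fin j) (P 1)) = _
    rw [hP1]
    have := kl_ten (μ := μ) (t := t) (α := α) ν (one_ne_zero (α := k)) hc1 p (P g⁻¹) 1
    rwa [one_smul] at this
  refine ⟨fun p g g' => kl μ t α ν (zf k n j m) p (ten (Fin j) (P g)) (ten (Fin j) (P g')),
    fun p => ⟨kl_pk hrf h (fun g => ten (Fin j) (P g)) hPI p,
      fun g => (kl_self hrf h (hPI g) p).le, ?_⟩, ?_, ?_, ?_, ?_⟩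
  · intro f x y δ hδ
    obtain ⟨T, hT, H⟩ := ri_mid hm h (hP.det x) (hP.det y) (hP.det f⁻¹) p hδ
    obtain ⟨T', hT'⟩ := hri T
    refine ⟨T', fun g hg => ?_⟩
    have key := H (P g⁻¹) (a g) (U g) (U' g) (V g) (V' g) (hcrt g) (hP.det _) (hT' g hg).1
      (hT' g hg).2
    obtain ⟨s1, hs1, q1⟩ := hP.three f⁻¹ g⁻¹ x
    obtain ⟨s2, hs2, q2⟩ := hP.three f⁻¹ g⁻¹ y
    obtain ⟨s3, hs3, q3⟩ := hP.mul g⁻¹ x
    obtain ⟨s4, hs4, q4⟩ := hP.mul g⁻¹ y
    change |kl μ t α ν (zf k n j m) p (ten (Fin j) (P (f⁻¹ * g⁻¹ * x)))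
        (ten (Fin j) (P (f⁻¹ * g⁻¹ * y))) -
      kl μ t α ν (zf k n j m) p (ten (Fin j) (P (g⁻¹ * x))) (ten (Fin j) (P (g⁻¹ * y)))| ≤ δ
    rw [q1, q2, q3, q4, kl_ten ν hs1 hs2, kl_ten ν hs3 hs4]
    exact key
  · intro q g
    rw [hU]
    exact um_nonneg hrf h (hPI _) h1I q
  · intro q g
    rw [hU]
    exact um_le_one hrf h (hPI _) h1I q
  · intro ε hε R0
    obtain ⟨R, T, hRT⟩ := hlo R0
    obtain ⟨δ, hδ, H⟩ := lower_mid hm0 hm h R (half_pos hε)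
    obtain ⟨δ', hδ'⟩ : ∃ δ' : ℝ, δ' = min δ (1 / 2) := ⟨_, rfl⟩
    have hδ'0 : 0 < δ' := by rw [hδ']; exact lt_min hδ (by norm_num)
    have hδ'1 : δ' ≤ 1 / 2 := hδ' ▸ min_le_right _ _
    have ht : Tendsto (fun q : ℕ => (1 - δ') ^ q) atTop (𝓝 0) :=
      tendsto_pow_atTop_nhds_zero_of_lt_one (by linarith) (by linarith)
    obtain ⟨q0, hq0⟩ := eventually_atTop.1 (ht.eventually_lt_const (half_pos hε))
    refine ⟨q0, T, fun q hq g hgT hg => ?_⟩
    rw [hU]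
    have hmz := H (P g⁻¹) (a g) (U g) (U' g) (V g) (V' g) (hcrt g) ((hcrt g).ne (hP.det _)) pq hpq
      (by rw [hsj, hsq]; exact hRT g hgT hg)
    have hmz' : ν {Y | KY μ t α (ten (Fin j) (P g⁻¹) * zf k n j m Y)
        (ten (Fin j) (1 : Matrix (Fin n) (Fin n) k) * zf k n j m Y) < δ'} ≤
        ENNReal.ofReal (ε / 2) := by
      refine (measure_mono fun Y hY => ?_).trans hmz
      have hY' : KY μ t α (ten (Fin j) (P g⁻¹) * zf k n j m Y)
        (ten (Fin j) (1 : Matrix (Fin n) (Fin n) k) * zf k n j m Y) < δ' := hY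
      rw [hKZ] at hY'
      exact lt_of_lt_of_le hY' (hδ' ▸ min_le_left _ _)
    have := um_small hrf h (hPI g⁻¹) h1I (by linarith) (half_pos hε).le hmz' q
    have h5 := hq0 q hq
    linarith
  · intro ε hε q
    obtain ⟨e, he⟩ : ∃ e : ℝ, e = ε / (2 * ((q : ℝ) + 1)) := ⟨_, rfl⟩
    have he0 : 0 < e := by rw [he]; positivity
    obtain ⟨R, hR, H⟩ := upper_mid hm0 hm h he0 he0
    obtain ⟨R1, hR1⟩ := hup R
    refine ⟨R1, fun g hg => ?_⟩
    rw [hU]
    have hmz := H (P g⁻¹) (a g) (U g) (U' g) (V g) (V' g) (hcrt g) ((hcrt g).ne (hP.det _)) pq hpq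
      (by rw [hsj, hsq]; exact hR1 g hg)
    have hmz' : ν {Y | e < KY μ t α (ten (Fin j) (P g⁻¹) * zf k n j m Y)
        (ten (Fin j) (1 : Matrix (Fin n) (Fin n) k) * zf k n j m Y)} ≤ ENNReal.ofReal e := by
      refine (measure_mono fun Y hY => ?_).trans hmz
      have hY' : e < KY μ t α (ten (Fin j) (P g⁻¹) * zf k n j m Y)
        (ten (Fin j) (1 : Matrix (Fin n) (Fin n) k) * zf k n j m Y) := hY
      rw [hKZ] at hY'
      exact hY'
    have hkl := kl_small hrf h (hPI g⁻¹) h1I he0.le he0.le hmz'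
    have hum := um_ge hrf h (hPI g⁻¹) h1I q
    have h6 : (q : ℝ) * kl μ t α ν (zf k n j m) 1 (ten (Fin j) (P g⁻¹)) (ten (Fin j) 1) ≤ ε := by
      have h7 : (0 : ℝ) ≤ q := Nat.cast_nonneg q
      calc (q : ℝ) * kl μ t α ν (zf k n j m) 1 (ten (Fin j) (P g⁻¹)) (ten (Fin j) 1)
          ≤ (q : ℝ) * (e + e) := by gcongr
        _ ≤ ((q : ℝ) + 1) * (e + e) := by nlinarith
        _ = ε := by rw [he]; field_simp; ring
    linarith

end abs

end Vale.Agent.P092.H100.Mid
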