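import Vale.Agent.P092.H100.Mid7

/-!
P092 (helper100), [P2-MID] 8: the test functions of the middle types of a classical target
(folded classes of gaps), standard representation only.
-/

set_option linter.all false

open Matrix MeasureTheory Topology Filter Set

namespace Vale.Agent.P092.H100.Mid

open Vale.Agent.P092.H100.Ker (Ad UU Arp Mrp)
open Vale.Agent.P092.H534.GK (Crt)
open Vale.Agent.P092.H221.GapsC (lg)
open Vale.Agent.P092.H618.HMK (Tests KerG Psd)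
open Vale.Agent.P092.H761 (big mem_big Gaps)

section abs

variable {Γ J : Type} [Group Γ] [Fintype J]

/-- **Test functions from two sides** -/
theorem tests_sg {r : ℕ} {gap : J → Γ → ℝ} {cl : J → Fin r} {A : Finset (Fin r)} {i₀ : J}
    {e e' : ℕ → Γ → Γ → ℝ}
    (hL : Sg gap i₀ (fun R g => ∀ x ∈ A, x < cl i₀ → x ∉ big gap cl R g)
      (fun R g => ∀ x ∈ A, x ∈ big gap cl R g) e)
    (hR : Sg gap i₀ (fun R g => ∀ x ∈ A, cl i₀ < x → x ∉ big gap cl R g)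
      (fun R g => ∀ x ∈ A, x ∈ big gap cl R g) e') : Tests gap cl A i₀ := by
  classical
  intro ε hε R0
  obtain ⟨q1, T1, hq1⟩ := hL.lo ε hε R0
  obtain ⟨q2, T2, hq2⟩ := hR.lo ε hε R0
  obtain ⟨q, hq⟩ : ∃ q, q = max q1 q2 := ⟨_, rfl⟩
  obtain ⟨R1, hR1⟩ := hL.up (ε / 2) (half_pos hε) q
  obtain ⟨R2, hR2⟩ := hR.up (ε / 2) (half_pos hε) q
  obtain ⟨c, hcd⟩ : ∃ c : Option (Fin (q + 1) × Fin (q + 1)) → ℝ, c = fun i => match i with
    | none => (1 : ℝ)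
    | some p => -((-1) ^ (p.1 : ℕ) * (q.choose p.1 : ℝ) * ((-1) ^ (p.2 : ℕ) *
      (q.choose p.2 : ℝ))) := ⟨_, rfl⟩
  obtain ⟨K, hKd⟩ : ∃ K : Option (Fin (q + 1) × Fin (q + 1)) → Γ → Γ → ℝ, K = fun i => match i with
    | none => fun _ _ => (1 : ℝ)
    | some p => fun a b => e p.1 a b * e' p.2 a b := ⟨_, rfl⟩
  have key : ∀ g, ∑ i : Option (Fin (q + 1) × Fin (q + 1)), c i * K i g⁻¹ 1 =
      1 - UU e q g * UU e' q g := by
    intro g
    rw [hcd, hKd, Fintype.sum_option, Fintype.sum_prod_type]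
    simp only [mul_one]
    rw [UU, UU, Finset.sum_range, Finset.sum_range, Finset.sum_mul_sum, sub_eq_add_neg,
      ← Finset.sum_neg_distrib]
    congr 1
    refine Finset.sum_congr rfl fun a _ => ?_
    rw [← Finset.sum_neg_distrib]
    refine Finset.sum_congr rfl fun b _ => ?_
    ring
  have hmono : ∀ {R R' : ℝ} {g : Γ} {x : Fin r}, R ≤ R' → x ∈ big gap cl R' g →
      x ∈ big gap cl R g := by
    intro R R' g x h hx
    rw [mem_big] at hx ⊢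
    obtain ⟨j, hj, hj2⟩ := hx
    exact ⟨j, hj, h.trans hj2⟩
  refine ⟨Option (Fin (q + 1) × Fin (q + 1)), Finset.univ, c, K,
    fun g => ∑ i, c i * K i g⁻¹ 1, ?_, fun g => rfl, ?_, ?_, ?_⟩
  · intro i
    rw [hKd]
    match i with
    | none => exact (Ad.const gap i₀).kerG
    | some p => exact ((hL.ad _).mul (hR.ad _)).kerG
  · intro g
    change 0 ≤ ∑ i, c i * K i g⁻¹ 1 ∧ ∑ i, c i * K i g⁻¹ 1 ≤ 1
    rw [key g]
    have a0 := hL.u0 q g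
    have a1 := hL.u1 q g
    have b0 := hR.u0 q g
    have b1 := hR.u1 q g
    constructor <;> nlinarith
  · refine ⟨max T1 T2, fun g hT hg => ?_⟩
    change 1 - ε ≤ ∑ i, c i * K i g⁻¹ 1
    rw [key g]
    have a0 := hL.u0 q g
    have a1 := hL.u1 q g
    have b0 := hR.u0 q g
    have b1 := hR.u1 q g
    rcases hg with h | h
    · have := hq1 q (hq ▸ le_max_left _ _) g ((le_max_left _ _).trans hT) h
      nlinarith
    · have := hq2 q (hq ▸ le_max_right _ _) g ((le_max_right _ _).trans hT) h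
      nlinarith
  · refine ⟨max R1 R2, fun g hg => ?_⟩
    change ∑ i, c i * K i g⁻¹ 1 ≤ ε
    rw [key g]
    have a := hR1 g fun x hx => hmono (le_max_left _ _) (hg x hx)
    have b := hR2 g fun x hx => hmono (le_max_right _ _) (hg x hx)
    have a1 := hL.u1 q g
    have b1 := hR.u1 q g
    have a0 := hL.u0 q g
    nlinarith

end abs

section num

variable {k : Type} [NontriviallyNormedField k] {n : ℕ} {a : Fin n → k}

theorem lg_gap (ha : Antitone fun i => ‖a i‖) (hane : ∀ i, a i ≠ 0) {T : ℝ} (hT : 0 < T)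
    {i : Fin (n - 1)} (h : Real.log T ≤ lg a i) {x l : Fin n} (hx : (x : ℕ) ≤ i)
    (hl : (i : ℕ) < l) : T * ‖a l‖ ≤ ‖a x‖ := by
  have hn : (i : ℕ) + 1 < n := by have := i.2; omega
  have p1 : 0 < ‖a ⟨(i : ℕ) + 1, hn⟩‖ := norm_pos_iff.2 (hane _)
  have p0 : 0 < ‖a ⟨(i : ℕ), by omega⟩‖ := norm_pos_iff.2 (hane _)
  have e3 : Real.log (T * ‖a ⟨(i : ℕ) + 1, hn⟩‖) ≤ Real.log ‖a ⟨(i : ℕ), by omega⟩‖ := by
    rw [Real.log_mul hT.ne' p1.ne']
    unfold H221.GapsC.lg at h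
    linarith
  have e4 := (Real.log_le_log_iff (by positivity) p0).1 e3
  have a1 : ‖a l‖ ≤ ‖a ⟨(i : ℕ) + 1, hn⟩‖ := ha (Fin.mk_le_of_le_val (by omega))
  have a2 : ‖a ⟨(i : ℕ), by omega⟩‖ ≤ ‖a x‖ := ha (by
    rw [Fin.le_def]; exact hx)
  calc T * ‖a l‖ ≤ T * ‖a ⟨(i : ℕ) + 1, hn⟩‖ := by gcongr
    _ ≤ _ := e4
    _ ≤ _ := a2

theorem lg_range {ρ : ℝ} {x : ℕ} (c : ℕ) (hc : x + c < n)
    (h : ∀ l : Fin (n - 1), x ≤ (l : ℕ) → (l : ℕ) < x + c → lg a l ≤ ρ) :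
    Real.log ‖a ⟨x, by omega⟩‖ - Real.log ‖a ⟨x + c, hc⟩‖ ≤ c * ρ := by
  induction c with
  | zero => simp
  | succ c ih =>
    have h1 := ih (by omega) fun l hl hl2 => h l hl (by omega)
    have h2 := h ⟨x + c, by omega⟩ (Nat.le_add_right _ _) (by
      change x + c < x + (c + 1); omega)
    unfold H221.GapsC.lg at h2
    have h3 : Real.log ‖a ⟨x + c, by omega⟩‖ - Real.log ‖a ⟨x + (c + 1), hc⟩‖ ≤ ρ := h2
    push_cast
    linarith

theorem lg_small (hane : ∀ i, a i ≠ 0) {ρ : ℝ} (hρ : 0 ≤ ρ) {x y : Fin n} (hxy : (x : ℕ) ≤ y)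
    (h : ∀ l : Fin (n - 1), (x : ℕ) ≤ (l : ℕ) → (l : ℕ) < y → lg a l ≤ ρ) :
    ‖a x‖ ≤ Real.exp (n * ρ) * ‖a y‖ := by
  obtain ⟨c, hc⟩ : ∃ c, (y : ℕ) = x + c := ⟨y - x, by omega⟩
  have h1 := lg_range (a := a) (ρ := ρ) (x := x) c (by have := y.2; omega)
    fun l h1 h2 => h l h1 (by omega)
  have ey : (⟨(x : ℕ) + c, by have := y.2; omega⟩ : Fin n) = y := Fin.ext hc.symm
  rw [ey] at h1
  have h1' : Real.log ‖a x‖ - Real.log ‖a y‖ ≤ c * ρ := h1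
  have p0 : 0 < ‖a x‖ := norm_pos_iff.2 (hane _)
  have p1 : 0 < ‖a y‖ := norm_pos_iff.2 (hane _)
  refine (Real.log_le_log_iff p0 (by positivity)).1 ?_
  rw [Real.log_mul (Real.exp_pos _).ne' p1.ne', Real.log_exp]
  have e3 : (c : ℝ) * ρ ≤ n * ρ := by
    refine mul_le_mul_of_nonneg_right ?_ hρ
    exact_mod_cast (by have := y.2; omega : c ≤ n)
  linarith

end num

section main

variable {k : Type} [NontriviallyNormedField k] [ProperSpace k] {n : ℕ} {Γ J : Type} [Group Γ]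
  [Fintype J]

/-- **The test functions of a middle type, general form.** The blocks of the Cartan numbers of
`M g` are `0 .. p`, `p + 1 .. n - 2 - p`. -/
theorem tests_gen' {gap : J → Γ → ℝ} {r : ℕ} {cl : J → Fin r} {A : Finset (Fin r)} {i₀ : J}
    {M : Γ → Matrix (Fin n) (Fin n) k} (hM : Mrp M) {a : Γ → Fin n → k}
    {U U' V V' : Γ → Matrix (Fin n) (Fin n) k}
    (hcrt : ∀ g, Crt (M g) (a g) (U g) (U' g) (V g) (V' g)) {p : ℕ} {pf pe : Fin (n - 1)}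
    (hpf : (pf : ℕ) = p) (hpe : (pe : ℕ) = n - 2 - p) (hn : 2 * p + 2 < n)
    (h1 : ∀ T : ℝ, ∃ T' : ℝ, ∀ g, T' ≤ gap i₀ g → T ≤ lg (a g) pf ∧ T ≤ lg (a g) pe)
    (h2 : ∀ R0 : ℝ, ∃ R T : ℝ, ∀ g, T ≤ gap i₀ g → (∀ x ∈ A, x < cl i₀ → x ∉ big gap cl R0 g) →
      ∀ l : Fin (n - 1), (l : ℕ) < p → lg (a g) l ≤ R)
    (h3 : ∀ R0 : ℝ, ∃ R T : ℝ, ∀ g, T ≤ gap i₀ g → (∀ x ∈ A, cl i₀ < x → x ∉ big gap cl R0 g) →
      ∀ l : Fin (n - 1), p < (l : ℕ) → (l : ℕ) < n - 2 - p → lg (a g) l ≤ R)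
    (h4 : ∀ R : ℝ, ∃ R1 : ℝ, ∀ g, (∀ x ∈ A, x ∈ big gap cl R1 g) →
      (∃ l : Fin (n - 1), (l : ℕ) < p ∧ R ≤ lg (a g) l) ∧
      ∃ l : Fin (n - 1), p < (l : ℕ) ∧ (l : ℕ) < n - 2 - p ∧ R ≤ lg (a g) l) :
    Tests gap cl A i₀ := by
  letI : MeasurableSpace k := borel k
  haveI : BorelSpace k := ⟨rfl⟩
  have hcrt' : ∀ g, Crt (M (g⁻¹)⁻¹) (a g) (U g) (U' g) (V g) (V' g) := fun g => by
    rw [inv_inv]; exact hcrt g
  have hane : ∀ g i, a g i ≠ 0 := fun g => (hcrt g).ne (hM.det g)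
  -- the index bounds
  have b0 : 0 < n := by omega
  have bp : p < n := by omega
  have bj : p + 1 < n := by omega
  have bq : n - 2 - p < n := by omega
  obtain ⟨mm, hmm⟩ : ∃ mm : ℕ, mm = n - 2 * (p + 1) := ⟨_, rfl⟩
  have hri : ∀ T : ℝ, ∃ T' : ℝ, ∀ g, T' ≤ gap i₀ g →
      (∀ i l : Fin n, (i : ℕ) < p + 1 → p + 1 ≤ (l : ℕ) → T * ‖a g l‖ ≤ ‖a g i‖) ∧
      ∀ i l : Fin n, (i : ℕ) < p + 1 + mm → p + 1 + mm ≤ (l : ℕ) → T * ‖a g l‖ ≤ ‖a g i‖ := by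
    intro T
    obtain ⟨T1, hT1⟩ : ∃ T1 : ℝ, T1 = max T 1 := ⟨_, rfl⟩
    have hT10 : 0 < T1 := by rw [hT1]; exact lt_max_of_lt_right one_pos
    obtain ⟨T', hT'⟩ := h1 (Real.log T1)
    refine ⟨T', fun g hg => ⟨fun i l hi hl => ?_, fun i l hi hl => ?_⟩⟩
    · have := lg_gap (hcrt g).anti (hane g) hT10 (hT' g hg).1 (x := i) (l := l) (by omega)
        (by omega)
      exact (mul_le_mul_of_nonneg_right (hT1 ▸ le_max_left _ _) (norm_nonneg _)).trans this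
    · have := lg_gap (hcrt g).anti (hane g) hT10 (hT' g hg).2 (x := i) (l := l) (by omega)
        (by omega)
      exact (mul_le_mul_of_nonneg_right (hT1 ▸ le_max_left _ _) (norm_nonneg _)).trans this
  have hbig : ∀ g (R : ℝ) (x y : Fin n) (l : Fin (n - 1)), (x : ℕ) ≤ l → (l : ℕ) < y →
      Real.log (max R 1) ≤ lg (a g) l → R * ‖a g y‖ ≤ ‖a g x‖ := by
    intro g R x y l hx hy hR
    have hT10 : 0 < max R 1 := lt_max_of_lt_right one_pos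
    have := lg_gap (hcrt g).anti (hane g) hT10 hR hx hy
    exact (mul_le_mul_of_nonneg_right (le_max_left _ _) (norm_nonneg _)).trans this
  -- the left side
  obtain ⟨e, he⟩ := side_mid (j := 0) (m := p + 1) (k := k) (n := n) (by omega) (by omega) hM.left
    (gap := gap) (i₀ := i₀) (S := fun R g => ∀ x ∈ A, x < cl i₀ → x ∉ big gap cl R g)
    (B := fun R g => ∀ x ∈ A, x ∈ big gap cl R g) hcrt' (pj := ⟨0, b0⟩) (pq := ⟨p, bp⟩) rfl
    (by change p + 1 = 0 + (p + 1); omega)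
    (fun T => by
      obtain ⟨T', hT'⟩ := hri T
      exact ⟨T', fun g hg => ⟨fun i l hi => absurd hi (Nat.not_lt_zero _),
        fun i l hi hl => (hT' g hg).1 i l (by omega) (by omega)⟩⟩)
    (fun R0 => by
      obtain ⟨R, T, hRT⟩ := h2 R0
      refine ⟨Real.exp (n * max R 0), T, fun g hgT hg => ?_⟩
      exact lg_small (hane g) (le_max_right _ _) (Nat.zero_le _)
        fun l _ hl => (hRT g hgT hg l hl).trans (le_max_left _ _))
    (fun R => by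
      obtain ⟨R1, hR1⟩ := h4 (Real.log (max R 1))
      refine ⟨R1, fun g hg => ?_⟩
      obtain ⟨l, hl, hl2⟩ := (hR1 g hg).1
      exact hbig g R _ _ l (Nat.zero_le _) hl hl2)
  -- the right side
  obtain ⟨e', he'⟩ := side_mid (j := p + 1) (m := mm) (k := k) (n := n) (by omega) (by omega)
    hM.left (gap := gap) (i₀ := i₀) (S := fun R g => ∀ x ∈ A, cl i₀ < x → x ∉ big gap cl R g)
    (B := fun R g => ∀ x ∈ A, x ∈ big gap cl R g) hcrt' (pj := ⟨p + 1, bj⟩)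
    (pq := ⟨n - 2 - p, bq⟩) rfl
    (by change n - 2 - p + 1 = p + 1 + mm; omega)
    hri
    (fun R0 => by
      obtain ⟨R, T, hRT⟩ := h3 R0
      refine ⟨Real.exp (n * max R 0), T, fun g hgT hg => ?_⟩
      refine lg_small (hane g) (le_max_right _ _) ?_
        fun l hl hl2 => (hRT g hgT hg l ?_ hl2).trans (le_max_left _ _)
      · change p + 1 ≤ n - 2 - p
        omega
      · have : p + 1 ≤ (l : ℕ) := hl
        omega)
    (fun R => by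
      obtain ⟨R1, hR1⟩ := h4 (Real.log (max R 1))
      refine ⟨R1, fun g hg => ?_⟩
      obtain ⟨l, hl, hl2, hl3⟩ := (hR1 g hg).2
      exact hbig g R _ _ l (by change p + 1 ≤ (l : ℕ); omega) hl2 hl3)
  exact tests_sg he he'

/-- **The test functions of a middle type**, the form promised. -/
theorem tests_gen {gap : J → Γ → ℝ} {r : ℕ} {cl : J → Fin r} {A : Finset (Fin r)} {i₀ : J}
    {M : Γ → Matrix (Fin n) (Fin n) k} (hM : Mrp M) {a : Γ → Fin n → k}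
    {U U' V V' : Γ → Matrix (Fin n) (Fin n) k}
    (hcrt : ∀ g, Crt (M g) (a g) (U g) (U' g) (V g) (V' g)) {p : ℕ} {pf pe : Fin (n - 1)}
    (hpf : (pf : ℕ) = p) (hpe : (pe : ℕ) = n - 2 - p) (hn : 2 * p + 2 < n)
    (h1 : ∀ T : ℝ, ∃ T' : ℝ, ∀ g, T' ≤ gap i₀ g → T ≤ lg (a g) pf ∧ T ≤ lg (a g) pe)
    (h2 : ∀ R0 : ℝ, ∃ R : ℝ, ∀ g, (∀ x ∈ A, x < cl i₀ → x ∉ big gap cl R0 g) →
      ∀ l : Fin (n - 1), (l : ℕ) < p → lg (a g) l ≤ R)
    (h3 : ∀ R0 : ℝ, ∃ R : ℝ, ∀ g, (∀ x ∈ A, cl i₀ < x → x ∉ big gap cl R0 g) →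
      ∀ l : Fin (n - 1), p < (l : ℕ) → (l : ℕ) < n - 2 - p → lg (a g) l ≤ R)
    (h4 : ∀ R : ℝ, ∃ R1 : ℝ, ∀ g, (∀ x ∈ A, x ∈ big gap cl R1 g) →
      (∃ l : Fin (n - 1), (l : ℕ) < p ∧ R ≤ lg (a g) l) ∧
      ∃ l : Fin (n - 1), p < (l : ℕ) ∧ (l : ℕ) < n - 2 - p ∧ R ≤ lg (a g) l) :
    Tests gap cl A i₀ :=
  tests_gen' hM hcrt hpf hpe hn h1 (fun R0 => by
    obtain ⟨R, hR⟩ := h2 R0
    exact ⟨R, 0, fun g _ => hR g⟩) (fun R0 => by
    obtain ⟨R, hR⟩ := h3 R0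
    exact ⟨R, 0, fun g _ => hR g⟩) h4

/-- the folded label -/
def fold (n x : ℕ) : ℕ := min x (n - 2 - x)

/-- **The test functions of a middle type, folded classes.** `I` = the gaps which are used, the
others are bounded. -/
theorem tests_fold {gap : J → Γ → ℝ} {r : ℕ} {cl : J → Fin r} {A : Finset (Fin r)}
    {M : Γ → Matrix (Fin n) (Fin n) k} (hM : Mrp M) {a : Γ → Fin n → k}
    {U U' V V' : Γ → Matrix (Fin n) (Fin n) k}
    (hcrt : ∀ g, Crt (M g) (a g) (U g) (U' g) (V g) (V' g)) (I : Set (Fin (n - 1)))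
    (e : Fin (n - 1) → J) {c C C₀ : ℝ} (hc : 0 < c)
    (hI : ∀ l ∈ I, ∀ g, |gap (e l) g - c * lg (a g) l| ≤ C)
    (hO : ∀ l, l ∉ I → ∀ g, lg (a g) l ≤ C₀)
    (hcomp : ∀ R : ℝ, ∃ R' : ℝ, ∀ i j, cl i = cl j → ∀ g, gap i g ≤ R → gap j g ≤ R')
    (hmono : ∀ x ∈ I, ∀ y ∈ I, fold n x < fold n y → cl (e x) < cl (e y))
    (heq : ∀ x ∈ I, ∀ y ∈ I, fold n x = fold n y → cl (e x) = cl (e y))
    (hA : ∀ y ∈ I, cl (e y) ∈ A) {i₀ pf pe l1 l2 : Fin (n - 1)} (hi₀ : i₀ ∈ I) (hf : pf ∈ I)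
    (hpf : (pf : ℕ) = fold n i₀) (he : pe ∈ I) (hpe : (pe : ℕ) = n - 2 - fold n i₀)
    (hl1 : l1 ∈ I) (hl1' : (l1 : ℕ) < fold n i₀) (hl2 : l2 ∈ I) (hl2' : fold n i₀ < (l2 : ℕ))
    (hl2'' : (l2 : ℕ) < n - 2 - fold n i₀) : Tests gap cl A (e i₀) := by
  classical
  obtain ⟨p, hp⟩ : ∃ p, p = fold n i₀ := ⟨_, rfl⟩
  rw [← hp] at hpf hpe hl1' hl2' hl2''
  have ef : fold n pf = fold n i₀ := by
    rw [← hp, hpf, fold]; omega
  have ee : fold n pe = fold n i₀ := by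
    rw [← hp, hpe, fold]; omega
  have up : ∀ R : ℝ, ∃ R' : ℝ, ∀ x ∈ I, ∀ j, cl j = cl (e x) → ∀ g, R' ≤ gap j g →
      R ≤ lg (a g) x := by
    intro R
    obtain ⟨R', hR'⟩ := hcomp (c * R + C)
    refine ⟨R' + 1, fun x hx j hj g hg => ?_⟩
    by_contra hcon
    rw [not_le] at hcon
    have e1 := (abs_le.1 (hI x hx g)).2
    have e2 : c * lg (a g) x ≤ c * R := mul_le_mul_of_nonneg_left hcon.le hc.le
    have e3 := hR' (e x) j hj.symm g (by linarith)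
    linarith
  have dn : ∀ R : ℝ, ∃ R' : ℝ, ∀ x, ∀ g, (x ∈ I → gap (e x) g ≤ R) → lg (a g) x ≤ R' := by
    intro R
    refine ⟨max ((R + C) / c) C₀, fun x g hg => ?_⟩
    by_cases hx : x ∈ I
    · have e1 := (abs_le.1 (hI x hx g)).1
      have e2 := hg hx
      refine le_trans ?_ (le_max_left _ _)
      rw [le_div_iff₀ hc]
      linarith
    · exact (hO x hx g).trans (le_max_right _ _)
  have nb : ∀ {R : ℝ} {g : Γ} {x : Fin (n - 1)}, cl (e x) ∉ big gap cl R g → gap (e x) g ≤ R := by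
    intro R g x hx
    rw [mem_big] at hx
    push Not at hx
    exact (hx _ rfl).le
  refine tests_gen hM hcrt hpf hpe (by omega) (fun T => ?_) (fun R0 => ?_) (fun R0 => ?_)
    (fun R => ?_)
  · obtain ⟨T', hT'⟩ := up T
    exact ⟨T', fun g hg => ⟨hT' pf hf (e i₀) (heq _ hi₀ _ hf ef.symm) g hg,
      hT' pe he (e i₀) (heq _ hi₀ _ he ee.symm) g hg⟩⟩
  · obtain ⟨R', hR'⟩ := dn R0
    refine ⟨R', fun g hg l hl => hR' l g fun hlI => nb (hg _ (hA l hlI) ?_)⟩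
    refine hmono _ hlI _ hi₀ ?_
    rw [← hp, fold]
    omega
  · obtain ⟨R', hR'⟩ := dn R0
    refine ⟨R', fun g hg l hl hl' => hR' l g fun hlI => nb (hg _ (hA l hlI) ?_)⟩
    refine hmono _ hi₀ _ hlI ?_
    rw [← hp, fold]
    omega
  · obtain ⟨R', hR'⟩ := up R
    refine ⟨R', fun g hg => ?_⟩
    obtain ⟨j1, hj1, hj1'⟩ := mem_big.1 (hg _ (hA l1 hl1))
    obtain ⟨j2, hj2, hj2'⟩ := mem_big.1 (hg _ (hA l2 hl2))
    exact ⟨⟨l1, hl1', hR' l1 hl1 j1 hj1 g hj1'⟩, l2, hl2', hl2'', hR' l2 hl2 j2 hj2 g hj2'⟩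

/-- **The test functions of a middle type, folded classes, all gaps** (helper618's letters). -/
theorem tests_mid {gap : J → Γ → ℝ} {r : ℕ} {cl : J → Fin r} {A : Finset (Fin r)}
    {M : Γ → Matrix (Fin n) (Fin n) k} (hM : Mrp M) (e : Fin (n - 1) → J)
    (hmono : ∀ x y : Fin (n - 1), fold n x < fold n y → cl (e x) < cl (e y))
    (heq : ∀ x y : Fin (n - 1), fold n x = fold n y → cl (e x) = cl (e y))
    (hcomp : ∀ R : ℝ, ∃ R' : ℝ, ∀ i j, cl i = cl j → ∀ g, gap i g ≤ R → gap j g ≤ R')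
    (hA : ∀ y, cl (e y) ∈ A) {c C : ℝ} (hc : 0 < c)
    (hcrt : ∀ g, ∃ a U U' V V', Crt (M g) a U U' V V' ∧
      ∀ i : Fin (n - 1), |gap (e i) g - c * lg a i| ≤ C) (i₀ : Fin (n - 1))
    (h1 : 0 < fold n i₀) (h2 : 2 * fold n i₀ + 3 < n) : Tests gap cl A (e i₀) := by
  choose a U U' V V' hcr hg using hcrt
  have hb : fold n i₀ ≤ n - 2 := by
    unfold fold
    omega
  exact tests_fold hM hcr univ e hc (fun l _ g => hg g l)
    (fun l hl => absurd (mem_univ l) hl) (C₀ := 0) hcomp (fun x _ y _ => hmono x y)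
    (fun x _ y _ => heq x y) (fun y _ => hA y) (mem_univ i₀)
    (pf := ⟨fold n i₀, by omega⟩) (pe := ⟨n - 2 - fold n i₀, by omega⟩) (mem_univ _) rfl
    (mem_univ _) rfl (l1 := ⟨0, by omega⟩) (mem_univ _) h1
    (l2 := ⟨fold n i₀ + 1, by omega⟩) (mem_univ _) (Nat.lt_succ_self _) (by
      change fold n i₀ + 1 < n - 2 - fold n i₀
      omega)

end main

end Vale.Agent.P092.H100.Mid
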