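import Vale.Agent.P092.H100.Mid8
import Vale.Agent.P092.H618.S2.PosM

/-!
P092 (helper100), [P2-MID]: `GenT` of helper618 is proved; `pos_absM` without it.
-/

set_option linter.all false

open Matrix Filter Topology

namespace Vale.Agent.P092.H100.Mid

open Vale.Agent.P092.H618.PosM (GenT)

/-- **`GenT` (helper618's letter)** -/
theorem genT (Γ : Type) [Group Γ] (k : Type) [NontriviallyNormedField k] [ProperSpace k] :
    GenT Γ k := by
  intro n M hM J _ R gap cl A i₀ p hp hpn a U U' V V' hcrt h1 h2 h3 h4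
  refine tests_gen hM hcrt (p := p) (pf := ⟨p, by omega⟩) (pe := ⟨n - 2 - p, by omega⟩) rfl rfl
    (by omega) (fun T => ?_) h2 h3 h4
  obtain ⟨T', hT'⟩ := h1 T
  exact ⟨T', fun g hg => ⟨hT' g hg _ (Or.inl rfl), hT' g hg _ (Or.inr rfl)⟩⟩

end Vale.Agent.P092.H100.Mid
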