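import Vale.Agent.P092.H100.OutAbs

/-!
P092 (helper100), team A: the centre is fixed by the elements `v` which carry a nonzero
intertwiner; the closure argument.
-/

set_option linter.all false

open scoped InnerProductSpace Topology
open Filter

namespace Vale.Agent.P092.H100

section abs

variable {K : Type*} [NormedAddCommGroup K] [InnerProductSpace ℂ K] [CompleteSpace K]
variable {A G H : Type*} [Group G] [Group H] {L R : A → (K →L[ℂ] K)}
  {r : G →* (K →L[ℂ] K)} {α : H →* (K →L[ℂ] K)}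

/-- If there is a nonzero intertwiner for `v`, then `v` fixes the centre. -/
theorem fix_of_itw (D : OutData A G H L R r α)
    (hcL : ∀ X z : K →L[ℂ] K, (∀ a, X * L a = L a * X) → Zc L R z → X * z = z * X)
    (hcR : ∀ X z : K →L[ℂ] K, (∀ a, X * R a = R a * X) → Zc L R z → X * z = z * X)
    (hEr : ∀ X : K →L[ℂ] K, (∀ a, X * L a = L a * X) → (∀ g, X * r g = r g * X) →
      ∃ c : ℂ, X = c • 1)
    {v : H} {S : K →L[ℂ] K} (hS : Itw L R α v S) (hS0 : S ≠ 0) {z : K →L[ℂ] K}
    (hz : Zc L R z) : z * α v = α v * z := by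
  -- the key identity
  have key : ∀ T : K →L[ℂ] K, Itw L R α v T → (z - α v * z * α v⁻¹) * T = 0 := by
    intro T hT
    have h1 : T * z = z * T := hcL T z hT.left hz
    have h2 : ∀ a, (α v⁻¹ * T) * R a = R a * (α v⁻¹ * T) := by
      intro a
      rw [mul_assoc, hT.right]
      calc α v⁻¹ * (α v * R a * α v⁻¹ * T) = (α v⁻¹ * α v) * R a * (α v⁻¹ * T) := by
            simp only [mul_assoc]
        _ = R a * (α v⁻¹ * T) := by rw [rep_inv_mul, one_mul]
    have h3 : (α v⁻¹ * T) * z = z * (α v⁻¹ * T) := hcR _ z h2 hz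
    have h4 : α v * z * α v⁻¹ * T = z * T := by
      calc α v * z * α v⁻¹ * T = α v * (z * (α v⁻¹ * T)) := by simp only [mul_assoc]
        _ = α v * (α v⁻¹ * T * z) := by rw [h3]
        _ = (α v * α v⁻¹) * (T * z) := by simp only [mul_assoc]
        _ = z * T := by rw [rep_mul_inv, one_mul, h1]
    rw [sub_mul, h4, sub_self]
  have hfix : z - α v * z * α v⁻¹ = 0 := by
    set W : Submodule ℂ K :=
      (⨆ g : G, LinearMap.range (r g * S * r g⁻¹ : K →L[ℂ] K).toLinearMap).topologicalClosure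
      with hW
    have hWc : IsClosed (W : Set K) := Submodule.isClosed_topologicalClosure _
    obtain ⟨P, hP1, hP2, hP3⟩ := proj_comm W hWc
    have hmem : ∀ (g : G) (x : K), (r g * S * r g⁻¹ : K →L[ℂ] K) x ∈ W := by
      intro g x
      apply Submodule.le_topologicalClosure
      exact Submodule.mem_iSup_of_mem g ⟨x, rfl⟩
    have hinv : ∀ X : K →L[ℂ] K, (∀ (g : G) (x : K), X ((r g * S * r g⁻¹ : K →L[ℂ] K) x) ∈ W) →
        ∀ x ∈ W, X x ∈ W := by
      intro X hX x hx
      have h1 : (⨆ g : G, LinearMap.range (r g * S * r g⁻¹ : K →L[ℂ] K).toLinearMap) ≤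
          W.comap X.toLinearMap := by
        refine iSup_le fun g => ?_
        rintro _ ⟨y, rfl⟩
        exact hX g y
      have h2 : IsClosed ((W.comap X.toLinearMap : Submodule ℂ K) : Set K) :=
        hWc.preimage X.continuous
      exact Submodule.topologicalClosure_minimal _ h1 h2 hx
    have hL : ∀ a, ∀ x ∈ W, L a x ∈ W := by
      intro a
      apply hinv
      intro g x
      have h := congrArg (fun T : K →L[ℂ] K => T x) ((hS.conj D g).left a)
      change (r g * S * r g⁻¹ : K →L[ℂ] K) (L a x) = L a ((r g * S * r g⁻¹ : K →L[ℂ] K) x) at h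
      rw [← h]
      exact hmem g _
    have hR : ∀ g', ∀ x ∈ W, r g' x ∈ W := by
      intro g'
      apply hinv
      intro g x
      have h : r g' * (r g * S * r g⁻¹) = (r (g' * g) * S * r (g' * g)⁻¹) * r g' := by
        rw [mul_inv_rev, map_mul, map_mul]
        calc r g' * (r g * S * r g⁻¹) = r g' * r g * S * (r g⁻¹ * 1) := by
              rw [mul_one]; simp only [mul_assoc]
          _ = r g' * r g * S * (r g⁻¹ * (r g'⁻¹ * r g')) := by rw [rep_inv_mul]
          _ = r g' * r g * S * (r g⁻¹ * r g'⁻¹) * r g' := by simp only [mul_assoc]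
      have h' := congrArg (fun T : K →L[ℂ] K => T x) h
      change r g' ((r g * S * r g⁻¹ : K →L[ℂ] K) x) =
        (r (g' * g) * S * r (g' * g)⁻¹ : K →L[ℂ] K) (r g' x) at h'
      rw [h']
      exact hmem _ _
    have hPL : ∀ a, P * L a = L a * P := by
      intro a
      refine hP3 _ (hL a) ?_
      obtain ⟨b, hb⟩ := D.Ls a
      rw [hb]
      exact hL b
    have hPr : ∀ g, P * r g = r g * P := by
      intro g
      refine hP3 _ (hR g) ?_
      rw [D.hr]
      exact hR _
    obtain ⟨c, hc⟩ := hEr P hPL hPr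
    have hSW : ∀ x, S x ∈ W := by
      intro x
      have h := hmem 1 x
      rw [inv_one, map_one, one_mul, mul_one] at h
      exact h
    have hex : ∃ x, S x ≠ 0 := by
      by_contra hcon
      push Not at hcon
      exact hS0 (ContinuousLinearMap.ext hcon)
    obtain ⟨x, hx⟩ := hex
    have hc1 : c = 1 := by
      have h := hP1 (S x) (hSW x)
      rw [hc] at h
      change c • S x = S x at h
      have h2 : (c - 1) • S x = 0 := by rw [sub_smul, h, one_smul, sub_self]
      rcases smul_eq_zero.1 h2 with h3 | h3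
      · exact sub_eq_zero.1 h3
      · exact absurd h3 hx
    have hall : ∀ x, x ∈ W := by
      intro x
      have h := hP2 x
      rw [hc, hc1, one_smul] at h
      exact h
    -- the operator vanishes on `W`
    have hker : W ≤ LinearMap.ker (z - α v * z * α v⁻¹ : K →L[ℂ] K).toLinearMap := by
      refine Submodule.topologicalClosure_minimal _ ?_ ?_
      · refine iSup_le fun g => ?_
        rintro _ ⟨y, rfl⟩
        have h := congrArg (fun T : K →L[ℂ] K => T y) (key _ (hS.conj D g))
        exact h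
      · exact isClosed_singleton.preimage (z - α v * z * α v⁻¹ : K →L[ℂ] K).continuous
    exact ContinuousLinearMap.ext fun x => hker (hall x)
  have h1 := sub_eq_zero.1 hfix
  calc z * α v = (α v * z * α v⁻¹) * α v := by rw [← h1]
    _ = α v * z * (α v⁻¹ * α v) := by simp only [mul_assoc]
    _ = α v * z := by rw [rep_inv_mul, mul_one]

/-- The subgroup fixing the centre. -/
def fixN (L R : A → (K →L[ℂ] K)) (α : H →* (K →L[ℂ] K)) : Subgroup H where
  carrier := {h | ∀ z, Zc L R z → z * α h = α h * z}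
  mul_mem' := by
    intro h k hh hk z hz
    rw [map_mul, ← mul_assoc, hh z hz, mul_assoc, hk z hz, mul_assoc]
  one_mem' := by intro z hz; rw [map_one, one_mul, mul_one]
  inv_mem' := by
    intro h hh z hz
    have h1 := hh z hz
    calc z * α h⁻¹ = (α h⁻¹ * α h) * z * α h⁻¹ := by rw [rep_inv_mul, one_mul]
      _ = α h⁻¹ * (α h * z) * α h⁻¹ := by simp only [mul_assoc]
      _ = α h⁻¹ * z * (α h * α h⁻¹) := by rw [← h1]; simp only [mul_assoc]
      _ = α h⁻¹ * z := by rw [rep_mul_inv, mul_one]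

theorem mem_fixN {h : H} : h ∈ fixN L R α ↔ ∀ z, Zc L R z → z * α h = α h * z := Iff.rfl

theorem fixN_normal (D : OutData A G H L R r α) : (fixN L R α).Normal := by
  constructor
  intro h hh k z hz
  have h1 : Zc L R (α k⁻¹ * z * α k) := by
    have h2 := hz.conj D k⁻¹
    rwa [inv_inv] at h2
  have h2 := hh _ h1
  calc z * α (k * h * k⁻¹) = z * (α k * α h * α k⁻¹) := by rw [map_mul, map_mul]
    _ = (α k * α k⁻¹) * z * (α k * α h * α k⁻¹) := by rw [rep_mul_inv, one_mul]
    _ = α k * ((α k⁻¹ * z * α k) * α h) * α k⁻¹ := by simp only [mul_assoc]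
    _ = α k * (α h * (α k⁻¹ * z * α k)) * α k⁻¹ := by rw [h2]
    _ = (α k * α h * α k⁻¹) * z * (α k * α k⁻¹) := by simp only [mul_assoc]
    _ = α (k * h * k⁻¹) * z := by rw [rep_mul_inv, mul_one, map_mul, map_mul]

end abs

/-- The closure argument: a normal subgroup of a dense subgroup of a (topologically) simple group
is dense or has trivial image. -/
theorem dense_of_normal {Λ H : Type*} [Group Λ] [Group H] [TopologicalSpace H]
    [IsTopologicalGroup H] (q : Λ →* H) (hd : DenseRange q)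
    (hs : ∀ N : Subgroup H, N.Normal → IsClosed (N : Set H) → N = ⊥ ∨ N = ⊤)
    (N : Subgroup Λ) (hN : N.Normal) {u : Λ} (hu : u ∈ N) (hqu : q u ≠ 1) (w : Λ)
    {U : Set H} (hU : U ∈ 𝓝 (1 : H)) : ∃ w' ∈ N, q (w'⁻¹ * w) ∈ U := by
  set M : Subgroup H := (N.map q).topologicalClosure with hM
  have hMc : IsClosed (M : Set H) := Subgroup.isClosed_topologicalClosure _
  have hMe : (M : Set H) = closure (N.map q : Set H) := Subgroup.topologicalClosure_coe
  have h1 : ∀ x : Λ, ∀ m ∈ M, q x * m * (q x)⁻¹ ∈ M := by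
    intro x m hm
    have hc : Continuous fun m : H => q x * m * (q x)⁻¹ := by fun_prop
    have h2 : Set.MapsTo (fun m : H => q x * m * (q x)⁻¹) (N.map q : Set H) (N.map q : Set H) := by
      rintro _ ⟨n, hn, rfl⟩
      refine ⟨x * n * x⁻¹, hN.conj_mem n hn x, ?_⟩
      rw [map_mul, map_mul, map_inv]
    have h3 := h2.closure hc
    rw [← hMe] at h3
    exact h3 hm
  have h2 : M.Normal := by
    constructor
    intro m hm g
    have hcl : IsClosed {g : H | g * m * g⁻¹ ∈ (M : Set H)} :=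
      hMc.preimage (by fun_prop : Continuous fun g : H => g * m * g⁻¹)
    have h3 : closure (Set.range q) ⊆ {g : H | g * m * g⁻¹ ∈ (M : Set H)} := by
      refine closure_minimal ?_ hcl
      rintro _ ⟨x, rfl⟩
      exact h1 x m hm
    exact h3 (hd g)
  have h3 : q u ∈ M := Subgroup.le_topologicalClosure _ ⟨u, hu, rfl⟩
  have h4 : M = ⊤ := by
    rcases hs M h2 hMc with h5 | h5
    · rw [h5] at h3
      exact absurd (Subgroup.mem_bot.1 h3) hqu
    · exact h5
  have h5 : q w ∈ closure (N.map q : Set H) := by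
    rw [← hMe, h4]; trivial
  have h6 : (fun x : H => x⁻¹ * q w) ⁻¹' U ∈ 𝓝 (q w) := by
    have hc : Continuous fun x : H => x⁻¹ * q w := by fun_prop
    refine hc.continuousAt.preimage_mem_nhds ?_
    rw [inv_mul_cancel]
    exact hU
  obtain ⟨x, hx, ⟨w', hw', rfl⟩⟩ := mem_closure_iff_nhds.1 h5 _ h6
  refine ⟨w', hw', ?_⟩
  rw [map_mul, map_inv]
  exact hx

/-- Bessel's inequality for isometries with orthogonal ranges. -/
theorem bessel {E F ι : Type*} [NormedAddCommGroup E] [InnerProductSpace ℂ E] [CompleteSpace E]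
    [NormedAddCommGroup F] [InnerProductSpace ℂ F] [CompleteSpace F] (J : ι → F →L[ℂ] E)
    (hJ : ∀ u ξ η, ⟪J u ξ, J u η⟫_ℂ = ⟪ξ, η⟫_ℂ)
    (ho : ∀ u w, u ≠ w → ∀ ξ η, ⟪J u ξ, J w η⟫_ℂ = 0) (y : E) (s : Finset ι) :
    ∑ u ∈ s, ‖ContinuousLinearMap.adjoint (J u) y‖ ^ 2 ≤ ‖y‖ ^ 2 := by
  classical
  set η : ι → F := fun u => ContinuousLinearMap.adjoint (J u) y with hη
  set P : E := ∑ u ∈ s, J u (η u) with hP
  have h1 : ⟪y, P⟫_ℂ = ((∑ u ∈ s, ‖η u‖ ^ 2 : ℝ) : ℂ) := by
    rw [hP, inner_sum, Complex.ofReal_sum]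
    refine Finset.sum_congr rfl fun u _ => ?_
    rw [← ContinuousLinearMap.adjoint_inner_left, inner_self_eq_norm_sq_to_K]
    norm_cast
  have h2 : ⟪P, P⟫_ℂ = ((∑ u ∈ s, ‖η u‖ ^ 2 : ℝ) : ℂ) := by
    rw [hP, sum_inner, Complex.ofReal_sum]
    refine Finset.sum_congr rfl fun u hu => ?_
    rw [inner_sum, Finset.sum_eq_single u]
    · rw [hJ, inner_self_eq_norm_sq_to_K]
      norm_cast
    · intro w _ hw
      exact ho u w (Ne.symm hw) _ _
    · intro h
      exact absurd hu h
  have h3 : ‖P‖ ^ 2 = ∑ u ∈ s, ‖η u‖ ^ 2 := by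
    rw [inner_self_eq_norm_sq_to_K] at h2
    apply Complex.ofReal_injective
    rw [← h2]
    push_cast
    rfl
  have h4 : ‖y - P‖ ^ 2 = ‖y‖ ^ 2 - 2 * (∑ u ∈ s, ‖η u‖ ^ 2) + ‖P‖ ^ 2 := by
    rw [@norm_sub_sq ℂ, h1]
    simp only [RCLike.re_to_complex, Complex.ofReal_re]
  have h5 : 0 ≤ ‖y - P‖ ^ 2 := by positivity
  rw [h4, h3] at h5
  linarith

end Vale.Agent.P092.H100
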