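import Vale.Agent.P092.H100.Int
import Vale.Agent.P092.H100.OutFix
import Vale.Agent.P092.PA.Defs

/-!
P092 (helper100), team A, block [OUT]: a bounded field `T` which commutes with the smooth elements
and is continuous for the conjugation in another topology has no Fourier coefficient off `1`.
-/

set_option linter.all false

open scoped InnerProductSpace Topology ENNReal
open Filter ContinuousLinearMap MeasureTheory
open Vale.Agent.P092.H160 Vale.Agent.P092.H156.Sm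

namespace Vale.Agent.P092.H100

section dense

variable {E F A : Type*} [NormedAddCommGroup E] [InnerProductSpace ℂ E]
  [NormedAddCommGroup F] [InnerProductSpace ℂ F]

theorem norm_eq_of_inner {x y : E} (h : ⟪x, x⟫_ℂ = ⟪y, y⟫_ℂ) : ‖x‖ = ‖y‖ := by
  rw [inner_self_eq_norm_sq_to_K, inner_self_eq_norm_sq_to_K] at h
  have h2 : ‖x‖ ^ 2 = ‖y‖ ^ 2 := by exact_mod_cast h
  exact (pow_left_inj₀ (norm_nonneg _) (norm_nonneg _) two_ne_zero).mp h2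

theorem inner_ext_dense {j : A → E} (hj : DenseRange j) (P Q : E →L[ℂ] F) (c : ℂ)
    (h : ∀ a b, ⟪P (j a), Q (j b)⟫_ℂ = ⟪j a, j b⟫_ℂ * c) (ξ η : E) :
    ⟪P ξ, Q η⟫_ℂ = ⟪ξ, η⟫_ℂ * c := by
  have h1 : ∀ (a : A) (η : E), ⟪P (j a), Q η⟫_ℂ = ⟪j a, η⟫_ℂ * c := by
    intro a η
    refine hj.induction_on (p := fun η => ⟪P (j a), Q η⟫_ℂ = ⟪j a, η⟫_ℂ * c) η ?_ (h a)
    exact isClosed_eq (continuous_const.inner Q.continuous)
      ((continuous_const.inner continuous_id).mul continuous_const)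
  refine hj.induction_on (p := fun ξ => ⟪P ξ, Q η⟫_ℂ = ⟪ξ, η⟫_ℂ * c) ξ ?_ (fun a => h1 a η)
  exact isClosed_eq (P.continuous.inner continuous_const)
    ((continuous_id.inner continuous_const).mul continuous_const)

theorem norm_le_of_inner_dense {j : A → E} (hj : DenseRange j) {x : E} {M : ℝ} (hM : 0 ≤ M)
    (h : ∀ c, ‖⟪j c, x⟫_ℂ‖ ≤ ‖j c‖ * M) : ‖x‖ ≤ M := by
  have h1 : ‖⟪x, x⟫_ℂ‖ ≤ ‖x‖ * M := by
    refine hj.induction_on (p := fun ξ => ‖⟪ξ, x⟫_ℂ‖ ≤ ‖ξ‖ * M) x ?_ h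
    exact isClosed_le (continuous_id.inner continuous_const).norm
      (continuous_norm.mul continuous_const)
  rw [inner_self_eq_norm_sq_to_K] at h1
  have h3 : ‖((‖x‖ : ℂ)) ^ 2‖ = ‖x‖ ^ 2 := by
    rw [norm_pow, Complex.norm_real, norm_norm]
  have h4 : ‖x‖ ^ 2 ≤ ‖x‖ * M := by
    rw [← h3]; exact h1
  by_contra hcon
  push Not at hcon
  have h2 : 0 < ‖x‖ := lt_of_le_of_lt hM hcon
  nlinarith

end dense

section out

variable {Γ Λ G H K : Type} [Group Γ] [Group Λ] [Group G] [Group H] [Countable Γ]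
  [TopologicalSpace G] [TopologicalSpace H] [IsTopologicalGroup G] [IsTopologicalGroup H]
  [MeasurableSpace G] [BorelSpace G] [SecondCountableTopology G]
  [NormedAddCommGroup K] [InnerProductSpace ℂ K] [CompleteSpace K]
  {ι : Γ →* G} {κ : Λ →* H} {ρ : Γ →* (K →L[ℂ] K)} {V : Λ →* (K →L[ℂ] K)} {ω : K}
  {μ : Measure G} [μ.IsMulLeftInvariant]

/-! ### the representation of `Λ` -/

theorem norm_Co (h : Frm ρ V ω) (v : Λ) (ξ : LL ι κ ρ V ω μ) : ‖CoR h v ξ‖ = ‖ξ‖ := by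
  have h1 : ⟪CoR h v ξ, CoR h v ξ⟫_ℂ = ⟪ξ, ξ⟫_ℂ := by
    have h2 : star (CoR h v : LL ι κ ρ V ω μ →L[ℂ] LL ι κ ρ V ω μ) = CoR h v⁻¹ := Co_star h v
    rw [star_eq_adjoint] at h2
    rw [← adjoint_inner_right, h2, apply_inv_rep]
  exact norm_eq_of_inner h1

/-- strong continuity of the conjugation -/
theorem Co_cont (h : Frm ρ V ω) (ξ : LL ι κ ρ V ω μ) (ε : ℝ) (hε : 0 < ε) :
    ∃ U ∈ 𝓝 (1 : H), ∀ w, κ w ∈ U → ‖CoR h w ξ - ξ‖ ≤ ε := by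
  obtain ⟨b, hb⟩ := (dense_jj ι κ ρ V ω μ).exists_dist_lt ξ (ε := ε / 3) (by positivity)
  rw [dist_eq_norm] at hb
  obtain ⟨U, hU, h1⟩ := conj_cont h b.2 ((ε / 3) ^ 2) (by positivity)
  refine ⟨U, hU, fun w hw => ?_⟩
  have h2 : ‖CoR h w (jj ι κ ρ V ω μ b) - jj ι κ ρ V ω μ b‖ ≤ ε / 3 := by
    change ‖Co h w (jj ι κ ρ V ω μ b) - jj ι κ ρ V ω μ b‖ ≤ ε / 3
    rw [Co_jj, ← map_sub]
    have h3 := norm_jj_sq (cjS h w b - b)
    have h4 := h1 w hw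
    have h5 : ‖jj ι κ ρ V ω μ (cjS h w b - b)‖ ^ 2 ≤ (ε / 3) ^ 2 := by
      rw [h3]; exact h4
    exact (pow_le_pow_iff_left₀ (norm_nonneg _) (by positivity) two_ne_zero).1 h5
  have e : CoR h w ξ - ξ = CoR h w (ξ - jj ι κ ρ V ω μ b) +
      (CoR h w (jj ι κ ρ V ω μ b) - jj ι κ ρ V ω μ b) - (ξ - jj ι κ ρ V ω μ b) := by
    rw [map_sub]; abel
  rw [e]
  have h6 := norm_Co h w (ξ - jj ι κ ρ V ω μ b)
  calc _ ≤ ‖CoR h w (ξ - jj ι κ ρ V ω μ b) +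
        (CoR h w (jj ι κ ρ V ω μ b) - jj ι κ ρ V ω μ b)‖ + ‖ξ - jj ι κ ρ V ω μ b‖ :=
        norm_sub_le _ _
    _ ≤ ‖CoR h w (ξ - jj ι κ ρ V ω μ b)‖ +
        ‖CoR h w (jj ι κ ρ V ω μ b) - jj ι κ ρ V ω μ b‖ + ‖ξ - jj ι κ ρ V ω μ b‖ := by
        gcongr; exact norm_add_le _ _
    _ ≤ ε := by rw [h6]; linarith

/-! ### the isometries `J_v` -/

/-- `c ↦ (x ↦ c x (V v ω))` -/
noncomputable def vJ (h : Frm ρ V ω) (v : Λ) : SM ι κ ρ V ω μ →ₗ[ℂ] Lp K 2 μ where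
  toFun b := MemLp.toLp (fun x => b.1 x (V v ω)) (memLp_V h b.2.toFd b.2.l2 v)
  map_add' a b := MemLp.toLp_add (memLp_V h a.2.toFd a.2.l2 v) (memLp_V h b.2.toFd b.2.l2 v)
  map_smul' c a := MemLp.toLp_const_smul c (memLp_V h a.2.toFd a.2.l2 v)

theorem inner_vJ (h : Frm ρ V ω) (v w : Λ) (a b : SM ι κ ρ V ω μ)
    (ho : Ort V ω μ a.1 b.1) :
    ⟪vJ h v a, vJ h w b⟫_ℂ = ip ω μ a.1 b.1 * ⟪V v ω, V w ω⟫_ℂ := by
  rw [← integral_V h a.2.toFd b.2.toFd a.2.l2 b.2.l2 ho v w]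
  exact (integral_inner_toLp (memLp_V h a.2.toFd a.2.l2 v) (memLp_V h b.2.toFd b.2.l2 w)).symm

theorem norm_vJ (h : Frm ρ V ω) (v : Λ) (a : SM ι κ ρ V ω μ) :
    ‖vJ h v a‖ = ‖jj ι κ ρ V ω μ a‖ := by
  have h1 : ‖vJ h v a‖ ^ 2 = ‖jj ι κ ρ V ω μ a‖ ^ 2 := by
    rw [norm_jj_sq]
    have h2 := norm_toLp_sq (b := fun x => a.1 x * V v) (L2.rm h.reg a.2.toFd a.2.l2 (h.comm v))
    rw [nsq_rV h a.2.toFd] at h2
    exact h2
  exact (pow_left_inj₀ (norm_nonneg _) (norm_nonneg _) two_ne_zero).mp h1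

/-- the extension of `vJ` -/
noncomputable def JJ (h : Frm ρ V ω) (v : Λ) : LL ι κ ρ V ω μ →L[ℂ] Lp K 2 μ :=
  (vJ h v).extendOfNorm (jj ι κ ρ V ω μ)

theorem JJ_jj (h : Frm ρ V ω) (v : Λ) (b : SM ι κ ρ V ω μ) :
    JJ h v (jj ι κ ρ V ω μ b) = vJ h v b :=
  LinearMap.extendOfNorm_eq (dense_jj ι κ ρ V ω μ)
    ⟨1, fun b => by rw [norm_vJ, one_mul]⟩ b

theorem inner_JJ (h : Frm ρ V ω)
    (ho : ∀ a b : G → K →L[ℂ] K, Smo ι κ ρ V ω μ a → Smo ι κ ρ V ω μ b → Ort V ω μ a b)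
    (v w : Λ) (ξ η : LL ι κ ρ V ω μ) : ⟪JJ h v ξ, JJ h w η⟫_ℂ = ⟪ξ, η⟫_ℂ * ⟪V v ω, V w ω⟫_ℂ := by
  refine inner_ext_dense (dense_jj ι κ ρ V ω μ) (JJ h v) (JJ h w) _ (fun a b => ?_) ξ η
  rw [JJ_jj, JJ_jj, inner_vJ h v w a b (ho _ _ a.2 b.2), inner_jj]

/-! ### the operators `S_v` -/

/-- the operator `S_v` of a bounded continuous field `T` -/
noncomputable def SS (h : Frm ρ V ω) (T : G → K →L[ℂ] K) (hc : Continuous T) (C : ℝ)
    (hC : ∀ x, ‖T x‖ ≤ C) (v : Λ) : LL ι κ ρ V ω μ →L[ℂ] LL ι κ ρ V ω μ :=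
  (adjoint (JJ h v)).comp ((MA (μ := μ) T hc C hC).comp (LL ι κ ρ V ω μ).subtypeL)

theorem inner_SS (h : Frm ρ V ω) (T : G → K →L[ℂ] K) (hc : Continuous T) (C : ℝ)
    (hC : ∀ x, ‖T x‖ ≤ C) (v : Λ) (a c : SM ι κ ρ V ω μ) :
    ⟪jj ι κ ρ V ω μ c, SS h T hc C hC v (jj ι κ ρ V ω μ a)⟫_ℂ =
      ip ω μ (fun x => c.1 x * V v) (fun x => T x * a.1 x) := by
  change ⟪jj ι κ ρ V ω μ c, adjoint (JJ h v) (MA (μ := μ) T hc C hC
    (jj ι κ ρ V ω μ a : Lp K 2 μ))⟫_ℂ = _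
  rw [adjoint_inner_right, JJ_jj, MeasureTheory.L2.inner_def]
  refine integral_congr_ae ?_
  have h1 : (vJ h v c : G → K) =ᵐ[μ] fun x => c.1 x (V v ω) :=
    (memLp_V h c.2.toFd c.2.l2 v).coeFn_toLp
  filter_upwards [h1, MA_ae (μ := μ) T hc C hC (jj ι κ ρ V ω μ a : Lp K 2 μ), jj_ae a]
    with x g1 g2 g3
  rw [g1, g2, g3]
  rfl

theorem ip_SS_conj (h : Frm ρ V ω) (T : G → K →L[ℂ] K) (hT : Fd ι ρ T) (C : ℝ)
    (hC : ∀ x, ‖T x‖ ≤ C) (v w : Λ) (a c : SM ι κ ρ V ω μ) :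
    ⟪jj ι κ ρ V ω μ c, CoR h w (SS h T hT.continuous C hC v (CoR h w⁻¹ (jj ι κ ρ V ω μ a)))⟫_ℂ =
      ip ω μ (fun x => c.1 x * V (w * v * w⁻¹)) (fun x => V w * T x * V w⁻¹ * a.1 x) := by
  have h2 : (CoR h w : LL ι κ ρ V ω μ →L[ℂ] LL ι κ ρ V ω μ) = star (CoR h w⁻¹) := by
    have h3 : star (CoR h w⁻¹ : LL ι κ ρ V ω μ →L[ℂ] LL ι κ ρ V ω μ) = CoR h w⁻¹⁻¹ := Co_star h w⁻¹
    rw [h3, inv_inv]
  rw [h2, star_eq_adjoint, adjoint_inner_right]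
  change ⟪Co h w⁻¹ (jj ι κ ρ V ω μ c), SS h T hT.continuous C hC v
    (Co h w⁻¹ (jj ι κ ρ V ω μ a))⟫_ℂ = _
  rw [Co_jj, Co_jj, inner_SS]
  have hc1 : Fd ι ρ (fun x => (cjS h w⁻¹ c).1 x * V v) :=
    (cjS h w⁻¹ c).2.toFd.rm h.reg (h.comm v)
  have hc2 : L2 ω μ (fun x => (cjS h w⁻¹ c).1 x * V v) :=
    L2.rm h.reg (cjS h w⁻¹ c).2.toFd (cjS h w⁻¹ c).2.l2 (h.comm v)
  have ha1 : Fd ι ρ (fun x => T x * (cjS h w⁻¹ a).1 x) := hT.mul (cjS h w⁻¹ a).2.toFd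
  have ha2 : L2 ω μ (fun x => T x * (cjS h w⁻¹ a).1 x) :=
    L2.mul_left hT.continuous (cjS h w⁻¹ a).2.toFd.continuous ⟨C, hC⟩ (cjS h w⁻¹ a).2.l2
  rw [← ip_conj h hc1 ha1 hc2 ha2 w]
  have e1 : (fun x => V w * ((cjS h w⁻¹ c).1 x * V v) * V w⁻¹) =
      fun x => c.1 x * V (w * v * w⁻¹) := by
    funext x
    change V w * (V w⁻¹ * c.1 x * V w⁻¹⁻¹ * V v) * V w⁻¹ = _
    rw [inv_inv, map_mul, map_mul]
    calc V w * (V w⁻¹ * c.1 x * V w * V v) * V w⁻¹ =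
          (V w * V w⁻¹) * c.1 x * (V w * V v * V w⁻¹) := by simp only [mul_assoc]
      _ = _ := by rw [h.mul_inv, one_mul]
  have e2 : (fun x => V w * (T x * (cjS h w⁻¹ a).1 x) * V w⁻¹) =
      fun x => V w * T x * V w⁻¹ * a.1 x := by
    funext x
    change V w * (T x * (V w⁻¹ * a.1 x * V w⁻¹⁻¹)) * V w⁻¹ = _
    rw [inv_inv]
    calc V w * (T x * (V w⁻¹ * a.1 x * V w)) * V w⁻¹ =
          V w * T x * V w⁻¹ * a.1 x * (V w * V w⁻¹) := by simp only [mul_assoc]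
      _ = _ := by rw [h.mul_inv, mul_one]
  rw [e1, e2]

/-- a vector is bounded by its products with the dense set -/
theorem norm_le_of_inner_jj {x : LL ι κ ρ V ω μ} {M : ℝ} (hM : 0 ≤ M)
    (h : ∀ c, ‖⟪jj ι κ ρ V ω μ c, x⟫_ℂ‖ ≤ ‖jj ι κ ρ V ω μ c‖ * M) : ‖x‖ ≤ M := by
  exact norm_le_of_inner_dense (dense_jj ι κ ρ V ω μ) hM h

theorem SS_near (h : Frm ρ V ω) (T : G → K →L[ℂ] K) (hT : Fd ι ρ T) (C : ℝ)
    (hC : ∀ x, ‖T x‖ ≤ C) (v w : Λ) (a : SM ι κ ρ V ω μ) {ε : ℝ} (hε : 0 ≤ ε)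
    (hw : ∀ x, ‖V w * T x * V w⁻¹ - T x‖ ≤ ε) :
    ‖CoR h w (SS h T hT.continuous C hC v (CoR h w⁻¹ (jj ι κ ρ V ω μ a))) -
      SS h T hT.continuous C hC (w * v * w⁻¹) (jj ι κ ρ V ω μ a)‖ ≤
      ε * ‖jj ι κ ρ V ω μ a‖ := by
  refine norm_le_of_inner_jj (by positivity) fun c => ?_
  rw [inner_sub_right, ip_SS_conj h T hT C hC, inner_SS]
  have hc1 : Fd ι ρ (fun x => c.1 x * V (w * v * w⁻¹)) := c.2.toFd.rm h.reg (h.comm _)
  have hc2 : L2 ω μ (fun x => c.1 x * V (w * v * w⁻¹)) :=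
    L2.rm h.reg c.2.toFd c.2.l2 (h.comm _)
  have hT' : Fd ι ρ (fun x => V w * T x * V w⁻¹) := hT.conj h w
  have ha2 : L2 ω μ (fun x => T x * a.1 x) :=
    L2.mul_left hT.continuous a.2.toFd.continuous ⟨C, hC⟩ a.2.l2
  have ha2' : L2 ω μ (fun x => V w * T x * V w⁻¹ * a.1 x) :=
    L2.mul_left hT'.continuous a.2.toFd.continuous hT'.bdd a.2.l2
  rw [← ip_sub_right hc2 ha2' ha2]
  have e1 : (fun x => V w * T x * V w⁻¹ * a.1 x - T x * a.1 x) =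
      fun x => (V w * T x * V w⁻¹ - T x) * a.1 x := by
    funext x; rw [sub_mul]
  rw [e1]
  have hD : Fd ι ρ (fun x => V w * T x * V w⁻¹ - T x) := hT'.sub hT
  have ha3 : L2 ω μ (fun x => (V w * T x * V w⁻¹ - T x) * a.1 x) :=
    L2.mul_left hD.continuous a.2.toFd.continuous hD.bdd a.2.l2
  have h1 := norm_ip_le hc2 ha3
  rw [nsq_rV h c.2.toFd, ← norm_jj_sq c] at h1
  have h2 : (nsq ω μ (fun x => (V w * T x * V w⁻¹ - T x) * a.1 x)).toReal ≤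
      ε ^ 2 * ‖jj ι κ ρ V ω μ a‖ ^ 2 := by
    have h3 : nsq ω μ (fun x => (V w * T x * V w⁻¹ - T x) * a.1 x) ≤
        ENNReal.ofReal ε ^ 2 * nsq ω μ a.1 := nsq_mul_left hw
    have h4 := ENNReal.toReal_mono (ENNReal.mul_ne_top (by simp) (nsq_lt_top a.2.l2).ne) h3
    rw [ENNReal.toReal_mul, ENNReal.toReal_pow, ENNReal.toReal_ofReal hε, ← norm_jj_sq a] at h4
    exact h4
  have h5 : ‖ip ω μ (fun x => c.1 x * V (w * v * w⁻¹))
      (fun x => (V w * T x * V w⁻¹ - T x) * a.1 x)‖ ^ 2 ≤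
      (‖jj ι κ ρ V ω μ c‖ * (ε * ‖jj ι κ ρ V ω μ a‖)) ^ 2 := by
    refine h1.trans ?_
    calc ‖jj ι κ ρ V ω μ c‖ ^ 2 * (nsq ω μ (fun x => (V w * T x * V w⁻¹ - T x) * a.1 x)).toReal
        ≤ ‖jj ι κ ρ V ω μ c‖ ^ 2 * (ε ^ 2 * ‖jj ι κ ρ V ω μ a‖ ^ 2) := by gcongr
      _ = _ := by ring
  exact (pow_le_pow_iff_left₀ (norm_nonneg _) (by positivity) two_ne_zero).1 h5

theorem SS_tendsto (h : Frm ρ V ω)
    (ho : ∀ a b : G → K →L[ℂ] K, Smo ι κ ρ V ω μ a → Smo ι κ ρ V ω μ b → Ort V ω μ a b)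
    (T : G → K →L[ℂ] K) (hc : Continuous T) (C : ℝ) (hC : ∀ x, ‖T x‖ ≤ C)
    (ξ : LL ι κ ρ V ω μ) :
    Tendsto (fun v => ‖SS h T hc C hC v ξ‖) cofinite (𝓝 0) := by
  set y : Lp K 2 μ := MA (μ := μ) T hc C hC (ξ : Lp K 2 μ) with hy
  have h1 := bessel (fun v => (JJ h v : LL ι κ ρ V ω μ →L[ℂ] Lp K 2 μ))
    (fun u ξ η => by
      rw [inner_JJ h ho, h.inner_left, h.inv_apply, inner_self_eq_norm_sq_to_K, h.norm_omega]
      simp)
    (fun u w huw ξ η => by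
      rw [inner_JJ h ho, h.orthonormal.2 huw, mul_zero]) y
  have h2 : Summable fun v => ‖SS h T hc C hC v ξ‖ ^ 2 :=
    summable_of_sum_le (fun v => by positivity) h1
  have h3 := h2.tendsto_cofinite_zero
  have h4 := (Real.continuous_sqrt.tendsto 0).comp h3
  rw [Real.sqrt_zero] at h4
  refine h4.congr fun v => ?_
  simp [Real.sqrt_sq (norm_nonneg _)]

variable [μ.IsMulRightInvariant]

theorem SS_itw (h : Frm ρ V ω) (T : G → K →L[ℂ] K) (hT : Fd ι ρ T) (C : ℝ)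
    (hC : ∀ x, ‖T x‖ ≤ C) (hTa : ∀ a, Smo ι κ ρ V ω μ a → ∀ x, T x * a x = a x * T x) (v : Λ) :
    Itw (Lo h) (Ro h) (CoR h) v (SS (ι := ι) (κ := κ) (μ := μ) h T hT.continuous C hC v) := by
  constructor
  · intro c
    refine ext_jj fun a => eq_of_inner_jj fun b => ?_
    change ⟪jj ι κ ρ V ω μ b, SS h T hT.continuous C hC v (Lo h c (jj ι κ ρ V ω μ a))⟫_ℂ =
      ⟪jj ι κ ρ V ω μ b, Lo h c (SS h T hT.continuous C hC v (jj ι κ ρ V ω μ a))⟫_ℂ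
    have h2 : Lo (ι := ι) (κ := κ) (μ := μ) h c = star (Lo h (stS h c)) := by
      rw [Lo_star, stS_stS]
    rw [Lo_jj, inner_SS, h2, star_eq_adjoint, adjoint_inner_right, Lo_jj, inner_SS]
    unfold ip
    refine integral_congr_ae (Eventually.of_forall fun x => ?_)
    change ⟪(b.1 x * V v) ω, (T x * (c.1 x * a.1 x)) ω⟫_ℂ =
      ⟪((adjoint (c.1 x) * b.1 x) * V v) ω, (T x * a.1 x) ω⟫_ℂ
    rw [← mul_assoc, hTa c.1 c.2 x]
    simp only [mul_ap, adjoint_inner_left]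
  · intro c
    have h1 : CoR (ι := ι) (κ := κ) (μ := μ) h v * Ro h c * CoR h v⁻¹ = Ro h (cjS h v c) :=
      Co_R h v c
    rw [h1]
    refine ext_jj fun a => eq_of_inner_jj fun b => ?_
    change ⟪jj ι κ ρ V ω μ b, SS h T hT.continuous C hC v (Ro h c (jj ι κ ρ V ω μ a))⟫_ℂ =
      ⟪jj ι κ ρ V ω μ b, Ro h (cjS h v c) (SS h T hT.continuous C hC v (jj ι κ ρ V ω μ a))⟫_ℂ
    have h2 : Ro (ι := ι) (κ := κ) (μ := μ) h (cjS h v c) = star (Ro h (stS h (cjS h v c))) := by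
      rw [Ro_star, stS_stS]
    rw [Ro_jj, inner_SS, h2, star_eq_adjoint, adjoint_inner_right, Ro_jj, inner_SS]
    have hb : Fd ι ρ (fun x => b.1 x * V v) := b.2.toFd.rm h.reg (h.comm v)
    have hb2 : L2 ω μ (fun x => b.1 x * V v) := L2.rm h.reg b.2.toFd b.2.l2 (h.comm v)
    have hTa' : Fd ι ρ (fun x => T x * a.1 x) := hT.mul a.2.toFd
    have hTa2 : L2 ω μ (fun x => T x * a.1 x) :=
      L2.mul_left hT.continuous a.2.toFd.continuous ⟨C, hC⟩ a.2.l2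
    have e1 := ip_mul_right (μ := μ) h.reg hb (c.2.toFd.adj h.reg) hTa' hb2 hTa2
    have e2 : (fun x => (mulS h b (stS h (cjS h v c))).1 x * V v) =
        fun x => b.1 x * V v * adjoint (c.1 x) := by
      funext x
      change b.1 x * star (V v * c.1 x * V v⁻¹) * V v = b.1 x * V v * adjoint (c.1 x)
      rw [star_mul, star_mul, star_eq_adjoint (V v⁻¹), h.adj, inv_inv, star_eq_adjoint (V v), h.adj]
      change b.1 x * (V v * (adjoint (c.1 x) * V v⁻¹)) * V v = b.1 x * V v * adjoint (c.1 x)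
      calc b.1 x * (V v * (adjoint (c.1 x) * V v⁻¹)) * V v =
            b.1 x * V v * adjoint (c.1 x) * (V v⁻¹ * V v) := by simp only [mul_assoc]
        _ = _ := by rw [h.inv_mul, mul_one]
    have e3 : (fun x => T x * a.1 x * adjoint (adjoint (c.1 x))) =
        fun x => T x * (mulS h a c).1 x := by
      funext x
      rw [adjoint_adjoint, mul_assoc]
      rfl
    rw [e3] at e1
    rw [e2]
    exact e1.symm

/-- the data of [OUT-ABS] -/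
theorem outData (h : Frm ρ V ω) :
    OutData (SM ι κ ρ V ω μ) G Λ (Lo h) (Ro h) RtR (CoR h) where
  hr := fun g => Rt_star g
  hα := fun v => Co_star h v
  comm := fun g v => Rt_Co h g v
  Ls := fun a => ⟨_, Lo_star h a⟩
  Rs := fun a => ⟨_, Ro_star h a⟩
  LR := fun a b => LR_comm h a b
  rL := fun g a => ⟨_, Rt_L h g a⟩
  rR := fun g a => ⟨_, Rt_R h g a⟩
  αL := fun v a => ⟨_, Co_L h v a⟩
  αR := fun v a => ⟨_, Co_R h v a⟩

/-- [OUT] for letters. -/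
theorem out_main [μ.IsInvInvariant] [SFinite μ] (h : TFrm ρ V ω)
    (ho : ∀ a b : G → K →L[ℂ] K, Smo ι κ ρ V ω μ a → Smo ι κ ρ V ω μ b → Ort V ω μ a b)
    (hκd : DenseRange κ) (hκi : Function.Injective κ)
    (hs : ∀ N : Subgroup H, N.Normal → IsClosed (N : Set H) → N = ⊥ ∨ N = ⊤)
    {H' : Type} [Group H'] [TopologicalSpace H'] [IsTopologicalGroup H'] [T1Space H']
    (κ' : Λ →* H') (hd' : DenseRange κ')
    (T : G → K →L[ℂ] K) (hT : Fd ι ρ T) (hTc : ACont κ' V T)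
    (hTa : ∀ a, Smo ι κ ρ V ω μ a → ∀ x, T x * a x = a x * T x)
    {a b : G → K →L[ℂ] K} (ha : Smo ι κ ρ V ω μ a) (hb : Smo ι κ ρ V ω μ b)
    {v : Λ} (hv : v ≠ 1)
    (hC' : ¬ IsOpen ((Subgroup.centralizer {κ' v} : Subgroup H') : Set H')) :
    ∫ x, ⟪b x (V v ω), T x (a x ω)⟫_ℂ ∂μ = 0 := by
  obtain ⟨C, hC0, hC⟩ := hT.exists_bdd
  set S : Λ → LL ι κ ρ V ω μ →L[ℂ] LL ι κ ρ V ω μ :=
    SS h.toFrm T hT.continuous C hC with hS
  have hIt : Itw (Lo h.toFrm) (Ro h.toFrm) (CoR h.toFrm) v (S v) :=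
    SS_itw h.toFrm T hT C hC hTa v
  have D : OutData (SM ι κ ρ V ω μ) G Λ (Lo h.toFrm) (Ro h.toFrm) RtR (CoR h.toFrm) :=
    outData h.toFrm
  have A := halg h ho
  -- `S v` has norms invariant under the conjugation
  have hinv : ∀ w (ξ : LL ι κ ρ V ω μ), ‖S v (CoR h.toFrm w⁻¹ ξ)‖ = ‖S v ξ‖ := by
    by_cases hS0 : S v = 0
    · intro w ξ
      rw [hS0]
      rfl
    · have hfix : v ∈ fixN (Lo h.toFrm) (Ro h.toFrm)
          (CoR h.toFrm : Λ →* (LL ι κ ρ V ω μ →L[ℂ] LL ι κ ρ V ω μ)) := by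
        intro z hz
        refine fix_of_itw D ?_ ?_ (fun X h1 h2 => erg_jj h ho X h1 h2) hIt hS0 hz
        · intro X z hX hz
          exact A.commute X z hX hz.2
        · intro X z hX hz
          exact A.swap.commute X z hX hz.1
      have hall : ∀ z : LL ι κ ρ V ω μ →L[ℂ] LL ι κ ρ V ω μ,
          Zc (Lo h.toFrm) (Ro h.toFrm) z → ∀ w, z * CoR h.toFrm w = CoR h.toFrm w * z := by
        intro z hz w
        refine ContinuousLinearMap.ext fun ξ => ?_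
        change z (CoR h.toFrm w ξ) = CoR h.toFrm w (z ξ)
        have key : ∀ ε > 0, ‖z (CoR h.toFrm w ξ) - CoR h.toFrm w (z ξ)‖ ≤ ε * (‖z‖ + 1) := by
          intro ε hε
          obtain ⟨U₁, hU₁, h1⟩ := Co_cont h.toFrm ξ ε hε
          obtain ⟨U₂, hU₂, h2⟩ := Co_cont h.toFrm (z ξ) ε hε
          obtain ⟨w', hw', h3⟩ := dense_of_normal κ hκd hs _ (fixN_normal D) hfix
            (fun h => hv (hκi (by rw [h, map_one]))) w (inter_mem hU₁ hU₂)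
          have e1 : (CoR h.toFrm w : LL ι κ ρ V ω μ →L[ℂ] LL ι κ ρ V ω μ) =
              CoR h.toFrm w' * CoR h.toFrm (w'⁻¹ * w) := by
            rw [← map_mul, mul_inv_cancel_left]
          have e2 : ∀ η : LL ι κ ρ V ω μ, CoR h.toFrm w η =
              CoR h.toFrm w' (CoR h.toFrm (w'⁻¹ * w) η) := fun η => by rw [e1]; rfl
          have e3 : z (CoR h.toFrm w' (CoR h.toFrm (w'⁻¹ * w) ξ)) =
              CoR h.toFrm w' (z (CoR h.toFrm (w'⁻¹ * w) ξ)) :=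
            congrArg (fun X : LL ι κ ρ V ω μ →L[ℂ] LL ι κ ρ V ω μ =>
              X (CoR h.toFrm (w'⁻¹ * w) ξ)) (hw' z hz)
          rw [e2, e2, e3, ← map_sub, norm_Co]
          have e4 : z (CoR h.toFrm (w'⁻¹ * w) ξ) - CoR h.toFrm (w'⁻¹ * w) (z ξ) =
              z (CoR h.toFrm (w'⁻¹ * w) ξ - ξ) - (CoR h.toFrm (w'⁻¹ * w) (z ξ) - z ξ) := by
            rw [map_sub]; abel
          rw [e4]
          have k1 := h1 _ h3.1
          have k2 := h2 _ h3.2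
          calc _ ≤ ‖z (CoR h.toFrm (w'⁻¹ * w) ξ - ξ)‖ +
                ‖CoR h.toFrm (w'⁻¹ * w) (z ξ) - z ξ‖ := norm_sub_le _ _
            _ ≤ ‖z‖ * ε + ε := by
                gcongr
                exact (z.le_opNorm _).trans (by gcongr)
            _ = ε * (‖z‖ + 1) := by ring
        have h0 : ‖z (CoR h.toFrm w ξ) - CoR h.toFrm w (z ξ)‖ ≤ 0 := by
          refine le_of_forall_pos_le_add fun δ hδ => ?_
          have h1 := key (δ / (‖z‖ + 1)) (by positivity)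
          rw [div_mul_cancel₀ _ (by positivity)] at h1
          linarith
        exact sub_eq_zero.1 (norm_le_zero_iff.1 h0)
      intro w ξ
      have hz := hall _ (Zc_star_mul D hIt hIt) w⁻¹
      have h1 : ⟪S v (CoR h.toFrm w⁻¹ ξ), S v (CoR h.toFrm w⁻¹ ξ)⟫_ℂ = ⟪S v ξ, S v ξ⟫_ℂ := by
        have h2 : (star (S v)) (S v (CoR h.toFrm w⁻¹ ξ)) =
            CoR h.toFrm w⁻¹ ((star (S v)) (S v ξ)) :=
          congrArg (fun X : LL ι κ ρ V ω μ →L[ℂ] LL ι κ ρ V ω μ => X ξ) hz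
        have h3 : star (CoR h.toFrm w⁻¹ : LL ι κ ρ V ω μ →L[ℂ] LL ι κ ρ V ω μ) =
            CoR h.toFrm w⁻¹⁻¹ := Co_star h.toFrm w⁻¹
        rw [star_eq_adjoint] at h2 h3
        rw [← adjoint_inner_right, h2, ← adjoint_inner_left, h3, inv_inv, apply_rep_inv,
          adjoint_inner_right]
      exact norm_eq_of_inner h1
  -- the finite orbit lemma
  set a' : SM ι κ ρ V ω μ := ⟨a, ha⟩ with ha'
  set b' : SM ι κ ρ V ω μ := ⟨b, hb⟩ with hb'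
  have h0 : ‖S v (jj ι κ ρ V ω μ a')‖ = 0 := by
    refine H35.orb_zero κ' hd' (fun u => ‖S u (jj ι κ ρ V ω μ a')‖)
      (SS_tendsto h.toFrm ho T hT.continuous C hC _) v (fun ε hε => ?_) hC'
    obtain ⟨U, hU, h1⟩ := hTc (ε / (2 * (‖jj ι κ ρ V ω μ a'‖ + 1))) (by positivity)
    refine ⟨U, hU, fun w hw => ?_⟩
    have h2 := SS_near h.toFrm T hT C hC v w a' (by positivity) (h1 w hw)
    have h3 : ‖CoR h.toFrm w (S v (CoR h.toFrm w⁻¹ (jj ι κ ρ V ω μ a')))‖ =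
        ‖S v (jj ι κ ρ V ω μ a')‖ := by
      rw [norm_Co, hinv]
    rw [Real.norm_eq_abs, abs_sub_comm]
    have h4 := abs_norm_sub_norm_le (CoR h.toFrm w (S v (CoR h.toFrm w⁻¹ (jj ι κ ρ V ω μ a'))))
      (S (w * v * w⁻¹) (jj ι κ ρ V ω μ a'))
    rw [h3] at h4
    refine (h4.trans h2).trans_lt ?_
    have h5 : 0 ≤ ‖jj ι κ ρ V ω μ a'‖ := norm_nonneg _
    calc ε / (2 * (‖jj ι κ ρ V ω μ a'‖ + 1)) * ‖jj ι κ ρ V ω μ a'‖
        ≤ ε / (2 * (‖jj ι κ ρ V ω μ a'‖ + 1)) * (‖jj ι κ ρ V ω μ a'‖ + 1) := by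
          gcongr; linarith
      _ = ε / 2 := by field_simp
      _ < ε := by linarith
  have h1 := inner_SS h.toFrm T hT.continuous C hC v a' b'
  rw [show SS h.toFrm T hT.continuous C hC v = S v from rfl, norm_eq_zero.1 h0,
    inner_zero_right] at h1
  exact h1.symm

end out

end Vale.Agent.P092.H100
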