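import Vale.Agent.P092.H100.Out
import Vale.Agent.P092.PA.Blocks
import Vale.Agent.P092.PA.Fac
import Mathlib.MeasureTheory.Measure.Haar.Unique

/-!
P092 (helper100), team A, block [OUT]: the literal statement of `PA/Blocks.lean`.
-/

set_option linter.all false

open scoped InnerProductSpace Topology ENNReal NNReal
open Filter ContinuousLinearMap MeasureTheory MeasureTheory.Measure
open Vale.Agent.P092.PA Vale.Agent.P092.H156

namespace Vale.Agent.P092.H100

/-- A right invariant Haar measure is invariant under inversion. -/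
theorem invInv {E : Type} [Group E] [TopologicalSpace E] [IsTopologicalGroup E]
    [LocallyCompactSpace E] [SecondCountableTopology E] [MeasurableSpace E]
    [BorelSpace E] (μ : Measure E) [μ.IsHaarMeasure] [μ.IsMulRightInvariant] :
    μ.IsInvInvariant := by
  constructor
  obtain ⟨c, hcc⟩ : ∃ c : ℝ≥0∞, c = haarScalarFactor μ.inv μ := ⟨_, rfl⟩
  have hfin : IsFiniteMeasureOnCompacts μ.inv := inferInstance
  have hc : μ.inv = c • μ := by
    rw [hcc]; exact isMulLeftInvariant_eq_smul μ.inv μ
  have this : map Inv.inv (map Inv.inv μ) = c ^ 2 • μ := by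
    rw [← inv_def μ, hc, Measure.map_smul, ← inv_def μ, hc, smul_smul, pow_two]
  have μeq : μ = c ^ 2 • μ := by
    rw [map_map continuous_inv.measurable continuous_inv.measurable] at this
    simpa only [inv_involutive, Function.Involutive.comp_self, Measure.map_id] using this
  obtain ⟨K⟩ : Nonempty (TopologicalSpace.PositiveCompacts E) := inferInstance
  have h1 : c ^ 2 * μ K = 1 ^ 2 * μ K := by
    conv_rhs => rw [μeq]
    simp
  have h2 : c ^ 2 = 1 ^ 2 :=
    (ENNReal.mul_left_inj (measure_pos_of_nonempty_interior _ K.interior_nonempty).ne'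
          K.isCompact.measure_lt_top.ne).1 h1
  have h3 : c = 1 := (ENNReal.pow_right_strictMono two_ne_zero).injective h2
  rw [hc, h3, one_smul]

theorem Noc.not_isOpen {Λ H : Type} [Group Λ] [Group H] [TopologicalSpace H] {q : Λ →* H}
    (h : Noc q) {v : Λ} (hv : v ≠ 1) :
    ¬ IsOpen ((Subgroup.centralizer {q v} : Subgroup H) : Set H) := by
  intro ho
  obtain ⟨u, hu, h1⟩ := h v hv _ (ho.mem_nhds (one_mem _))
  exact h1 (Subgroup.mem_centralizer_singleton_iff.1 hu)

/-- [OUT] -/
theorem out_pa {Γ Λ K G H H' : Type} [Group Γ] [Countable Γ] [Group Λ]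
    [NormedAddCommGroup K] [InnerProductSpace ℂ K] [CompleteSpace K]
    [Group G] [TopologicalSpace G] [IsTopologicalGroup G] [LocallyCompactSpace G]
    [SecondCountableTopology G] [MeasurableSpace G] [BorelSpace G]
    [Group H] [TopologicalSpace H] [IsTopologicalGroup H] [T2Space H]
    [Group H'] [TopologicalSpace H'] [IsTopologicalGroup H'] [T2Space H']
    (D : Pic Γ Λ K) (p : Γ →* G) (q : Λ →* H) (q' : Λ →* H')
    (μ : Measure G) [μ.IsHaarMeasure] [μ.IsMulRightInvariant] (hq : Pl q) (hq' : Pl q')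
    (hs : ∀ N : Subgroup H, N.Normal → IsClosed (N : Set H) → N = ⊥ ∨ N = ⊤) :
    Out D p q q' μ := by
  intro T hT hTc hTa a b ha hb v hv
  have hi := invInv μ
  have ho : ∀ a b : G → K →L[ℂ] K, Sm.Smo p q D.ρ D.V D.Ω μ a → Sm.Smo p q D.ρ D.V D.Ω μ b →
      Sm.Ort D.V D.Ω μ a b := fun a b ha hb =>
    Sm.Smo.ort D.frm hq.dense (fun v hv => Noc.not_isOpen hq.noc hv) ha hb
  exact out_main D.tfrm ho hq.dense hq.inj hs q' hq'.dense T hT hTc hTa ha hb hv
    (Noc.not_isOpen hq'.noc hv)

/-- [OUT], the literal block for the predicate `FacS`. -/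
theorem out_blk : ∀ (Γ Λ K G H H' : Type) [Group Γ] [Countable Γ] [Group Λ] [Countable Λ]
    [NormedAddCommGroup K]
    [InnerProductSpace ℂ K] [CompleteSpace K] [Group G] [TopologicalSpace G] [IsTopologicalGroup G]
    [LocallyCompactSpace G] [SecondCountableTopology G] [T2Space G] [MeasurableSpace G]
    [BorelSpace G] [Group H] [TopologicalSpace H] [IsTopologicalGroup H] [LocallyCompactSpace H]
    [SecondCountableTopology H] [T2Space H] [Group H'] [TopologicalSpace H']
    [IsTopologicalGroup H'] [LocallyCompactSpace H'] [SecondCountableTopology H'] [T2Space H']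
    (D : Pic Γ Λ K) (p : Γ →* G) (q : Λ →* H) (q' : Λ →* H')
    (μ : Measure G) [μ.IsHaarMeasure] [μ.IsMulRightInvariant], Pl p → Pl q → Pl q' → FacS G →
    FacS H → NeS D p q μ → Full D p q μ → Out D p q q' μ := by
  intro Γ Λ K G H H' _ _ _ _ _ _ _ _ _ _ _ _ _ _ _ _ _ _ _ _ _ _ _ _ _ _ _ D p q q' μ _ _ _
    hq hq' _ fH _ _
  exact out_pa D p q q' μ hq hq' fun N hN _ => fH.simple N hN

end Vale.Agent.P092.H100
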