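import Vale.Agent.P092.H264.EndT
import Vale.Agent.P092.H264.EndBox
import Vale.Agent.P092.RC.Cc

/-!
P092 (helper100), team C (one simple factor), block [C-PG]: geometry of the target plane in the
letters of helper264 (`Geo`, `GA`, `NB`) on the topology of `ℙ k (Fin 3 → k)` of helper820.
-/

set_option linter.all false

open scoped LinearAlgebra.Projectivization Matrix
open Matrix TopologicalSpace Topology Filter

namespace Vale.Agent.P092.H100.Pg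

open Vale.Agent.P092.H820 Vale.Agent.P092.H264
open Vale.Agent.P092.RC (GG YY ct)

section top

variable {k : Type*} [NontriviallyNormedField k] [ProperSpace k] {ι : Type*} [Fintype ι]

instance scP : SecondCountableTopology (ℙ k (ι → k)) :=
  (pj_oq (k := k) (ι := ι)).isQuotientMap.secondCountableTopology pj_open

theorem countable_clopens {X : Type*} [TopologicalSpace X] [CompactSpace X] [T2Space X]
    [TotallyDisconnectedSpace X] [SecondCountableTopology X] : Countable (Clopens X) :=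
  Clopens.countable_iff_secondCountable.2 inferInstance

variable [IsUltrametricDist k]

instance cc1 : Countable (Clopens (ℙ k (ι → k))) := countable_clopens

instance cc2 : Countable (Clopens (ℙ k (ι → k) × ℙ k (ι → k))) := countable_clopens

instance cc3 : Countable (Clopens ((ℙ k (ι → k) × ℙ k (ι → k)) × ℙ k (ι → k))) :=
  countable_clopens

instance cc4 : Countable (Clopens (((ℙ k (ι → k) × ℙ k (ι → k)) × ℙ k (ι → k)) ×
    ℙ k (ι → k))) := countable_clopens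

end top

section alg

variable {k : Type*} [Field k]

/-- the triple product -/
def tri (u v w : Fin 3 → k) : k := u ⬝ᵥ crossProduct v w

theorem tri_eq_det (u v w : Fin 3 → k) : tri u v w = (Matrix.of ![u, v, w]).det :=
  triple_product_eq_det u v w

theorem tri_expand (u v w : Fin 3 → k) : tri u v w =
    u 0 * (v 1 * w 2 - v 2 * w 1) + u 1 * (v 2 * w 0 - v 0 * w 2) +
      u 2 * (v 0 * w 1 - v 1 * w 0) := by
  rw [tri, cross_apply, dotProduct, Fin.sum_univ_three]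
  simp

theorem tri_smul (a b c : k) (u v w : Fin 3 → k) :
    tri (a • u) (b • v) (c • w) = a * b * c * tri u v w := by
  simp only [tri_expand, Pi.smul_apply, smul_eq_mul]
  ring

theorem tri_mulVec (g : Matrix (Fin 3) (Fin 3) k) (u v w : Fin 3 → k) :
    tri (g *ᵥ u) (g *ᵥ v) (g *ᵥ w) = g.det * tri u v w := by
  have e : Matrix.of ![g *ᵥ u, g *ᵥ v, g *ᵥ w] = Matrix.of ![u, v, w] * gᵀ := by
    ext i j
    rw [Matrix.mul_apply]
    fin_cases i <;> simp [Matrix.mulVec, dotProduct, mul_comm]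
  rw [tri_eq_det, tri_eq_det, e, det_mul, det_transpose, mul_comm]

/-- cross product and linear maps -/
theorem mulVec_cross (g : Matrix (Fin 3) (Fin 3) k) (v w : Fin 3 → k) :
    gᵀ *ᵥ crossProduct (g *ᵥ v) (g *ᵥ w) = g.det • crossProduct v w := by
  have h1 : ∀ x : Fin 3 → k, x ⬝ᵥ (gᵀ *ᵥ crossProduct (g *ᵥ v) (g *ᵥ w)) =
      x ⬝ᵥ (g.det • crossProduct v w) := by
    intro x
    rw [dotProduct_mulVec, vecMul_transpose, dotProduct_smul, smul_eq_mul]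
    exact tri_mulVec g x v w
  funext i
  have h2 := h1 (Pi.single i 1)
  rwa [single_one_dotProduct, single_one_dotProduct] at h2

end alg

section plane

variable {k : Type*} [NormedField k]

open Classical in
/-- the line through two points -/
noncomputable def ln (p : ℙ k (Fin 3 → k) × ℙ k (Fin 3 → k)) : ℙ k (Fin 3 → k) :=
  Projectivization.cross p.1 p.2

theorem ln_pj (v w : {v : Fin 3 → k // v ≠ 0}) (h : crossProduct v.1 w.1 ≠ 0) :
    ln (pj k (Fin 3) v, pj k (Fin 3) w) = pj k (Fin 3) ⟨crossProduct v.1 w.1, h⟩ := by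
  classical
  exact Projectivization.cross_mk_of_cross_ne_zero v.2 w.2 h

theorem pj_ne (v w : {v : Fin 3 → k // v ≠ 0}) :
    pj k (Fin 3) v ≠ pj k (Fin 3) w ↔ crossProduct v.1 w.1 ≠ 0 := by
  classical
  exact not_congr (Projectivization.mk_eq_mk_iff_crossProduct_eq_zero v.2 w.2)

theorem cross_cont : Continuous fun p : (Fin 3 → k) × (Fin 3 → k) => crossProduct p.1 p.2 := by
  have e : (fun p : (Fin 3 → k) × (Fin 3 → k) => crossProduct p.1 p.2) = fun p =>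
      ![p.1 1 * p.2 2 - p.1 2 * p.2 1, p.1 2 * p.2 0 - p.1 0 * p.2 2,
        p.1 0 * p.2 1 - p.1 1 * p.2 0] := by
    funext p
    exact cross_apply _ _
  rw [e]
  refine continuous_pi fun i => ?_
  fin_cases i
  · change Continuous fun p : (Fin 3 → k) × (Fin 3 → k) => p.1 1 * p.2 2 - p.1 2 * p.2 1
    fun_prop
  · change Continuous fun p : (Fin 3 → k) × (Fin 3 → k) => p.1 2 * p.2 0 - p.1 0 * p.2 2
    fun_prop
  · change Continuous fun p : (Fin 3 → k) × (Fin 3 → k) => p.1 0 * p.2 1 - p.1 1 * p.2 0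
    fun_prop

/-- (a) the line through two points is continuous off the diagonal -/
theorem ln_cont : ContinuousOn (ln (k := k)) {p | p.1 ≠ p.2} := by
  rintro ⟨a, b⟩ hp
  obtain ⟨v, rfl⟩ := pj_surj a
  obtain ⟨w, rfl⟩ := pj_surj b
  have h0 : crossProduct v.1 w.1 ≠ 0 := (pj_ne v w).1 hp
  refine ContinuousAt.continuousWithinAt ?_
  have hq : IsOpenQuotientMap (Prod.map (pj k (Fin 3)) (pj k (Fin 3))) := pj_oq.prodMap pj_oq
  have hc : Continuous fun a : {v : Fin 3 → k // v ≠ 0} × {v : Fin 3 → k // v ≠ 0} =>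
      crossProduct a.1.1 a.2.1 :=
    cross_cont.comp (Continuous.prodMk (continuous_subtype_val.comp continuous_fst)
      (continuous_subtype_val.comp continuous_snd))
  have hS : IsOpen {a : {v : Fin 3 → k // v ≠ 0} × {v : Fin 3 → k // v ≠ 0} |
      crossProduct a.1.1 a.2.1 ≠ 0} := isOpen_ne_fun hc continuous_const
  have h1 : ContinuousOn (ln ∘ Prod.map (pj k (Fin 3)) (pj k (Fin 3)))
      {a : {v : Fin 3 → k // v ≠ 0} × {v : Fin 3 → k // v ≠ 0} |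
        crossProduct a.1.1 a.2.1 ≠ 0} := by
    rw [continuousOn_iff_continuous_restrict]
    exact (pj_continuous.comp (Continuous.subtype_mk (hc.comp continuous_subtype_val)
      (fun s => s.2))).congr fun s => (ln_pj s.1.1 s.1.2 s.2).symm
  have h2 : ContinuousAt (ln ∘ Prod.map (pj k (Fin 3)) (pj k (Fin 3))) (v, w) :=
    h1.continuousAt (hS.mem_nhds h0)
  exact hq.continuousAt_comp_iff.1 h2

/-- the collinear triples -/
def D3 : Set ((ℙ k (Fin 3 → k) × ℙ k (Fin 3 → k)) × ℙ k (Fin 3 → k)) :=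
  {z | tri z.1.1.rep z.1.2.rep z.2.rep = 0}

theorem rep_pj (v : {v : Fin 3 → k // v ≠ 0}) : ∃ a : k, a ≠ 0 ∧ (pj k (Fin 3) v).rep = a • v.1 := by
  obtain ⟨a, ha⟩ := Projectivization.exists_smul_eq_mk_rep k v.1 v.2
  exact ⟨a, a.ne_zero, ha.symm⟩

theorem mem_D3 (u v w : {v : Fin 3 → k // v ≠ 0}) :
    ((pj k (Fin 3) u, pj k (Fin 3) v), pj k (Fin 3) w) ∈ D3 ↔ tri u.1 v.1 w.1 = 0 := by
  obtain ⟨a, ha, ha'⟩ := rep_pj u
  obtain ⟨b, hb, hb'⟩ := rep_pj v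
  obtain ⟨c, hc, hc'⟩ := rep_pj w
  change tri (pj k (Fin 3) u).rep (pj k (Fin 3) v).rep (pj k (Fin 3) w).rep = 0 ↔ _
  rw [ha', hb', hc', tri_smul]
  simp [ha, hb, hc]

theorem smul_pj (g : SpecialLinearGroup (Fin 3) k) (v : {v : Fin 3 → k // v ≠ 0}) :
    g • pj k (Fin 3) v = pj k (Fin 3) ⟨g • v.1, (smul_ne_zero_iff_ne g).2 v.2⟩ := rfl

theorem smul_D3 (g : SpecialLinearGroup (Fin 3) k) {a b c : ℙ k (Fin 3 → k)}
    (h : ((a, b), c) ∈ D3) : ((g • a, g • b), g • c) ∈ D3 := by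
  obtain ⟨u, rfl⟩ := pj_surj a
  obtain ⟨v, rfl⟩ := pj_surj b
  obtain ⟨w, rfl⟩ := pj_surj c
  rw [mem_D3] at h
  rw [smul_pj, smul_pj, smul_pj, mem_D3]
  change tri (g.1 *ᵥ u.1) (g.1 *ᵥ v.1) (g.1 *ᵥ w.1) = 0
  rw [tri_mulVec, h, mul_zero]

theorem ln_13 {a b c : ℙ k (Fin 3 → k)} (h : ((a, b), c) ∈ D3) (hab : a ≠ b) (hac : a ≠ c) :
    ln (a, b) = ln (a, c) := by
  obtain ⟨u, rfl⟩ := pj_surj a
  obtain ⟨v, rfl⟩ := pj_surj b
  obtain ⟨w, rfl⟩ := pj_surj c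
  rw [mem_D3] at h
  have h1 := (pj_ne u v).1 hab
  have h2 := (pj_ne u w).1 hac
  rw [ln_pj u v h1, ln_pj u w h2]
  by_contra hne
  refine (pj_ne _ _).1 hne ?_
  change crossProduct (crossProduct u.1 v.1) (crossProduct u.1 w.1) = 0
  rw [tri_expand] at h
  rw [cross_apply, cross_apply, cross_apply]
  funext i
  fin_cases i
  · simp only [Fin.zero_eta, Fin.isValue, cons_val_zero, cons_val_one, cons_val, Pi.zero_apply]
    linear_combination u.1 0 * h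
  · simp only [Fin.mk_one, Fin.isValue, cons_val_zero, cons_val_one, cons_val, Pi.zero_apply]
    linear_combination u.1 1 * h
  · simp only [Fin.reduceFinMk, Fin.isValue, cons_val_zero, cons_val_one, cons_val,
      Pi.zero_apply]
    linear_combination u.1 2 * h

theorem ln_23 {a b c : ℙ k (Fin 3 → k)} (h : ((a, b), c) ∈ D3) (hab : a ≠ b) (hbc : b ≠ c) :
    ln (a, b) = ln (b, c) := by
  obtain ⟨u, rfl⟩ := pj_surj a
  obtain ⟨v, rfl⟩ := pj_surj b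
  obtain ⟨w, rfl⟩ := pj_surj c
  rw [mem_D3] at h
  have h1 := (pj_ne u v).1 hab
  have h2 := (pj_ne v w).1 hbc
  rw [ln_pj u v h1, ln_pj v w h2]
  by_contra hne
  refine (pj_ne _ _).1 hne ?_
  change crossProduct (crossProduct u.1 v.1) (crossProduct v.1 w.1) = 0
  rw [tri_expand] at h
  rw [cross_apply, cross_apply, cross_apply]
  funext i
  fin_cases i
  · simp only [Fin.zero_eta, Fin.isValue, cons_val_zero, cons_val_one, cons_val, Pi.zero_apply]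
    linear_combination v.1 0 * h
  · simp only [Fin.mk_one, Fin.isValue, cons_val_zero, cons_val_one, cons_val, Pi.zero_apply]
    linear_combination v.1 1 * h
  · simp only [Fin.reduceFinMk, Fin.isValue, cons_val_zero, cons_val_one, cons_val,
      Pi.zero_apply]
    linear_combination v.1 2 * h

end plane

section act

variable {k : Type} [NontriviallyNormedField k] {𝒢 : Type*} [Group 𝒢]

/-- the action on the plane -/
def gaP (ι : 𝒢 →* GG k 2) : GA 𝒢 (ℙ k (Fin 3 → k)) where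
  a g x := ι g • x
  one x := by rw [map_one, one_smul]
  mul g h x := by rw [map_mul, mul_smul]
  cont g := continuous_const_smul (ι g)

theorem gaP_a (ι : 𝒢 →* GG k 2) (g : 𝒢) (x : ℙ k (Fin 3 → k)) : (gaP ι).a g x = ι g • x := rfl

/-- (c) -/
theorem ln_smul (g : GG k 2) {a b : ℙ k (Fin 3 → k)} (hab : a ≠ b) :
    ln (g • a, g • b) = (ct g : GG k 2) • ln (a, b) := by
  obtain ⟨v, rfl⟩ := pj_surj a
  obtain ⟨w, rfl⟩ := pj_surj b
  have h1 := (pj_ne v w).1 hab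
  have hgab : g • pj k (Fin 3) v ≠ g • pj k (Fin 3) w := fun h => hab ((MulAction.injective g) h)
  have h2 : crossProduct (g • v.1) (g • w.1) ≠ 0 := (pj_ne _ _).1 hgab
  rw [ln_pj v w h1]
  have e1 : ln (g • pj k (Fin 3) v, g • pj k (Fin 3) w) =
      pj k (Fin 3) ⟨crossProduct (g • v.1) (g • w.1), h2⟩ :=
    ln_pj ⟨g • v.1, (smul_ne_zero_iff_ne g).2 v.2⟩ ⟨g • w.1, (smul_ne_zero_iff_ne g).2 w.2⟩ h2
  rw [e1, smul_pj]
  refine congrArg (pj k (Fin 3)) (Subtype.ext ?_)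
  change crossProduct (g.1 *ᵥ v.1) (g.1 *ᵥ w.1) = ((g⁻¹).1)ᵀ *ᵥ crossProduct v.1 w.1
  have e2 := mulVec_cross g.1 v.1 w.1
  rw [g.2, one_smul] at e2
  rw [← e2, mulVec_mulVec, ← transpose_mul]
  have e3 : g.1 * (g⁻¹).1 = 1 := congrArg Subtype.val (mul_inv_cancel g)
  rw [e3, transpose_one, one_mulVec]

variable [ProperSpace k] [IsUltrametricDist k]

/-- **[C-PG]** the geometry of the target plane, in the letters of helper264. -/
theorem geoP (ι : 𝒢 →* GG k 2) :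
    H264.Geo (gaP ι) (gaP ((ct : GG k 2 →* GG k 2).comp ι)) ln D3 where
  off := COff.of_continuousOn ln_cont
  lne g p hp := ln_smul (ι g) hp
  inv g z hz := smul_D3 (ι g) hz
  l13 z hz h1 h2 := ln_13 hz h1 h2
  l23 z hz h1 h2 := ln_23 hz h1 h2

end act

section box

variable {k : Type} [NontriviallyNormedField k] [ProperSpace k] [IsUltrametricDist k]

/-- small clopen neighbourhoods -/
theorem exists_near (v : {v : Fin 3 → k // v ≠ 0}) {ε : ℝ} (hε : 0 < ε) :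
    ∃ N : Clopens (ℙ k (Fin 3 → k)), pj k (Fin 3) v ∈ N ∧
      ∀ y ∈ N, ∃ v' : {v : Fin 3 → k // v ≠ 0}, pj k (Fin 3) v' = y ∧
        ∀ i, ‖v'.1 i - v.1 i‖ < ε := by
  have hS : IsOpen {v' : {v : Fin 3 → k // v ≠ 0} | ∀ i, ‖v'.1 i - v.1 i‖ < ε} := by
    have e : {v' : {v : Fin 3 → k // v ≠ 0} | ∀ i, ‖v'.1 i - v.1 i‖ < ε} =
        ⋂ i, {v' : {v : Fin 3 → k // v ≠ 0} | ‖v'.1 i - v.1 i‖ < ε} := by
      ext v'
      simp only [Set.mem_setOf_eq, Set.mem_iInter]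
    rw [e]
    refine isOpen_iInter_of_finite fun i => ?_
    have hc : Continuous fun v' : {v : Fin 3 → k // v ≠ 0} => ‖v'.1 i - v.1 i‖ :=
      (((continuous_apply i).comp continuous_subtype_val).sub continuous_const).norm
    exact isOpen_lt hc continuous_const
  obtain ⟨V, hV, hxV, hVU⟩ := compact_exists_isClopen_in_isOpen (pj_open _ hS)
    (show pj k (Fin 3) v ∈ _ from ⟨v, fun i => by rw [sub_self, norm_zero]; exact hε, rfl⟩)
  refine ⟨⟨V, hV⟩, hxV, fun y hy => ?_⟩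
  obtain ⟨v', h1, h2⟩ := hVU hy
  exact ⟨v', h2, h1⟩

theorem of_mulVec (u v w lam : Fin 3 → k) (i : Fin 3) :
    ((Matrix.of ![u, v, w])ᵀ *ᵥ lam) i = lam 0 * u i + lam 1 * v i + lam 2 * w i := by
  rw [mulVec, dotProduct, Fin.sum_univ_three]
  simp [mul_comm]

variable {Γ 𝒢 : Type*} [Group Γ] [Group 𝒢]

/-- **[C-PG] (d)** four points in general position have a clopen neighbourhood which is disjoint
from its translates by a discrete group. -/
theorem box4 (φ : 𝒢 →* Γ) (ι : Γ →* GG k 2)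
    (hfin : ∀ r : ℝ, {γ | ∀ i j, ‖(ι γ : Matrix (Fin 3) (Fin 3) k) i j‖ ≤ r}.Finite)
    (hsc : ∀ γ, (∃ c : k, (ι γ : Matrix (Fin 3) (Fin 3) k) =
      c • (1 : Matrix (Fin 3) (Fin 3) k)) → γ = 1)
    {z : ((ℙ k (Fin 3 → k) × ℙ k (Fin 3 → k)) × ℙ k (Fin 3 → k)) × ℙ k (Fin 3 → k)}
    (h123 : z.1 ∉ D3) (h124 : t124 z ∉ D3) (h134 : t134 z ∉ D3) (h234 : t234 z ∉ D3) :
    ∃ C : Clopens (((ℙ k (Fin 3 → k) × ℙ k (Fin 3 → k)) × ℙ k (Fin 3 → k)) × ℙ k (Fin 3 → k)),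
      z ∈ C ∧ ∀ g, φ g ≠ 1 → Disjoint C (((((gaP (ι.comp φ)).prod (gaP (ι.comp φ))).prod
        (gaP (ι.comp φ))).prod (gaP (ι.comp φ))).tr g C) := by
  obtain ⟨⟨⟨a, b⟩, c⟩, d⟩ := z
  obtain ⟨u, rfl⟩ := pj_surj a
  obtain ⟨v, rfl⟩ := pj_surj b
  obtain ⟨w, rfl⟩ := pj_surj c
  obtain ⟨x, rfl⟩ := pj_surj d
  have d1 : tri u.1 v.1 w.1 ≠ 0 := fun h => h123 ((mem_D3 u v w).2 h)
  have d2 : tri u.1 v.1 x.1 ≠ 0 := fun h => h124 ((mem_D3 u v x).2 h)
  have d3 : tri u.1 w.1 x.1 ≠ 0 := fun h => h134 ((mem_D3 u w x).2 h)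
  have d4 : tri v.1 w.1 x.1 ≠ 0 := fun h => h234 ((mem_D3 v w x).2 h)
  obtain ⟨A, hA⟩ : ∃ A : Matrix (Fin 3) (Fin 3) k, A = (Matrix.of ![u.1, v.1, w.1])ᵀ := ⟨_, rfl⟩
  have hAd : A.det ≠ 0 := by
    rw [hA, det_transpose, ← tri_eq_det]
    exact d1
  obtain ⟨lam, hlam⟩ : ∃ lam : Fin 3 → k, lam = A⁻¹ *ᵥ x.1 := ⟨_, rfl⟩
  have hx : A *ᵥ lam = x.1 := by
    rw [hlam, mulVec_mulVec, mul_nonsing_inv _ (isUnit_iff_ne_zero.2 hAd), one_mulVec]
  have hxi : ∀ i, x.1 i = lam 0 * u.1 i + lam 1 * v.1 i + lam 2 * w.1 i := by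
    intro i
    rw [← hx, hA, of_mulVec]
  have hl : ∀ j, lam j ≠ 0 := by
    intro j hj
    fin_cases j
    · refine d4 ?_
      have hj' : lam 0 = 0 := hj
      rw [tri_expand, hxi 0, hxi 1, hxi 2, hj']
      ring
    · refine d3 ?_
      have hj' : lam 1 = 0 := hj
      rw [tri_expand, hxi 0, hxi 1, hxi 2, hj']
      ring
    · refine d2 ?_
      have hj' : lam 2 = 0 := hj
      rw [tri_expand, hxi 0, hxi 1, hxi 2, hj']
      ring
  obtain ⟨ε, hε, hbox⟩ := frame_box ι hfin hsc (by norm_num) hAd hl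
  obtain ⟨Nu, hu1, hu2⟩ := exists_near u hε
  obtain ⟨Nv, hv1, hv2⟩ := exists_near v hε
  obtain ⟨Nw, hw1, hw2⟩ := exists_near w hε
  obtain ⟨Nx, hx1, hx2⟩ := exists_near x hε
  refine ⟨((Nu ×ˢ Nv) ×ˢ Nw) ×ˢ Nx, ⟨⟨⟨hu1, hv1⟩, hw1⟩, hx1⟩, fun g hg => ?_⟩
  intro E hE1 hE2 y hy
  exfalso
  have hy1 := hE1 hy
  have hy2 := hE2 hy
  obtain ⟨⟨⟨y1, y2⟩, y3⟩, y4⟩ := y
  have a1 : y1 ∈ Nu := hy1.1.1.1
  have a2 : y2 ∈ Nv := hy1.1.1.2
  have a3 : y3 ∈ Nw := hy1.1.2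
  have a4 : y4 ∈ Nx := hy1.2
  have b1 : (ι (φ g⁻¹)) • y1 ∈ Nu := hy2.1.1.1
  have b2 : (ι (φ g⁻¹)) • y2 ∈ Nv := hy2.1.1.2
  have b3 : (ι (φ g⁻¹)) • y3 ∈ Nw := hy2.1.2
  have b4 : (ι (φ g⁻¹)) • y4 ∈ Nx := hy2.2
  -- representatives: `p` of `y`, `q` of `g⁻¹ y`
  obtain ⟨p1, e1, f1⟩ := hu2 _ a1
  obtain ⟨p2, e2, f2⟩ := hv2 _ a2
  obtain ⟨p3, e3, f3⟩ := hw2 _ a3
  obtain ⟨p4, e4, f4⟩ := hx2 _ a4
  obtain ⟨q1, e5, f5⟩ := hu2 _ b1
  obtain ⟨q2, e6, f6⟩ := hv2 _ b2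
  obtain ⟨q3, e7, f7⟩ := hw2 _ b3
  obtain ⟨q4, e8, f8⟩ := hx2 _ b4
  have hmv : ∀ (p q : {v : Fin 3 → k // v ≠ 0}), pj k (Fin 3) q = ι (φ g⁻¹) • pj k (Fin 3) p →
      ∃ t : k, (ι (φ g) : Matrix (Fin 3) (Fin 3) k) *ᵥ q.1 = t • p.1 := by
    intro p q h
    rw [smul_pj, pj_eq] at h
    obtain ⟨t, ht⟩ := h
    refine ⟨t, ?_⟩
    have h1 : q.1 = (t : k) • ((ι (φ g⁻¹) : Matrix (Fin 3) (Fin 3) k) *ᵥ p.1) := ht.symm
    rw [h1, mulVec_smul, mulVec_mulVec]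
    have h2 : (ι (φ g) : Matrix (Fin 3) (Fin 3) k) * (ι (φ g⁻¹) : Matrix (Fin 3) (Fin 3) k) = 1 := by
      have h3 : ι (φ g) * ι (φ g⁻¹) = 1 := by
        rw [← map_mul, ← map_mul, mul_inv_cancel, map_one, map_one]
      exact congrArg Subtype.val h3
    rw [h2, one_mulVec]
  obtain ⟨t1, c1⟩ := hmv p1 q1 (by rw [e5, e1])
  obtain ⟨t2, c2⟩ := hmv p2 q2 (by rw [e6, e2])
  obtain ⟨t3, c3⟩ := hmv p3 q3 (by rw [e7, e3])
  obtain ⟨s, c4⟩ := hmv p4 q4 (by rw [e8, e4])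
  have hcol : ∀ (q1 q2 q3 : Fin 3 → k), (∀ i, ‖q1 i - u.1 i‖ < ε) → (∀ i, ‖q2 i - v.1 i‖ < ε) →
      (∀ i, ‖q3 i - w.1 i‖ < ε) → ∀ i j, ‖(Matrix.of ![q1, q2, q3])ᵀ i j - A i j‖ < ε := by
    intro q1 q2 q3 h1 h2 h3 i j
    rw [hA, transpose_apply, transpose_apply]
    fin_cases j
    · exact h1 i
    · exact h2 i
    · exact h3 i
  refine hbox (φ g) hg (Matrix.of ![q1.1, q2.1, q3.1])ᵀ (Matrix.of ![p1.1, p2.1, p3.1])ᵀ
    ![t1, t2, t3] q4.1 p4.1 s (hcol _ _ _ f5 f6 f7) (hcol _ _ _ f1 f2 f3) ?_ ?_ ?_ c4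
  · intro i
    rw [hx]
    exact f8 i
  · intro i
    rw [hx]
    exact f4 i
  · ext i j
    rw [mul_diagonal, transpose_apply, Matrix.mul_apply]
    fin_cases j
    · have := congrFun c1 i
      simpa [mulVec, dotProduct, mul_comm] using this
    · have := congrFun c2 i
      simpa [mulVec, dotProduct, mul_comm] using this
    · have := congrFun c3 i
      simpa [mulVec, dotProduct, mul_comm] using this

/-- (d) in the form of `end_core2`. -/
theorem box_good (φ : 𝒢 →* Γ) (ι : Γ →* GG k 2)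
    (hfin : ∀ r : ℝ, {γ | ∀ i j, ‖(ι γ : Matrix (Fin 3) (Fin 3) k) i j‖ ≤ r}.Finite)
    (hsc : ∀ γ, (∃ c : k, (ι γ : Matrix (Fin 3) (Fin 3) k) =
      c • (1 : Matrix (Fin 3) (Fin 3) k)) → γ = 1)
    {O₃ : ℕ → Clopens ((ℙ k (Fin 3 → k) × ℙ k (Fin 3 → k)) × ℙ k (Fin 3 → k))}
    (hO : NB D3 O₃) (n : ℕ)
    (z : ((ℙ k (Fin 3 → k) × ℙ k (Fin 3 → k)) × ℙ k (Fin 3 → k)) × ℙ k (Fin 3 → k))
    (hz : z ∉ bad4 O₃ n) :
    ∃ C : Clopens (((ℙ k (Fin 3 → k) × ℙ k (Fin 3 → k)) × ℙ k (Fin 3 → k)) × ℙ k (Fin 3 → k)),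
      z ∈ C ∧ ∀ g, ¬ φ g = 1 → Disjoint C (((((gaP (ι.comp φ)).prod (gaP (ι.comp φ))).prod
        (gaP (ι.comp φ))).prod (gaP (ι.comp φ))).tr g C) := by
  refine box4 φ ι hfin hsc ?_ ?_ ?_ ?_
  · exact fun h => hz (Or.inl (Or.inl (hO.sub n h)))
  · exact fun h => hz (Or.inl (Or.inr (hO.sub n h)))
  · exact fun h => hz (Or.inr (Or.inl (hO.sub n h)))
  · exact fun h => hz (Or.inr (Or.inr (hO.sub n h)))

end box

end Vale.Agent.P092.H100.Pg
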