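import Vale.Agent.P092.H100.PgS
import Vale.Agent.P092.SR.St

/-!
P092 (helper100), team C (one simple factor), block [C-PG]: discreteness and scalars for an
embedding `q : Γ → SL_3(k)` as a lattice, and for its contragredient.
-/

set_option linter.all false

open scoped LinearAlgebra.Projectivization Matrix
open Matrix TopologicalSpace Topology Filter

namespace Vale.Agent.P092.H100.Pg

open Vale.Agent.P092.RC (GG YY LL ct l0 Emb)

section emb

variable {k : Type} [NontriviallyNormedField k] {m : ℕ}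

theorem compact_bdd [ProperSpace k] (r : ℝ) :
    IsCompact {g : GG k m | ∀ i j, ‖(g : Matrix (Fin (m + 1)) (Fin (m + 1)) k) i j‖ ≤ r} := by
  have hd : IsClosed {M : Matrix (Fin (m + 1)) (Fin (m + 1)) k | M.det = 1} :=
    isClosed_eq (Continuous.matrix_det continuous_id) continuous_const
  have hcl : IsClosedEmbedding (fun g : GG k m => g.1) := hd.isClosedEmbedding_subtypeVal
  have hK : IsCompact (Set.pi Set.univ fun _ : Fin (m + 1) => Set.pi Set.univ
      fun _ : Fin (m + 1) => Metric.closedBall (0 : k) r) :=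
    isCompact_univ_pi fun _ => isCompact_univ_pi fun _ => isCompact_closedBall _ _
  have h1 := hcl.isCompact_preimage hK
  have e : {g : GG k m | ∀ i j, ‖(g : Matrix (Fin (m + 1)) (Fin (m + 1)) k) i j‖ ≤ r} =
      (fun g : GG k m => g.1) ⁻¹' (Set.pi Set.univ fun _ : Fin (m + 1) => Set.pi Set.univ
      fun _ : Fin (m + 1) => Metric.closedBall (0 : k) r) := by
    ext g
    constructor
    · intro h i _ j _
      rw [mem_closedBall_zero_iff]
      exact h i j
    · intro h i j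
      have := h i trivial j trivial
      rwa [mem_closedBall_zero_iff] at this
  rw [e]
  exact h1

theorem finite_bdd [ProperSpace k] {Λ : Subgroup (GG k m)} (hd : DiscreteTopology Λ) (r : ℝ) :
    {g : GG k m | g ∈ Λ ∧ ∀ i j, ‖(g : Matrix (Fin (m + 1)) (Fin (m + 1)) k) i j‖ ≤ r}.Finite := by
  have hcl : IsClosed (Λ : Set (GG k m)) := Subgroup.isClosed_of_discrete
  have h1 : IsCompact ((Λ : Set (GG k m)) ∩
      {g : GG k m | ∀ i j, ‖(g : Matrix (Fin (m + 1)) (Fin (m + 1)) k) i j‖ ≤ r}) :=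
    (compact_bdd r).inter_left hcl
  have hd' : DiscreteTopology ((Λ : Set (GG k m)) ∩
      {g : GG k m | ∀ i j, ‖(g : Matrix (Fin (m + 1)) (Fin (m + 1)) k) i j‖ ≤ r} :
      Set (GG k m)) :=
    DiscreteTopology.of_subset (s := (Λ : Set (GG k m))) hd Set.inter_subset_left
  exact h1.finite (isDiscrete_iff_discreteTopology.2 hd')

variable {Γ : Type} [Group Γ] {q : Γ →* GG k m}

theorem emb_fin [ProperSpace k] (h : Emb q) (r : ℝ) :
    {γ | ∀ i j, ‖(q γ : Matrix (Fin (m + 1)) (Fin (m + 1)) k) i j‖ ≤ r}.Finite := by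
  have h1 := finite_bdd h.lat.disc r
  refine (h1.preimage (f := q) h.inj.injOn).subset fun γ hγ => ?_
  exact ⟨⟨γ, rfl⟩, hγ⟩

theorem emb_ct_fin [ProperSpace k] (h : Emb q) (r : ℝ) :
    {γ | ∀ i j, ‖((ct : GG k m →* GG k m).comp q γ :
      Matrix (Fin (m + 1)) (Fin (m + 1)) k) i j‖ ≤ r}.Finite := by
  refine ((emb_fin h r).preimage (f := fun γ : Γ => γ⁻¹) (inv_injective.injOn)).subset
    fun γ hγ => ?_
  intro i j
  have h1 : ‖((q γ)⁻¹).1ᵀ j i‖ ≤ r := hγ j i
  rw [map_inv]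
  exact h1

theorem emb_sc (h : Emb q) (hicc : SR.St.ICC Γ) (γ : Γ)
    (hc : ∃ c : k, (q γ : Matrix (Fin (m + 1)) (Fin (m + 1)) k) =
      c • (1 : Matrix (Fin (m + 1)) (Fin (m + 1)) k)) : γ = 1 := by
  obtain ⟨c, hc⟩ := hc
  by_contra hne
  refine hicc γ hne ?_
  have h1 : ∀ x : Γ, x * γ * x⁻¹ = γ := by
    intro x
    have h2 : x * γ = γ * x := by
      apply h.inj
      rw [map_mul, map_mul]
      apply Subtype.ext
      change (q x).1 * (q γ).1 = (q γ).1 * (q x).1
      rw [hc, mul_smul_comm, smul_mul_assoc, mul_one, one_mul]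
    rw [h2, mul_inv_cancel_right]
  refine (Set.finite_singleton γ).subset ?_
  rintro y ⟨x, rfl⟩
  exact h1 x

theorem emb_ct_sc (h : Emb q) (hicc : SR.St.ICC Γ) (γ : Γ)
    (hc : ∃ c : k, ((ct : GG k m →* GG k m).comp q γ : Matrix (Fin (m + 1)) (Fin (m + 1)) k) =
      c • (1 : Matrix (Fin (m + 1)) (Fin (m + 1)) k)) : γ = 1 := by
  obtain ⟨c, hc⟩ := hc
  have h1 : ((q γ)⁻¹).1ᵀ = c • (1 : Matrix (Fin (m + 1)) (Fin (m + 1)) k) := hc
  have h2 : ((q γ)⁻¹).1 = c • (1 : Matrix (Fin (m + 1)) (Fin (m + 1)) k) := by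
    have h3 := congrArg Matrix.transpose h1
    rwa [transpose_transpose, transpose_smul, transpose_one] at h3
  have h4 : γ⁻¹ = 1 := emb_sc h hicc γ⁻¹ ⟨c, by rw [map_inv]; exact h2⟩
  rwa [inv_eq_one] at h4

end emb

end Vale.Agent.P092.H100.Pg
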