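import Vale.Agent.P092.H100.PgE
import Vale.Agent.P092.H264.EndO
import Vale.Agent.P092.H791.Plane
import Vale.Agent.P092.H76.NoInvP

/-!
P092 (helper100), team C (one simple factor), block [C-PG] in the operator form of `EndO`: the
target plane (the quantum objects are lines), the frame box, absence of invariant measures.
-/

set_option linter.all false

open scoped LinearAlgebra.Projectivization Matrix InnerProductSpace ENNReal Pointwise
open Matrix TopologicalSpace Topology Filter MeasureTheory ContinuousLinearMap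

namespace Vale.Agent.P092.H100.Pg

open Vale.Agent.P092.H820
open Vale.Agent.P092.H264 (t124 t134 t234 NB COff)
open Vale.Agent.P092.RC (GG YY LL ct l0 Emb Pic Cm Moore)

section inst

variable {k : Type} [NontriviallyNormedField k] [ProperSpace k] [IsUltrametricDist k]

instance scLL : SecondCountableTopology (LL k) :=
  inferInstanceAs (SecondCountableTopology (ℙ k (Fin 3 → k)))

instance ccLL1 : Countable (Clopens (LL k)) := countable_clopens

instance ccLL2 : Countable (Clopens (LL k × LL k)) := countable_clopens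

instance ccLL3 : Countable (Clopens ((LL k × LL k) × LL k)) := countable_clopens

instance ccLL4 : Countable (Clopens (((LL k × LL k) × LL k) × LL k)) := countable_clopens

instance ccYY : Countable (Clopens (YY k 2)) := cc1

end inst

section geo

variable {k : Type} [NontriviallyNormedField k] {Γ : Type} [Group Γ]

/-- the action on the lines -/
noncomputable def AL (q : Γ →* GG k 2) : H264.Op.GA Γ (LL k) where
  a γ l := q γ • l
  one l := by rw [map_one, one_smul]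
  mul g h l := by rw [map_mul, mul_smul]
  cont g := continuous_const_smul (q g)

/-- the action on the points -/
noncomputable def AY (q : Γ →* GG k 2) : H264.Op.GA Γ (YY k 2) where
  a γ y := q γ • y
  one l := by rw [map_one, one_smul]
  mul g h l := by rw [map_mul, mul_smul]
  cont g := continuous_const_smul (q g)

/-- the meet of two lines -/
noncomputable def lnL (p : LL k × LL k) : YY k 2 := ln (cd p.1, cd p.2)

/-- the concurrent triples -/
def D3L : Set ((LL k × LL k) × LL k) := {z | ((cd z.1.1, cd z.1.2), cd z.2) ∈ D3}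

theorem cd_smul (g : GG k 2) (l : LL k) : cd (g • l) = (ct g : GG k 2) • cd l := rfl

theorem cd_inj {l l' : LL k} : cd l = cd l' ↔ l = l' := Iff.rfl

theorem D3_closed : IsClosed (D3 : Set ((ℙ k (Fin 3 → k) × ℙ k (Fin 3 → k)) × ℙ k (Fin 3 → k))) := by
  have hpo : IsOpenMap (pj k (Fin 3)) := fun S hS => pj_open S hS
  have ho : IsOpenMap (Prod.map (Prod.map (pj k (Fin 3)) (pj k (Fin 3))) (pj k (Fin 3))) :=
    (hpo.prodMap hpo).prodMap hpo
  have hS : IsOpen {p : ({v : Fin 3 → k // v ≠ 0} × {v : Fin 3 → k // v ≠ 0}) ×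
      {v : Fin 3 → k // v ≠ 0} | tri p.1.1.1 p.1.2.1 p.2.1 ≠ 0} := by
    refine isOpen_ne_fun ?_ continuous_const
    have c1 : ∀ i, Continuous fun p : ({v : Fin 3 → k // v ≠ 0} × {v : Fin 3 → k // v ≠ 0}) ×
        {v : Fin 3 → k // v ≠ 0} => p.1.1.1 i := fun i =>
      (continuous_apply i).comp (continuous_subtype_val.comp (continuous_fst.comp continuous_fst))
    have c2 : ∀ i, Continuous fun p : ({v : Fin 3 → k // v ≠ 0} × {v : Fin 3 → k // v ≠ 0}) ×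
        {v : Fin 3 → k // v ≠ 0} => p.1.2.1 i := fun i =>
      (continuous_apply i).comp (continuous_subtype_val.comp (continuous_snd.comp continuous_fst))
    have c3 : ∀ i, Continuous fun p : ({v : Fin 3 → k // v ≠ 0} × {v : Fin 3 → k // v ≠ 0}) ×
        {v : Fin 3 → k // v ≠ 0} => p.2.1 i := fun i =>
      (continuous_apply i).comp (continuous_subtype_val.comp continuous_snd)
    simp only [tri_expand]
    exact (((c1 0).mul (((c2 1).mul (c3 2)).sub ((c2 2).mul (c3 1)))).add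
      ((c1 1).mul (((c2 2).mul (c3 0)).sub ((c2 0).mul (c3 2))))).add
      ((c1 2).mul (((c2 0).mul (c3 1)).sub ((c2 1).mul (c3 0))))
  rw [← isOpen_compl_iff]
  have e : (D3 : Set ((ℙ k (Fin 3 → k) × ℙ k (Fin 3 → k)) × ℙ k (Fin 3 → k)))ᶜ =
      (Prod.map (Prod.map (pj k (Fin 3)) (pj k (Fin 3))) (pj k (Fin 3))) ''
      {p : ({v : Fin 3 → k // v ≠ 0} × {v : Fin 3 → k // v ≠ 0}) ×
      {v : Fin 3 → k // v ≠ 0} | tri p.1.1.1 p.1.2.1 p.2.1 ≠ 0} := by
    ext ⟨⟨a, b⟩, c⟩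
    obtain ⟨u, rfl⟩ := pj_surj a
    obtain ⟨v, rfl⟩ := pj_surj b
    obtain ⟨w, rfl⟩ := pj_surj c
    constructor
    · intro h
      exact ⟨((u, v), w), fun h' => h ((mem_D3 u v w).2 h'), rfl⟩
    · rintro ⟨⟨⟨u', v'⟩, w'⟩, h1, h2⟩ h3
      rw [← h2] at h3
      exact h1 ((mem_D3 u' v' w').1 h3)
  rw [e]
  exact ho _ hS

theorem D3L_closed : IsClosed (D3L : Set ((LL k × LL k) × LL k)) := D3_closed

theorem diagL_closed : IsClosed {p : LL k × LL k | p.1 = p.2} := isClosed_diagonal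

variable [ProperSpace k] [IsUltrametricDist k]

/-- **[C-PG]** the geometry of the target plane in the operator form -/
theorem geoL (q : Γ →* GG k 2) : H264.Op.Geo (AL q) (AY q) lnL D3L where
  off := (geoP q).off
  lne g p hp := by
    have h := ln_smul (ct (q g)) (a := cd p.1) (b := cd p.2) hp
    rw [ct_ct] at h
    exact h
  inv g z hz := smul_D3 (ct (q g)) hz
  l13 z hz h1 h2 := ln_13 hz h1 h2
  l23 z hz h1 h2 := ln_23 hz h1 h2

end geo

section box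

variable {k : Type} [NontriviallyNormedField k] [ProperSpace k] [IsUltrametricDist k]
  {Γ : Type} [Group Γ]

/-- **[C-PG] (4)** -/
theorem boxL (q : Γ →* GG k 2) (hq : Emb q) (hicc : SR.St.ICC Γ)
    (z : ((LL k × LL k) × LL k) × LL k)
    (h123 : z.1 ∉ D3L) (h124 : t124 z ∉ D3L) (h134 : t134 z ∉ D3L) (h234 : t234 z ∉ D3L) :
    ∃ U₁ U₂ U₃ U₄ : Clopens (LL k), z ∈ ((U₁ ×ˢ U₂) ×ˢ U₃) ×ˢ U₄ ∧ ∀ γ : Γ, γ ≠ 1 →
      Disjoint U₁ ((AL q).tr γ U₁) ∨ Disjoint U₂ ((AL q).tr γ U₂) ∨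
      Disjoint U₃ ((AL q).tr γ U₃) ∨ Disjoint U₄ ((AL q).tr γ U₄) := by
  obtain ⟨C, hzC, hC⟩ := box4 (MonoidHom.id Γ) ((ct : GG k 2 →* GG k 2).comp q)
    (emb_ct_fin hq) (emb_ct_sc hq hicc) h123 h124 h134 h234
  obtain ⟨C3, hz3, U₄, hz4, hle⟩ := Clopens.exists_prod_subset C hzC
  obtain ⟨C2, hz2, U₃, hz3', hle3⟩ := Clopens.exists_prod_subset C3 hz3
  obtain ⟨U₁, hz1, U₂, hz2', hle2⟩ := Clopens.exists_prod_subset C2 hz2
  refine ⟨U₁, U₂, U₃, U₄, ⟨⟨⟨hz1, hz2'⟩, hz3'⟩, hz4⟩, fun γ hγ => ?_⟩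
  by_contra hcon
  push Not at hcon
  obtain ⟨n1, n2, n3, n4⟩ := hcon
  have key : ∀ U : Clopens (LL k), ¬ Disjoint U ((AL q).tr γ U) →
      ∃ x, x ∈ U ∧ q γ⁻¹ • x ∈ U := by
    intro U hU
    by_contra hc
    push Not at hc
    refine hU ?_
    intro E hE1 hE2 x hx
    exact absurd (hE2 hx) (hc x (hE1 hx))
  obtain ⟨x1, a1, b1⟩ := key _ n1
  obtain ⟨x2, a2, b2⟩ := key _ n2
  obtain ⟨x3, a3, b3⟩ := key _ n3
  obtain ⟨x4, a4, b4⟩ := key _ n4
  have hd := hC γ hγ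
  have m1 : (((x1, x2), x3), x4) ∈ C := hle ⟨hle3 ⟨hle2 ⟨a1, a2⟩, a3⟩, a4⟩
  have m2 : (((q γ⁻¹ • x1, q γ⁻¹ • x2), q γ⁻¹ • x3), q γ⁻¹ • x4) ∈ C :=
    hle ⟨hle3 ⟨hle2 ⟨b1, b2⟩, b3⟩, b4⟩
  have := disjoint_iff.1 hd
  have m3 : (((x1, x2), x3), x4) ∈ C ⊓ (((((gaP (((ct : GG k 2 →* GG k 2).comp q).comp
      (MonoidHom.id Γ))).prod (gaP (((ct : GG k 2 →* GG k 2).comp q).comp
      (MonoidHom.id Γ)))).prod (gaP (((ct : GG k 2 →* GG k 2).comp q).comp
      (MonoidHom.id Γ)))).prod (gaP (((ct : GG k 2 →* GG k 2).comp q).comp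
      (MonoidHom.id Γ)))).tr γ C) := ⟨m1, m2⟩
  rw [this] at m3
  exact m3

/-- (4) for the complement of a bad set -/
theorem boxL_bad (q : Γ →* GG k 2) (hq : Emb q) (hicc : SR.St.ICC Γ)
    {O₃ : ℕ → Clopens ((LL k × LL k) × LL k)} (hO : NB D3L O₃) (n : ℕ)
    (z : ((LL k × LL k) × LL k) × LL k) (hz : z ∉ H264.Op.bad4 O₃ n) :
    ∃ U₁ U₂ U₃ U₄ : Clopens (LL k), z ∈ ((U₁ ×ˢ U₂) ×ˢ U₃) ×ˢ U₄ ∧ ∀ γ : Γ, γ ≠ 1 →
      Disjoint U₁ ((AL q).tr γ U₁) ∨ Disjoint U₂ ((AL q).tr γ U₂) ∨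
      Disjoint U₃ ((AL q).tr γ U₃) ∨ Disjoint U₄ ((AL q).tr γ U₄) := by
  refine boxL q hq hicc z ?_ ?_ ?_ ?_
  · exact fun h => hz (Or.inl (Or.inl (hO.sub n h)))
  · exact fun h => hz (Or.inl (Or.inr (hO.sub n h)))
  · exact fun h => hz (Or.inr (Or.inl (hO.sub n h)))
  · exact fun h => hz (Or.inr (Or.inr (hO.sub n h)))

end box

section noc

/-- finite covolume passes to the image under an automorphism -/
theorem covol_map {E : Type} [Group E] [TopologicalSpace E] [IsTopologicalGroup E]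
    (θ : E →* E) (hθ : Continuous θ) (hs : Function.Surjective θ) (Γ : Subgroup E)
    (h : ∃ ν : @Measure (E ⧸ Γ) (borel (E ⧸ Γ)), ν ≠ 0 ∧ ν Set.univ < ⊤ ∧
      ∀ g : E, ∀ s : Set (E ⧸ Γ), MeasurableSet[borel (E ⧸ Γ)] s →
      ν ((fun x => g • x) ⁻¹' s) = ν s) :
    ∃ ν : @Measure (E ⧸ Γ.map θ) (borel (E ⧸ Γ.map θ)), ν ≠ 0 ∧ ν Set.univ < ⊤ ∧
      ∀ g : E, ∀ s : Set (E ⧸ Γ.map θ), MeasurableSet[borel (E ⧸ Γ.map θ)] s →
      ν ((fun x => g • x) ⁻¹' s) = ν s := by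
  obtain ⟨ν, h0, hf, hν⟩ := h
  let Φ : E ⧸ Γ → E ⧸ Γ.map θ := Quotient.map' θ (by
    intro a b hab
    rw [QuotientGroup.leftRel_apply] at hab ⊢
    exact ⟨a⁻¹ * b, hab, by rw [map_mul, map_inv]⟩)
  have hΦ : Continuous Φ := by
    refine (QuotientGroup.isQuotientMap_mk Γ).continuous_iff.2 ?_
    exact QuotientGroup.continuous_mk.comp hθ
  letI : MeasurableSpace (E ⧸ Γ) := borel _
  letI : MeasurableSpace (E ⧸ Γ.map θ) := borel _
  haveI : BorelSpace (E ⧸ Γ) := ⟨rfl⟩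
  haveI : BorelSpace (E ⧸ Γ.map θ) := ⟨rfl⟩
  have hm : Measurable Φ := hΦ.measurable
  have hsm : ∀ (g : E) (x : E ⧸ Γ), Φ (g • x) = θ g • Φ x := by
    intro g x
    induction x using QuotientGroup.induction_on with
    | H z =>
      change ((θ (g * z) : E) : E ⧸ Γ.map θ) = ((θ g * θ z : E) : E ⧸ Γ.map θ)
      rw [map_mul]
  refine ⟨ν.map Φ, ?_, ?_, ?_⟩
  · intro h1
    apply h0
    rw [← Measure.measure_univ_eq_zero] at h1 ⊢
    rwa [Measure.map_apply hm MeasurableSet.univ, Set.preimage_univ] at h1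
  · rw [Measure.map_apply hm MeasurableSet.univ, Set.preimage_univ]
    exact hf
  · intro g s hs'
    obtain ⟨g', rfl⟩ := hs g
    have h2 : Measurable fun x : E ⧸ Γ.map θ => θ g' • x := (continuous_const_smul _).measurable
    rw [Measure.map_apply hm (h2 hs'), Measure.map_apply hm hs', ← hν g' _ (hm hs')]
    congr 1
    ext x
    simp only [Set.mem_preimage]
    rw [hsm]

variable {k : Type} [NontriviallyNormedField k] [ProperSpace k] [IsUltrametricDist k]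
  {Γ : Type} [Group Γ] {K : Type} [NormedAddCommGroup K] [InnerProductSpace ℂ K] [CompleteSpace K]
  {q : Γ →* GG k 2} {π : GG k 2 →* (K →L[ℂ] K)} {lam : Γ →* (K →L[ℂ] K)}
  {W : Set (K →L[ℂ] K)} {Ω : K}

theorem noC_aux (ι : Γ →* GG k 2)
    (hcov : ∃ ν : @Measure (GG k 2 ⧸ ι.range) (borel (GG k 2 ⧸ ι.range)), ν ≠ 0 ∧
      ν Set.univ < ⊤ ∧ ∀ g : GG k 2, ∀ s : Set (GG k 2 ⧸ ι.range),
      MeasurableSet[borel (GG k 2 ⧸ ι.range)] s → ν ((fun x => g • x) ⁻¹' s) = ν s)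
    (hP : Pic π lam W Ω) (P : Clopens (ℙ k (Fin 3 → k)) → (K →L[ℂ] K)) (hE : Cpv P)
    (hcm : ∀ U, ∀ w ∈ W, P U * w = w * P U)
    (hc : ∀ m U, P U * π m = π m * P U)
    (hcv : ∀ γ (U V : Clopens (ℙ k (Fin 3 → k))),
      (V : Set (ℙ k (Fin 3 → k))) = ι γ • (U : Set (ℙ k (Fin 3 → k))) →
      lam γ * P U * lam γ⁻¹ = P V) : False := by
  have hn : ∀ C, (⟪Ω, P C Ω⟫_ℂ).re = ‖P C Ω‖ ^ 2 := by
    intro C
    have h3 : ⟪Ω, P C Ω⟫_ℂ = ⟪P C Ω, P C Ω⟫_ℂ := by
      conv_lhs => rw [← hE.idem C]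
      change ⟪Ω, P C (P C Ω)⟫_ℂ = _
      rw [← adjoint_inner_left, ← star_eq_adjoint, hE.sa]
    rw [h3, inner_self_eq_norm_sq_to_K]
    norm_cast
  refine H76.NI.no_inv_clopens (show (0 : Fin 3) ≠ 1 by decide) ι.range hcov
    (fun C => (⟪Ω, P C Ω⟫_ℂ).re) (fun C => ?_) (fun C D hd => ?_) ?_ ?_
  · change 0 ≤ (⟪Ω, P C Ω⟫_ℂ).re
    rw [hn]; positivity
  · change (⟪Ω, P (C ⊔ D) Ω⟫_ℂ).re = _
    rw [hE.add hd, ContinuousLinearMap.add_apply, inner_add_right, Complex.add_re]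
  · change (⟪Ω, P ⊤ Ω⟫_ℂ).re = 1
    rw [hn, hE.top, ContinuousLinearMap.one_apply, hP.nΩ, one_pow]
  · rintro _ ⟨γ, rfl⟩ C D hCD
    change (⟪Ω, P D Ω⟫_ℂ).re = (⟪Ω, P C Ω⟫_ℂ).re
    rw [← hcv γ C D hCD, hP.inv (P C) (fun w hw => hcm C w hw) (fun g => hc g C) γ]

/-- **[C-PG] (6)**, points -/
theorem noC_Y (hq : Emb q) (hP : Pic π lam W Ω) : H264.Op.NoC π lam W (AY q) := by
  intro P hPF hc
  refine noC_aux q hq.lat.covol hP P hPF.cpv hPF.cm hc fun γ U V hV => ?_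
  rw [hPF.cov γ U]
  congr 1
  apply SetLike.coe_injective
  refine Eq.trans ?_ hV.symm
  ext y
  rw [Set.mem_smul_set_iff_inv_smul_mem]
  change q γ⁻¹ • y ∈ (U : Set (ℙ k (Fin 3 → k))) ↔ _
  rw [map_inv]

/-- **[C-PG] (6)**, lines -/
theorem noC_L (hq : Emb q) (hP : Pic π lam W Ω) : H264.Op.NoC π lam W (AL q) := by
  intro P hPF hc
  have hcov := covol_map (ct : GG k 2 →* GG k 2) ct_cont ct_surj q.range hq.lat.covol
  rw [MonoidHom.map_range] at hcov
  refine noC_aux ((ct : GG k 2 →* GG k 2).comp q) hcov hP P hPF.cpv hPF.cm hc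
    fun γ U V hV => ?_
  have h1 := hPF.cov γ U
  have h2 : (AL q).tr γ U = V := by
    apply SetLike.coe_injective
    refine Eq.trans ?_ hV.symm
    have h3 : ∀ y : ℙ k (Fin 3 → k), (ct (q γ⁻¹) : GG k 2) • y ∈ (U : Set (ℙ k (Fin 3 → k))) ↔
        y ∈ ((ct : GG k 2 →* GG k 2).comp q) γ • (U : Set (ℙ k (Fin 3 → k))) := by
      intro y
      rw [Set.mem_smul_set_iff_inv_smul_mem, map_inv, map_inv]
      rfl
    exact Set.ext h3
  rw [h2] at h1
  exact h1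

end noc

section src

variable {k : Type} [NontriviallyNormedField k] [ProperSpace k]
  {Γ : Type} [Group Γ] {K : Type} [NormedAddCommGroup K] [InnerProductSpace ℂ K] [CompleteSpace K]
  {π : GG k 2 →* (K →L[ℂ] K)} {lam : Γ →* (K →L[ℂ] K)}
  {W : Set (K →L[ℂ] K)} {Ω : K}

/-- **[C-PG] (5)**: the frame of the source lines -/
theorem src_moore (hk : H933.LocK k) {i j l : Fin 4} (hij : i ≠ j) (hil : i ≠ l) (hjl : j ≠ l) :
    Moore ((MulAction.stabilizer (GG k 2) (lin (k := k) i) ⊓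
      MulAction.stabilizer (GG k 2) (lin (k := k) j) ⊓
      MulAction.stabilizer (GG k 2) (lin (k := k) l) : Subgroup (GG k 2)) : Set (GG k 2)) :=
  rc_moore (lin_moore hk hij hil hjl)

theorem src_moore2 (hk : H933.LocK k) {i j : Fin 4} (hij : i ≠ j) :
    Moore ((MulAction.stabilizer (GG k 2) (lin (k := k) i) ⊓
      MulAction.stabilizer (GG k 2) (lin (k := k) j) : Subgroup (GG k 2)) : Set (GG k 2)) :=
  rc_moore (sl_moore2 hk (x := lin (k := k) i) (y := lin (k := k) j) (pt_ne hij))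

/-- Moore sets are ergodic in a picture -/
theorem ergS_of_pic (hP : Pic π lam W Ω) {S : Set (GG k 2)} (hS : Moore S) :
    H264.Op.ErgS π lam W S := by
  intro T h1 h2 h3
  exact hP.erg S hS T (fun w hw => h1 w hw) h2 h3

end src

end Vale.Agent.P092.H100.Pg
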