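import Vale.Agent.P092.H100.Pg
import Vale.Agent.P092.H100.Cerg
import Vale.Agent.P092.H899.Simple

/-!
P092 (helper100), team C (one simple factor), block [C-PG] (f): the stabilisers of the points and
of the lines of the source plane in `SL_3(k)`.
-/

set_option linter.all false

open scoped LinearAlgebra.Projectivization Matrix
open Matrix TopologicalSpace Topology Filter

namespace Vale.Agent.P092.H100.Pg

open Vale.Agent.P092.H820 Vale.Agent.P092.H264
open Vale.Agent.P092.RC (GG YY LL ct l0)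
open Vale.Agent.P092.H103 (MooreSet)
open Vale.Agent.P092.H933 (LocK)
open Matrix.SpecialLinearGroup (transvection diag2n)

section moore

variable {E : Type} [Group E] [TopologicalSpace E]

theorem MooreSet.mono' {R R' : Set E} (h : MooreSet E R) (hR : R ⊆ R') : MooreSet E R' :=
  fun 𝓗 _ _ _ σ hσ ξ hξ => h 𝓗 σ hσ ξ fun q hq => hξ q (hR hq)

theorem moore_conj {R : Set E} (h : MooreSet E R) (g : E) :
    MooreSet E {x | g⁻¹ * x * g ∈ R} := by
  intro 𝓗 _ _ _ σ hσ ξ hξ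
  have hm : ∀ (a b : E) (v : 𝓗), σ (a * b) v = σ a (σ b v) := fun a b v => by
    rw [map_mul]; rfl
  have h1 : ∀ q ∈ R, σ q (σ g⁻¹ ξ) = σ g⁻¹ ξ := by
    intro q hq
    have h2 : σ (g * q * g⁻¹) ξ = ξ := hξ _ (by
      change g⁻¹ * (g * q * g⁻¹) * g ∈ R
      have e : g⁻¹ * (g * q * g⁻¹) * g = q := by group
      rwa [e])
    have h3 : σ g⁻¹ (σ (g * q * g⁻¹) ξ) = σ g⁻¹ ξ := by rw [h2]
    rw [← hm] at h3 ⊢
    rw [← h3]
    congr 2
    group
  have h2 := h 𝓗 σ hσ (σ g⁻¹ ξ) h1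
  have h3 : ξ = σ g⁻¹ ξ := by
    have h4 := h2 g
    rw [← hm, mul_inv_cancel, map_one] at h4
    exact h4
  intro x
  rw [h3]
  exact h2 x

theorem rc_moore [IsTopologicalGroup E] {R : Set E} (h : MooreSet E R) : RC.Moore R := by
  intro 𝓗 _ _ _ u h1 h2 ξ hξ
  refine h 𝓗 u ⟨h1, fun η => ?_⟩ ξ hξ
  have := (h2 η).tendsto 1
  rwa [map_one] at this

theorem of_rc_moore [IsTopologicalGroup E] {R : Set E} (h : RC.Moore R) : MooreSet E R := by
  intro 𝓗 _ _ _ u hu ξ hξ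
  exact h 𝓗 u hu.iso (continuous_of_one hu.iso hu.cont) ξ hξ

/-- Moore sets and involutive continuous automorphisms -/
theorem moore_aut {R : Set E} (h : MooreSet E R) (φ : E →* E) (hφ : Continuous φ)
    (hφ2 : ∀ g, φ (φ g) = g) : MooreSet E (φ ⁻¹' R) := by
  intro 𝓗 _ _ _ σ hσ ξ hξ
  have h1 : H933.URep (σ.comp φ) := ⟨fun g η => hσ.iso _ η, fun η => by
    have h2 := hφ.tendsto 1
    rw [map_one] at h2
    exact (hσ.cont η).comp h2⟩
  have h2 := h 𝓗 (σ.comp φ) h1 ξ fun q hq => hξ (φ q) (by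
    change φ (φ q) ∈ R
    rwa [hφ2])
  intro g
  have h3 := h2 (φ g)
  change σ (φ (φ g)) ξ = ξ at h3
  rwa [hφ2] at h3

end moore

section pts

variable {k : Type} [NontriviallyNormedField k]

/-- the stabiliser of a point -/
abbrev Sp (x : ℙ k (Fin 3 → k)) : Subgroup (GG k 2) := MulAction.stabilizer (GG k 2) x

theorem sp_smul (g : GG k 2) (x : ℙ k (Fin 3 → k)) :
    Sp (g • x) = (Sp x).comap (MulAut.conj g⁻¹).toMonoidHom := by
  ext h
  rw [Subgroup.mem_comap, MulAction.mem_stabilizer_iff, MulAction.mem_stabilizer_iff]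
  change h • g • x = g • x ↔ (g⁻¹ * h * g⁻¹⁻¹) • x = x
  rw [inv_inv, mul_smul, mul_smul, inv_smul_eq_iff]

theorem conj_surj (g : GG k 2) : Function.Surjective (MulAut.conj g).toMonoidHom :=
  (MulAut.conj g).surjective

/-- the standard points -/
def e (i : Fin 3) : ℙ k (Fin 3 → k) := pj k (Fin 3) ⟨Pi.single i 1, by
  intro h
  have := congrFun h i
  simp at this⟩

theorem trans_mem {i j : Fin 3} (hij : i ≠ j) (c : k) {m : Fin 3} (hm : m ≠ j) :
    (transvection hij c : GG k 2) ∈ Sp (e (k := k) m) := by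
  rw [MulAction.mem_stabilizer_iff, e, smul_pj]
  refine congrArg (pj k (Fin 3)) (Subtype.ext ?_)
  change (transvection hij c : GG k 2).1 *ᵥ Pi.single m 1 = Pi.single m 1
  rw [Matrix.SpecialLinearGroup.transvection_coe, add_mulVec, one_mulVec]
  have h1 : (single i j c : Matrix (Fin 3) (Fin 3) k) *ᵥ (Pi.single m (1 : k)) = 0 := by
    funext l
    rw [mulVec_single_one]
    simp [Matrix.col, single_apply, hm.symm]
  rw [h1, add_zero]

theorem diag_mem {i j : Fin 3} (hij : i ≠ j) (c : k) (hc : c ≠ 0) (m : Fin 3) :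
    (diag2n hij c hc : GG k 2) ∈ Sp (e (k := k) m) := by
  rw [MulAction.mem_stabilizer_iff, e, smul_pj, pj_eq]
  obtain ⟨d, hd⟩ : ∃ d : k, d = if m = i then c else if m = j then c⁻¹ else 1 := ⟨_, rfl⟩
  have hd0 : d ≠ 0 := by
    rw [hd]
    split_ifs
    · exact hc
    · exact inv_ne_zero hc
    · exact one_ne_zero
  refine ⟨Units.mk0 d hd0, ?_⟩
  change d • (Pi.single m (1 : k) : Fin 3 → k) = (diag2n hij c hc : GG k 2).1 *ᵥ Pi.single m 1
  rw [Matrix.SpecialLinearGroup.diag2n_coe]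
  funext l
  rw [mulVec_diagonal, Pi.smul_apply, smul_eq_mul, hd]
  by_cases hl : l = m
  · rw [hl]
  · rw [Pi.single_eq_of_ne hl, mul_zero, mul_zero]

theorem e_pair : Sp (e (k := k) 0) ⊔ Sp (e (k := k) 1) = ⊤ := by
  refine H899.eq_top_of_e _ fun i j hij c => ?_
  by_cases hj : j = 0
  · exact (le_sup_right : _ ≤ Sp (e (k := k) 0) ⊔ Sp (e (k := k) 1))
      (trans_mem hij c (by rw [hj]; decide))
  · exact (le_sup_left : _ ≤ Sp (e (k := k) 0) ⊔ Sp (e (k := k) 1))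
      (trans_mem hij c (fun h => hj h.symm))

theorem e_triple : (Sp (e (k := k) 0) ⊓ Sp (e (k := k) 1)) ⊔
    (Sp (e (k := k) 0) ⊓ Sp (e (k := k) 2)) ⊔ (Sp (e (k := k) 1) ⊓ Sp (e (k := k) 2)) = ⊤ := by
  refine H899.eq_top_of_e _ fun i j hij c => ?_
  have h3 : ∀ j : Fin 3, j = 0 ∨ j = 1 ∨ j = 2 := by decide
  rcases h3 j with h | h | h
  · exact Subgroup.mem_sup_right ⟨trans_mem hij c (by rw [h]; decide),
      trans_mem hij c (by rw [h]; decide)⟩
  · exact Subgroup.mem_sup_left (Subgroup.mem_sup_right ⟨trans_mem hij c (by rw [h]; decide),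
      trans_mem hij c (by rw [h]; decide)⟩)
  · exact Subgroup.mem_sup_left (Subgroup.mem_sup_left ⟨trans_mem hij c (by rw [h]; decide),
      trans_mem hij c (by rw [h]; decide)⟩)

/-- `SL_3` is transitive on the frames of three points. -/
theorem exists_frame {x y z : ℙ k (Fin 3 → k)} (h : ((x, y), z) ∉ D3) :
    ∃ g : GG k 2, g • e (k := k) 0 = x ∧ g • e (k := k) 1 = y ∧ g • e (k := k) 2 = z := by
  obtain ⟨u, rfl⟩ := pj_surj x
  obtain ⟨v, rfl⟩ := pj_surj y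
  obtain ⟨w, rfl⟩ := pj_surj z
  have hd : tri u.1 v.1 w.1 ≠ 0 := fun h' => h ((mem_D3 u v w).2 h')
  obtain ⟨d, hdd⟩ : ∃ d : k, d = (tri u.1 v.1 w.1)⁻¹ := ⟨_, rfl⟩
  have hd0 : d ≠ 0 := by rw [hdd]; exact inv_ne_zero hd
  obtain ⟨M, hM⟩ : ∃ M : Matrix (Fin 3) (Fin 3) k, M = (Matrix.of ![u.1, v.1, d • w.1])ᵀ :=
    ⟨_, rfl⟩
  have hMd : M.det = 1 := by
    rw [hM, det_transpose, ← tri_eq_det]
    have h1 := tri_smul (1 : k) 1 d u.1 v.1 w.1
    rw [one_smul, one_smul, one_mul, one_mul] at h1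
    rw [h1, hdd, inv_mul_cancel₀ hd]
  obtain ⟨g, hg⟩ : ∃ g : GG k 2, g = ⟨M, hMd⟩ := ⟨_, rfl⟩
  have hcol : ∀ (i : Fin 3) (p : Fin 3 → k), (∀ l, M l i = p l) →
      g • (Pi.single i (1 : k) : Fin 3 → k) = p := by
    intro i p hp
    rw [hg]
    change M *ᵥ Pi.single i 1 = p
    rw [mulVec_single_one]
    funext l
    exact hp l
  have h0 : ∀ l, M l 0 = u.1 l := fun l => by rw [hM]; rfl
  have h1 : ∀ l, M l 1 = v.1 l := fun l => by rw [hM]; rfl
  have h2 : ∀ l, M l 2 = (d • w.1) l := fun l => by rw [hM]; rfl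
  refine ⟨g, ?_, ?_, ?_⟩
  · rw [e, smul_pj]
    exact congrArg (pj k (Fin 3)) (Subtype.ext (hcol 0 _ h0))
  · rw [e, smul_pj]
    exact congrArg (pj k (Fin 3)) (Subtype.ext (hcol 1 _ h1))
  · rw [e, smul_pj, pj_eq]
    exact ⟨Units.mk0 d hd0, (hcol 2 _ h2).symm⟩

/-- two different points are part of a frame -/
theorem exists_third {x y : ℙ k (Fin 3 → k)} (h : x ≠ y) : ∃ z, ((x, y), z) ∉ D3 := by
  obtain ⟨u, rfl⟩ := pj_surj x
  obtain ⟨v, rfl⟩ := pj_surj y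
  have h1 := (pj_ne u v).1 h
  obtain ⟨i, hi⟩ : ∃ i, crossProduct u.1 v.1 i ≠ 0 := by
    by_contra hc
    push Not at hc
    exact h1 (funext hc)
  refine ⟨e i, fun h2 => hi ?_⟩
  have h3 := (mem_D3 u v ⟨Pi.single i 1, _⟩).1 h2
  have h4 : tri u.1 v.1 (Pi.single i 1) = crossProduct u.1 v.1 i := by
    rw [tri, triple_product_permutation, triple_product_permutation, single_one_dotProduct]
  rw [← h4]
  exact h3

theorem sp_pair {x y : ℙ k (Fin 3 → k)} (h : x ≠ y) : Sp x ⊔ Sp y = ⊤ := by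
  obtain ⟨z, hz⟩ := exists_third h
  obtain ⟨g, rfl, rfl, -⟩ := exists_frame hz
  rw [sp_smul, sp_smul, Subgroup.comap_sup_eq _ _ _ (conj_surj _), e_pair, Subgroup.comap_top]

theorem sp_triple {x y z : ℙ k (Fin 3 → k)} (h : ((x, y), z) ∉ D3) :
    (Sp x ⊓ Sp y) ⊔ (Sp x ⊓ Sp z) ⊔ (Sp y ⊓ Sp z) = ⊤ := by
  obtain ⟨g, rfl, rfl, rfl⟩ := exists_frame h
  rw [sp_smul, sp_smul, sp_smul, ← Subgroup.comap_inf, ← Subgroup.comap_inf, ← Subgroup.comap_inf,
    Subgroup.comap_sup_eq _ _ _ (conj_surj _), Subgroup.comap_sup_eq _ _ _ (conj_surj _),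
    e_triple, Subgroup.comap_top]

variable [ProperSpace k]

theorem e_moore (hk : LocK k) : MooreSet (GG k 2)
    (Sp (e (k := k) 0) ⊓ Sp (e (k := k) 1) ⊓ Sp (e (k := k) 2) : Subgroup (GG k 2)) := by
  obtain ⟨x, hx⟩ := NormedField.exists_one_lt_norm k
  have hx0 : x ≠ 0 := norm_pos_iff.1 (lt_trans one_pos hx)
  obtain ⟨b, hb⟩ : ∃ b : ℕ → GG k 2, ∀ N, b N = diag2n (show (0 : Fin 3) ≠ 1 by decide) (x ^ N)
    (pow_ne_zero N hx0) := ⟨_, fun N => rfl⟩
  have h1 : Tendsto b atTop (cocompact (GG k 2)) := by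
    have hv : Continuous fun g : GG k 2 => g.1 := continuous_subtype_val
    have hc : Continuous fun g : GG k 2 => ‖g.1 0 0‖ :=
      ((continuous_apply_apply (0 : Fin 3) (0 : Fin 3)).comp hv).norm
    rw [hasBasis_cocompact.tendsto_right_iff]
    intro K hK
    obtain ⟨C, hC⟩ := (hK.image hc).bddAbove
    have h2 : Tendsto (fun N => ‖(b N).1 0 0‖) atTop atTop := by
      have h3 : ∀ N, ‖(b N).1 0 0‖ = ‖x‖ ^ N := fun N => by
        rw [hb, Matrix.SpecialLinearGroup.diag2n_coe, diagonal_apply_eq, if_pos rfl, norm_pow]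
      simp_rw [h3]
      exact tendsto_pow_atTop_atTop_of_one_lt hx
    filter_upwards [h2.eventually_gt_atTop C] with N hN
    intro hm
    exact absurd (hC ⟨b N, hm, rfl⟩) (not_le.2 hN)
  refine MooreSet.mono' (mooreSet_seq (HMSeq.of (H933.hm_sl hk (by norm_num)) h1)) ?_
  rintro _ ⟨N, rfl⟩
  rw [hb]
  exact ⟨⟨diag_mem _ _ _ _, diag_mem _ _ _ _⟩, diag_mem _ _ _ _⟩

theorem sp_moore (hk : LocK k) {x y z : ℙ k (Fin 3 → k)} (h : ((x, y), z) ∉ D3) :
    MooreSet (GG k 2) (Sp x ⊓ Sp y ⊓ Sp z : Subgroup (GG k 2)) := by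
  obtain ⟨g, rfl, rfl, rfl⟩ := exists_frame h
  have h1 := moore_conj (e_moore hk) g
  refine MooreSet.mono' h1 fun s hs => ?_
  rw [sp_smul, sp_smul, sp_smul, ← Subgroup.comap_inf, ← Subgroup.comap_inf]
  change (g⁻¹ * s * g⁻¹⁻¹) ∈ (Sp (e (k := k) 0) ⊓ Sp (e (k := k) 1) ⊓ Sp (e (k := k) 2) :
    Subgroup (GG k 2))
  rw [inv_inv]
  exact hs

theorem sp_moore2 (hk : LocK k) {x y : ℙ k (Fin 3 → k)} (h : x ≠ y) :
    MooreSet (GG k 2) (Sp x ⊓ Sp y : Subgroup (GG k 2)) := by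
  obtain ⟨z, hz⟩ := exists_third h
  exact MooreSet.mono' (sp_moore hk hz) fun s hs => hs.1

end pts

section lines

variable {k : Type} [NontriviallyNormedField k]

theorem ct_ct (g : GG k 2) : (ct (ct g : GG k 2) : GG k 2) = g := by
  have h1 : (ct g : GG k 2)⁻¹ = ct g⁻¹ := (map_inv (ct : GG k 2 →* GG k 2) g).symm
  apply Subtype.ext
  change ((ct g : GG k 2)⁻¹).1ᵀ = g.1
  rw [h1]
  change ((g⁻¹⁻¹).1ᵀ)ᵀ = g.1
  rw [inv_inv, transpose_transpose]

theorem ct_surj : Function.Surjective (ct : GG k 2 →* GG k 2) := fun g => ⟨ct g, ct_ct g⟩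

theorem ct_cont : Continuous (ct : GG k 2 →* GG k 2) := by
  have h1 : Continuous fun g : GG k 2 => g⁻¹ := continuous_inv
  have hv : Continuous fun g : GG k 2 => g.1 := continuous_subtype_val
  exact Continuous.subtype_mk (hv.comp h1).matrix_transpose _

/-- the stabiliser of a line -/
noncomputable abbrev Sl (l : LL k) : Subgroup (GG k 2) := MulAction.stabilizer (GG k 2) l

/-- the coordinates of a line -/
def cd (l : LL k) : ℙ k (Fin 3 → k) := l

theorem sl_eq (l : LL k) : Sl l = (Sp (cd l)).comap (ct : GG k 2 →* GG k 2) := rfl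

theorem sl_pair {x y : LL k} (h : x ≠ y) : Sl x ⊔ Sl y = ⊤ := by
  rw [sl_eq, sl_eq, Subgroup.comap_sup_eq _ _ _ ct_surj, sp_pair (x := cd x) (y := cd y) h,
    Subgroup.comap_top]

theorem sl_triple {x y z : LL k} (h : ((cd x, cd y), cd z) ∉ D3) :
    (Sl x ⊓ Sl y) ⊔ (Sl x ⊓ Sl z) ⊔ (Sl y ⊓ Sl z) = ⊤ := by
  rw [sl_eq, sl_eq, sl_eq, ← Subgroup.comap_inf, ← Subgroup.comap_inf, ← Subgroup.comap_inf,
    Subgroup.comap_sup_eq _ _ _ ct_surj, Subgroup.comap_sup_eq _ _ _ ct_surj, sp_triple h,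
    Subgroup.comap_top]

theorem sl_moore [ProperSpace k] (hk : LocK k) {x y z : LL k}
    (h : ((cd x, cd y), cd z) ∉ D3) :
    MooreSet (GG k 2) (Sl x ⊓ Sl y ⊓ Sl z : Subgroup (GG k 2)) :=
  moore_aut (sp_moore hk h) ct ct_cont ct_ct

theorem sl_moore2 [ProperSpace k] (hk : LocK k) {x y : LL k} (h : x ≠ y) :
    MooreSet (GG k 2) (Sl x ⊓ Sl y : Subgroup (GG k 2)) :=
  moore_aut (sp_moore2 hk h) ct ct_cont ct_ct

/-- the vectors of the four standard points -/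
def vec : Fin 4 → (Fin 3 → k) := ![![0, 0, 1], ![0, 1, 0], ![1, 0, 0], ![1, 1, 1]]

theorem vec_ne (i : Fin 4) : (vec i : Fin 3 → k) ≠ 0 := by
  intro h
  fin_cases i
  · have := congrFun h 2
    simp [vec] at this
  · have := congrFun h 1
    simp [vec] at this
  · have := congrFun h 0
    simp [vec] at this
  · have := congrFun h 0
    simp [vec] at this

/-- the four standard points -/
def pt (i : Fin 4) : ℙ k (Fin 3 → k) := pj k (Fin 3) ⟨vec i, vec_ne i⟩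

theorem pt_D3 {i j l : Fin 4} (hij : i ≠ j) (hil : i ≠ l) (hjl : j ≠ l) :
    ((pt (k := k) i, pt (k := k) j), pt (k := k) l) ∉ D3 := by
  rw [pt, pt, pt, mem_D3]
  change ¬ tri (vec i : Fin 3 → k) (vec j) (vec l) = 0
  rw [tri_expand]
  fin_cases i <;> fin_cases j <;> fin_cases l <;> simp_all [vec]

theorem pt_ne {i j : Fin 4} (hij : i ≠ j) : pt (k := k) i ≠ pt (k := k) j := by
  rw [pt, pt, pj_ne]
  change crossProduct (vec i : Fin 3 → k) (vec j) ≠ 0
  intro h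
  rw [cross_apply] at h
  have h0 := congrFun h 0
  have h1 := congrFun h 1
  have h2 := congrFun h 2
  fin_cases i <;> fin_cases j <;> simp_all [vec]

/-- the four standard lines -/
def lin (i : Fin 4) : LL k := pt i

theorem lin_zero : (lin 0 : LL k) = l0 := by
  refine congrArg (pj k (Fin 3)) (Subtype.ext ?_)
  change (vec 0 : Fin 3 → k) = Pi.single 2 1
  funext i
  fin_cases i <;> simp [vec]

theorem lin_pair {i j : Fin 4} (hij : i ≠ j) : Sl (lin (k := k) i) ⊔ Sl (lin (k := k) j) = ⊤ :=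
  sl_pair (pt_ne hij)

theorem lin_triple {i j l : Fin 4} (hij : i ≠ j) (hil : i ≠ l) (hjl : j ≠ l) :
    (Sl (lin (k := k) i) ⊓ Sl (lin (k := k) j)) ⊔ (Sl (lin (k := k) i) ⊓ Sl (lin (k := k) l)) ⊔
      (Sl (lin (k := k) j) ⊓ Sl (lin (k := k) l)) = ⊤ :=
  sl_triple (pt_D3 hij hil hjl)

theorem lin_moore [ProperSpace k] (hk : LocK k) {i j l : Fin 4} (hij : i ≠ j) (hil : i ≠ l)
    (hjl : j ≠ l) : MooreSet (GG k 2) (Sl (lin (k := k) i) ⊓ Sl (lin (k := k) j) ⊓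
      Sl (lin (k := k) l) : Subgroup (GG k 2)) :=
  sl_moore hk (pt_D3 hij hil hjl)

/-- the source group is transitive on the lines -/
theorem exists_smul_l0 (l : LL k) : ∃ g : GG k 2, g • (l0 : LL k) = l := by
  have h1 : ∀ x : ℙ k (Fin 3 → k), ∃ g : GG k 2, g • e (k := k) 0 = x := by
    intro x
    obtain ⟨y, hy⟩ : ∃ y, x ≠ y := by
      by_cases h : x = e (k := k) 0
      · refine ⟨pt 3, ?_⟩
        rw [h]
        have h2 : (e (k := k) 0) = pt 2 := by
          refine congrArg (pj k (Fin 3)) (Subtype.ext ?_)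
          change Pi.single 0 1 = (vec 2 : Fin 3 → k)
          funext i
          fin_cases i <;> simp [vec]
        rw [h2]
        exact pt_ne (by decide)
      · exact ⟨e 0, h⟩
    obtain ⟨z, hz⟩ := exists_third hy
    obtain ⟨g, h2, -, -⟩ := exists_frame hz
    exact ⟨g, h2⟩
  obtain ⟨g, hg⟩ := h1 (cd l)
  obtain ⟨g', hg'⟩ := h1 (cd (l0 : LL k))
  refine ⟨ct (g * g'⁻¹), ?_⟩
  change (ct (ct (g * g'⁻¹) : GG k 2) : GG k 2) • cd (l0 : LL k) = cd l
  rw [ct_ct, ← hg', mul_smul, inv_smul_smul, hg]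

end lines

end Vale.Agent.P092.H100.Pg
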