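import Vale.Agent.P092.H100.QForm
import Vale.Agent.P092.H720.TwA
import Vale.Agent.P092.H76.Form
import Vale.Agent.P092.H796.ProdF
import Vale.Agent.P092.H242.ThCK2

/-!
P092-Q (helper100), block [Q-PSI], parts (A), (B): the operator `Ψ_x` of the form `q x c b`.
-/

set_option linter.all false

open scoped InnerProductSpace Topology ENNReal ComplexConjugate
open Filter ContinuousLinearMap MeasureTheory
open Vale.Agent.P092.H160
open Vale.Agent.P092.H156.Sm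
open Vale.Agent.P092.H650

namespace Vale.Agent.P092.H100Q

open Vale.Agent.P092.H100.QPsi (q)
open Vale.Agent.P092.H720
open Vale.Agent.P092.H715.Q
open Vale.Agent.P092.H242.ThC
open Vale.Agent.P092.H796 (fd_fst fd_snd Iso nsq_ab l2_ab nsq_ba l2_ba)

theorem eq_of_inner_dense {E A : Type*} [NormedAddCommGroup E] [InnerProductSpace ℂ E]
    {j : A → E} (hj : DenseRange j) {x y : E} (h : ∀ a, ⟪j a, x⟫_ℂ = ⟪j a, y⟫_ℂ) : x = y := by
  have h1 : ∀ z : E, ⟪z, x⟫_ℂ = ⟪z, y⟫_ℂ := by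
    intro z
    refine hj.induction_on (p := fun z => ⟪z, x⟫_ℂ = ⟪z, y⟫_ℂ) z ?_ h
    exact isClosed_eq (continuous_id.inner continuous_const)
      (continuous_id.inner continuous_const)
  exact ext_inner_left ℂ h1

section form

variable {X G G' K : Type} [Group X] [Countable X] [Group G] [Group G']
  [TopologicalSpace G] [TopologicalSpace G'] [IsTopologicalGroup G] [IsTopologicalGroup G']
  [MeasurableSpace G] [BorelSpace G] [SecondCountableTopology G]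
  [MeasurableSpace G'] [BorelSpace G'] [SecondCountableTopology G']
  [NormedAddCommGroup K] [InnerProductSpace ℂ K] [CompleteSpace K]
  {ρ : X →* (K →L[ℂ] K)} {ω : K} {ι : X →* G} {ι' : X →* G'}
  {μ : Measure G} {μ' : Measure G'} [SFinite μ] [SFinite μ']
  {b c : G → K →L[ℂ] K} {x : G' → K →L[ℂ] K}

omit [Countable X] [MeasurableSpace G] [BorelSpace G] [SecondCountableTopology G]
  [MeasurableSpace G'] [BorelSpace G'] [SecondCountableTopology G'] in
theorem fd_bx (hb : Fd ι ρ b) (hx : Fd ι' ρ x) :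
    Fd (ι.prod ι') ρ (fun z : G × G' => b z.1 * x z.2) := (fd_fst ι' hb).mul (fd_snd ι hx)

omit [Countable X] [MeasurableSpace G] [BorelSpace G] [SecondCountableTopology G]
  [MeasurableSpace G'] [BorelSpace G'] [SecondCountableTopology G'] in
theorem fd_xc (hc : Fd ι ρ c) (hx : Fd ι' ρ x) :
    Fd (ι.prod ι') ρ (fun z : G × G' => x z.2 * c z.1) := (fd_snd ι hx).mul (fd_fst ι' hc)

theorem nsq_bx {B : ℝ≥0∞} (hb : Continuous b) (hx : Continuous x) (hi : Iso μ b B) :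
    nsq ω (μ.prod μ') (fun z : G × G' => b z.1 * x z.2) = B * nsq ω μ' x := nsq_ab hx hb hi

variable [μ.IsMulLeftInvariant] [μ'.IsMulLeftInvariant]

theorem nsq_xc {B : ℝ≥0∞} (h : RegRep ρ ω) (hc : Fd ι ρ c) (hx : Fd ι' ρ x)
    (hi : Iso μ (fun y => adjoint (c y)) B) :
    nsq ω (μ.prod μ') (fun z : G × G' => x z.2 * c z.1) = B * nsq ω μ' x := by
  have h1 := nsq_adj (μ := μ.prod μ') h (fd_xc hc hx).continuous (fd_xc hc hx).equiv
  rw [← h1]
  have e : (fun z : G × G' => adjoint (x z.2 * c z.1)) =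
      fun z : G × G' => adjoint (c z.1) * adjoint (x z.2) := by
    funext z
    exact H796.adj_mul2 _ _
  rw [e, nsq_ab (a := fun y => adjoint (c y)) (b := fun u => adjoint (x u))
    (hx.adj h).continuous (hc.adj h).continuous hi, nsq_adj h hx.continuous hx.equiv]

theorem l2_bx {B : ℝ≥0∞} (hb : Continuous b) (hx : Continuous x) (hi : Iso μ b B) (hB : B ≠ ∞)
    (hx2 : L2 ω μ' x) : L2 ω (μ.prod μ') (fun z : G × G' => b z.1 * x z.2) :=
  l2_ab hx hb hi hB hx2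

theorem l2_xc {B : ℝ≥0∞} (h : RegRep ρ ω) (hc : Fd ι ρ c) (hx : Fd ι' ρ x)
    (hi : Iso μ (fun y => adjoint (c y)) B) (hB : B ≠ ∞) (hx2 : L2 ω μ' x) :
    L2 ω (μ.prod μ') (fun z : G × G' => x z.2 * c z.1) := by
  refine l2_of_nsq (fd_xc hc hx).continuous ?_
  rw [nsq_xc h hc hx hi]
  exact ENNReal.mul_lt_top hB.lt_top (nsq_lt_top hx2)

omit [Countable X] [μ.IsMulLeftInvariant] [μ'.IsMulLeftInvariant] [SFinite μ] [SFinite μ']
  [BorelSpace G] [BorelSpace G'] [Group G] [Group G'] [IsTopologicalGroup G]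
  [IsTopologicalGroup G'] [SecondCountableTopology G] [SecondCountableTopology G']
  [TopologicalSpace G] [TopologicalSpace G'] [CompleteSpace K] in
theorem q_eq_ip (c b : G → K →L[ℂ] K) (x : G' → K →L[ℂ] K) :
    q ω μ μ' x c b = ip ω (μ.prod μ') (fun z : G × G' => x z.2 * c z.1)
      (fun z : G × G' => b z.1 * x z.2) := rfl

omit [Countable X] [μ.IsMulLeftInvariant] [μ'.IsMulLeftInvariant]
  [BorelSpace G] [BorelSpace G'] [Group G] [Group G'] [IsTopologicalGroup G]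
  [IsTopologicalGroup G'] [SecondCountableTopology G] [SecondCountableTopology G']
  [TopologicalSpace G] [TopologicalSpace G'] [CompleteSpace K] in
/-- the form in the order `G' × G` (letters of helper821) -/
theorem q_swap (c b : G → K →L[ℂ] K) (x : G' → K →L[ℂ] K) :
    q ω μ μ' x c b = ip ω (μ'.prod μ) (fun w : G' × G => x w.1 * c w.2)
      (fun w : G' × G => b w.2 * x w.1) :=
  (integral_prod_swap (μ := μ) (ν := μ')
    (fun z : G × G' => ⟪x z.2 (c z.1 ω), b z.1 (x z.2 ω)⟫_ℂ)).symm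

theorem norm_q_le {B C : ℝ≥0∞} (h : RegRep ρ ω) (hc : Fd ι ρ c) (hb : Fd ι ρ b) (hx : Fd ι' ρ x)
    (hx2 : L2 ω μ' x) (hic : Iso μ (fun y => adjoint (c y)) C) (hC : C ≠ ∞)
    (hib : Iso μ b B) (hB : B ≠ ∞) :
    ‖q ω μ μ' x c b‖ ≤ (nsq ω μ' x).toReal * Real.sqrt C.toReal * Real.sqrt B.toReal := by
  have l1 := l2_xc (μ := μ) h hc hx hic hC hx2
  have l2 := l2_bx (μ := μ) hb.continuous hx.continuous hib hB hx2
  have h1 := norm_ip_le l1 l2
  rw [nsq_xc h hc hx hic, nsq_bx hb.continuous hx.continuous hib, ENNReal.toReal_mul,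
    ENNReal.toReal_mul] at h1
  have hN : 0 ≤ (nsq ω μ' x).toReal := ENNReal.toReal_nonneg
  have h2 : ‖q ω μ μ' x c b‖ ^ 2 ≤
      ((nsq ω μ' x).toReal * Real.sqrt C.toReal * Real.sqrt B.toReal) ^ 2 := by
    rw [q_eq_ip]
    refine h1.trans (le_of_eq ?_)
    rw [mul_pow, mul_pow, Real.sq_sqrt ENNReal.toReal_nonneg, Real.sq_sqrt ENNReal.toReal_nonneg]
    ring
  exact (pow_le_pow_iff_left₀ (norm_nonneg _) (by positivity) two_ne_zero).1 h2

end form

section op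

variable {Γ X Y G G' H K : Type} [Group Γ] [Group X] [Group Y] [Group G] [Group G'] [Group H]
  [Countable X] [Countable Y]
  [TopologicalSpace G] [TopologicalSpace G'] [TopologicalSpace H]
  [IsTopologicalGroup G] [IsTopologicalGroup G'] [IsTopologicalGroup H]
  [MeasurableSpace G] [BorelSpace G] [SecondCountableTopology G]
  [MeasurableSpace G'] [BorelSpace G'] [SecondCountableTopology G']
  [MeasurableSpace H] [BorelSpace H] [SecondCountableTopology H]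
  [NormedAddCommGroup K] [InnerProductSpace ℂ K] [CompleteSpace K]
  {V W : Γ →* (K →L[ℂ] K)} {f : X →* Γ} {ρ : X →* (K →L[ℂ] K)} {f' : Y →* Γ}
  {ρ' : Y →* (K →L[ℂ] K)} {ω : K} {κ : Γ →* H} {p : Γ →* G} {ι' : X →* G'}
  (D : Dbl V W f ρ f' ρ' ω) (hκ : DenseRange κ) (hp : DenseRange p) (μ : Measure G)
  (μ' : Measure G') (ν : Measure H) [μ.IsMulLeftInvariant] [ν.IsMulLeftInvariant]
  [μ'.IsMulLeftInvariant] [SFinite μ] [SFinite μ']
  {x : G' → K →L[ℂ] K}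

theorem iso_of_F1 {ι : X →* G} (h1 : F1 ι κ ρ V ω μ) {a : G → K →L[ℂ] K}
    (ha : Smo ι κ ρ V ω μ a) : Iso μ a (nsq ω μ a) := fun ζ => h1.lint ha ζ

theorem iso_adj {a : G → K →L[ℂ] K} (h1 : F1 (p.comp f) κ ρ V ω μ)
    (ha : Smo (p.comp f) κ ρ V ω μ a) (hfr : Frm ρ V ω) :
    Iso μ (fun y => adjoint (a y)) (nsq ω μ a) := by
  have h2 := iso_of_F1 (μ := μ) h1 (Smo.adj hfr ha)
  rwa [nsq_adj hfr.reg ha.toFd.continuous ha.toFd.equiv] at h2

theorem norm_jj_eq (a : TA D hκ p μ ν) :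
    ‖jj D hκ p μ ν a‖ = Real.sqrt (nsq ω μ (a : G → K →L[ℂ] K)).toReal := by
  have h1 : ‖jj D hκ p μ ν a‖ ^ 2 = (nsq ω μ (a : G → K →L[ℂ] K)).toReal :=
    Vale.Agent.P092.H156.Sm.norm_toLp_sq a.2.smo.l2
  rw [← h1, Real.sqrt_sq (norm_nonneg _)]

/-- (A) the operator `Ψ_x`. -/
theorem exists_psi (h1 : F1 (p.comp f) κ ρ V ω μ) (hx : Fd ι' ρ x) (hx2 : L2 ω μ' x) :
    ∃ Ψ : LL D hκ p μ ν →L[ℂ] LL D hκ p μ ν,
      (∀ c b : TA D hκ p μ ν, ⟪jj D hκ p μ ν c, Ψ (jj D hκ p μ ν b)⟫_ℂ =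
        q ω μ μ' x (c : G → K →L[ℂ] K) (b : G → K →L[ℂ] K)) ∧
      ‖Ψ‖ ≤ (nsq ω μ' x).toReal := by
  have l1 : ∀ c : TA D hκ p μ ν,
      L2 ω (μ.prod μ') (fun z : G × G' => x z.2 * (c : G → K →L[ℂ] K) z.1) := fun c =>
    l2_xc D.fr.reg c.2.smo.toFd hx (iso_adj μ h1 c.2.smo D.fr) (nsq_lt_top c.2.smo.l2).ne hx2
  have l2 : ∀ b : TA D hκ p μ ν,
      L2 ω (μ.prod μ') (fun z : G × G' => (b : G → K →L[ℂ] K) z.1 * x z.2) := fun b =>
    l2_bx b.2.smo.toFd.continuous hx.continuous (iso_of_F1 μ h1 b.2.smo)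
      (nsq_lt_top b.2.smo.l2).ne hx2
  obtain ⟨S, hS, -, -, hS4⟩ := H76.exists_form (jj D hκ p μ ν)
    (fun c b => q ω μ μ' x (c : G → K →L[ℂ] K) (b : G → K →L[ℂ] K))
    (fun a b c => by
      rw [q_eq_ip, q_eq_ip, q_eq_ip, ← ip_add_right (l1 a) (l2 b) (l2 c)]
      refine congrArg _ (funext fun z => ?_)
      exact add_mul _ _ _)
    (fun c a b => by
      rw [q_eq_ip, q_eq_ip, ← ip_smul_right]
      refine congrArg _ (funext fun z => ?_)
      change (c • (b : G → K →L[ℂ] K) z.1) * x z.2 = c • ((b : G → K →L[ℂ] K) z.1 * x z.2)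
      rw [smul_mul_assoc])
    (fun a b c => by
      rw [q_eq_ip, q_eq_ip, q_eq_ip, ← ip_add_left (l1 a) (l1 b) (l2 c)]
      refine congrArg (fun F => ip ω (μ.prod μ') F _) (funext fun z => ?_)
      exact mul_add _ _ _)
    (fun c a b => by
      rw [q_eq_ip, q_eq_ip, ← ip_smul_left]
      refine congrArg (fun F => ip ω (μ.prod μ') F _) (funext fun z => ?_)
      change x z.2 * (c • (a : G → K →L[ℂ] K) z.1) = c • (x z.2 * (a : G → K →L[ℂ] K) z.1)
      rw [mul_smul_comm])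
    (nsq ω μ' x).toReal ENNReal.toReal_nonneg
    (fun c b => by
      rw [norm_jj_eq, norm_jj_eq]
      exact norm_q_le D.fr.reg c.2.smo.toFd b.2.smo.toFd hx hx2 (iso_adj μ h1 c.2.smo D.fr)
        (nsq_lt_top c.2.smo.l2).ne (iso_of_F1 μ h1 b.2.smo) (nsq_lt_top b.2.smo.l2).ne)
  exact ⟨S, hS, hS4⟩

/-- two operators with the same form are equal -/
theorem ext_form {S T : LL D hκ p μ ν →L[ℂ] LL D hκ p μ ν}
    (h : ∀ c b : TA D hκ p μ ν, ⟪jj D hκ p μ ν c, S (jj D hκ p μ ν b)⟫_ℂ =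
      ⟪jj D hκ p μ ν c, T (jj D hκ p μ ν b)⟫_ℂ) : S = T := by
  refine ContinuousLinearMap.ext fun ξ => ?_
  refine (dense_jj D hκ p μ ν).induction_on (p := fun ξ => S ξ = T ξ) ξ
    (isClosed_eq S.continuous T.continuous) fun b => ?_
  exact eq_of_inner_dense (dense_jj D hκ p μ ν) fun c => h c b

theorem q_rt [μ.IsMulRightInvariant] (c b : G → K →L[ℂ] K) (y : G) :
    q ω μ μ' x (fun z => c (z * y)) (fun z => b (z * y)) = q ω μ μ' x c b := by
  have h1 : MeasurePreserving (fun z : G × G' => (z.1 * y, z.2)) (μ.prod μ') (μ.prod μ') :=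
    (measurePreserving_mul_right μ y).prod (MeasurePreserving.id μ')
  have h2 : MeasurableEmbedding (fun z : G × G' => (z.1 * y, z.2)) :=
    ((MeasurableEquiv.mulRight y).prodCongr (MeasurableEquiv.refl G')).measurableEmbedding
  exact h1.integral_comp h2 (fun z : G × G' => ⟪x z.2 (c z.1 ω), b z.1 (x z.2 ω)⟫_ℂ)

/-- (B) `Ψ_x` commutes with the right translations. -/
theorem psi_comm [μ.IsMulRightInvariant] {Ψ : LL D hκ p μ ν →L[ℂ] LL D hκ p μ ν}
    (hΨ : ∀ c b : TA D hκ p μ ν, ⟪jj D hκ p μ ν c, Ψ (jj D hκ p μ ν b)⟫_ℂ =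
        q ω μ μ' x (c : G → K →L[ℂ] K) (b : G → K →L[ℂ] K))
    {R : G →* (LL D hκ p μ ν →L[ℂ] LL D hκ p μ ν)}
    (hR : Act (jj D hκ p μ ν) (rT D hκ hp μ ν) R) (y : G) (ξ : LL D hκ p μ ν) :
    Ψ (R y ξ) = R y (Ψ ξ) := by
  have h1 : Ψ * R y = R y * Ψ := by
    refine ext_form D hκ μ ν fun c b => ?_
    change ⟪jj D hκ p μ ν c, Ψ (R y (jj D hκ p μ ν b))⟫_ℂ =
      ⟪jj D hκ p μ ν c, R y (Ψ (jj D hκ p μ ν b))⟫_ℂ
    rw [← hR.inner_inv, hR.coe, hR.coe, hΨ, hΨ]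
    have h2 := q_rt (ω := ω) (x := x) μ μ' ((rT D hκ hp μ ν y⁻¹ c : TA D hκ p μ ν) : G → K →L[ℂ] K)
      (b : G → K →L[ℂ] K) y
    rw [← h2]
    refine congrArg (fun F => q ω μ μ' x F _) (funext fun z => ?_)
    change (c : G → K →L[ℂ] K) z = (c : G → K →L[ℂ] K) (z * y * y⁻¹)
    rw [mul_inv_cancel_right]
  exact congrArg (fun T : LL D hκ p μ ν →L[ℂ] LL D hκ p μ ν => T ξ) h1

end op

end Vale.Agent.P092.H100Q
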