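import Vale.Agent.P092.H565.PosC

/-!
P092-Q (helper100), block [Q-PSI], final form in the letters of helper821: the operator `Ψ` of the
two sided algebra with form `q x`, its commutation and its positivity.
-/

set_option linter.all false

open scoped InnerProductSpace Topology ENNReal NNReal
open Filter ContinuousLinearMap MeasureTheory
open Vale.Agent.P092.H160
open Vale.Agent.P092.H156.Sm
open Vale.Agent.P092.H650

namespace Vale.Agent.P092.H100Q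

open Vale.Agent.P092.H715.Q Vale.Agent.P092.H720 Vale.Agent.P092.H796
open Vale.Agent.P092.H100.QPsi
open Vale.Agent.P092.H242.ThC

variable {Γ X Y G G' H K : Type} [Group Γ] [Group X] [Group Y] [Group G] [Group G'] [Group H]
  [Countable X] [Countable Y]
  [TopologicalSpace G] [TopologicalSpace H] [IsTopologicalGroup G] [IsTopologicalGroup H]
  [TopologicalSpace G'] [IsTopologicalGroup G']
  [MeasurableSpace G] [BorelSpace G] [SecondCountableTopology G]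
  [MeasurableSpace G'] [BorelSpace G'] [SecondCountableTopology G']
  [MeasurableSpace H] [BorelSpace H] [SecondCountableTopology H]
  [NormedAddCommGroup K] [InnerProductSpace ℂ K] [CompleteSpace K]
  {V W : Γ →* (K →L[ℂ] K)} {f : X →* Γ} {ρ : X →* (K →L[ℂ] K)} {f' : Y →* Γ}
  {ρ' : Y →* (K →L[ℂ] K)} {ω : K} {ι' : X →* G'}
  {p : Γ →* G} {κ : Γ →* H} {x : G' → K →L[ℂ] K}
  {μ : Measure G} {μ' : Measure G'} {ν : Measure H}
  [SFinite μ] [SFinite μ'] [μ.IsMulLeftInvariant] [μ'.IsMulLeftInvariant]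
  [μ.IsMulRightInvariant] [SFinite ν] [ν.IsMulLeftInvariant] [ν.IsMulRightInvariant]

/-- **[Q-PSI]**, all parts. -/
theorem psi_fin (D : Dbl V W f ρ f' ρ' ω) (hκ : DenseRange κ) (hp : DenseRange p)
    (h1 : F1 (p.comp f) κ ρ V ω μ) (h2 : F1 (κ.comp f') p ρ' W ω ν) {c : ℝ≥0}
    {U : H →* (LL D hκ p μ ν →L[ℂ] LL D hκ p μ ν)}
    {R : G →* (LL D hκ p μ ν →L[ℂ] LL D hκ p μ ν)}
    (P : Pk (jj D hκ p μ ν) (aT D hκ μ ν) U (c • ν) (rT D hκ hp μ ν) R μ)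
    (hne : ∃ a, jj D hκ p μ ν a ≠ 0) (hx : Fd ι' ρ x) (hx2 : L2 ω μ' x) :
    ∃ Ψ : LL D hκ p μ ν →L[ℂ] LL D hκ p μ ν,
      (∀ b c : TA D hκ p μ ν, ⟪jj D hκ p μ ν c, Ψ (jj D hκ p μ ν b)⟫_ℂ =
        ip ω (μ'.prod μ) (fun w : G' × G => x w.1 * (c : G → K →L[ℂ] K) w.2)
          (fun w : G' × G => (b : G → K →L[ℂ] K) w.2 * x w.1)) ∧
      (∀ y ξ, Ψ (R y ξ) = R y (Ψ ξ)) ∧
      PosOp (jj D hκ p μ ν) (aT D hκ μ ν) (c • ν) Ψ (nsq ω μ' x).toReal := by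
  obtain ⟨Ψ, hΨ, -⟩ := exists_psi D hκ μ μ' ν h1 hx hx2
  refine ⟨Ψ, fun b c => ?_, fun y ξ => psi_comm D hκ hp μ μ' ν hΨ P.actY y ξ,
    H565.posOp_q D hκ hp h1 h2 P.actH P.itgH hne hx hx2 hΨ⟩
  rw [hΨ, q_swap]

end Vale.Agent.P092.H100Q
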