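import Vale.Agent.P092.H156.Sm
import Mathlib.MeasureTheory.Group.Prod

/-!
P092-Q (helper100, literal of helper565), block [Q-PSI]: the form
`q x c b = ∫∫ ⟪x(u) c(y) ω, b(y) x(u) ω⟫`.
-/

set_option linter.all false

open scoped InnerProductSpace Topology ENNReal
open Filter ContinuousLinearMap MeasureTheory

namespace Vale.Agent.P092.H100.QPsi

variable {G G' K : Type} [MeasurableSpace G] [MeasurableSpace G']
  [NormedAddCommGroup K] [InnerProductSpace ℂ K]

/-- the form of [Q-PSI] -/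
noncomputable def q (ω : K) (μ : Measure G) (μ' : Measure G') (x : G' → K →L[ℂ] K)
    (c b : G → K →L[ℂ] K) : ℂ :=
  ∫ z : G × G', ⟪x z.2 (c z.1 ω), b z.1 (x z.2 ω)⟫_ℂ ∂(μ.prod μ')

end Vale.Agent.P092.H100.QPsi
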